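import Vale.Agent.P099.Defs

open MeasureTheory Set Filter Topology

namespace Vale.Agent.P099

/-- A pattern for gluing copies of a triangle `T`, one copy for every `s : S`, to a connected
surface. The copy `σ i s` is the mirror image of the copy `s` in its side `i`, glued to it along this
side; if `σ i s = s`, side `i` of the copy `s` is a wall. -/
structure Gluing (S : Type) where
  σ : Fin 3 → S → S
  invol : ∀ i s, σ i (σ i s) = s
  connected : ∀ A : Set S, A.Nonempty → (∀ i, ∀ s ∈ A, σ i s ∈ A) → A = univ

namespace Triangle

variable (T : Triangle) {S : Type}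

/-- Motion at unit speed on the surface tiled by copies of `T`. A phase point is
`((position, direction), copy)`, position and direction being read in `T` by folding the surface
along the sides. Inside a copy the motion is straight. A motion which reaches the open side `i` of the
copy `a` with direction `u` continues in the copy `σ i a`, with the mirror image of `u` (the straight
continuation on the surface if `σ i a ≠ a`, specular reflection at a wall if `σ i a = a`). -/
def IsTiledTrajectory (G : Gluing S) (γ : ℝ → (ℂ × ℂ) × S) : Prop :=
  ∀ t, ((γ t).1.1 ∈ T.table ∧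
      ∀ᶠ s in 𝓝 t, γ s = (((γ t).1.1 + (s - t) • (γ t).1.2, (γ t).1.2), (γ t).2)) ∨
    ∃ i u a, (γ t).1.1 ∈ T.side i ∧
      (∀ᶠ s in 𝓝[<] t, γ s = (((γ t).1.1 + (s - t) • u, u), a)) ∧
      (∀ᶠ s in 𝓝[>] t, γ s = (((γ t).1.1 + (s - t) • T.refl i u, T.refl i u), G.σ i a))

/-- The uniform distribution on the phase space of the surface: uniform copy, uniform position,
uniform direction. -/
noncomputable def tiledMu (S : Type) [MeasurableSpace S] : Measure ((ℂ × ℂ) × S) :=
  T.mu.prod (ProbabilityTheory.uniformOn univ)

/-- `Φ` is the geodesic (billiard) flow of the tiled surface: almost every phase point moves along a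
trajectory. -/
def IsTiledFlow [MeasurableSpace S] (G : Gluing S) (Φ : ℝ → (ℂ × ℂ) × S → (ℂ × ℂ) × S) : Prop :=
  ∀ᵐ p ∂(T.tiledMu S), Φ 0 p = p ∧ T.IsTiledTrajectory G (fun t => Φ t p)

end Triangle

end Vale.Agent.P099
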