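import Vale.Agent.P099.H184.PT.Cut
import Mathlib.Analysis.Normed.Module.Connected
import Mathlib.Analysis.Normed.Module.Ball.Homeomorph
import Mathlib.LinearAlgebra.Complex.FiniteDimensional
import Mathlib.Analysis.Convex.Topology
import Mathlib.Analysis.Convex.Join
import Mathlib.Tactic

set_option linter.all false

open MeasureTheory Set Filter Topology

namespace Vale.Agent.P099T

open Vale.Agent.P099

/-! ### a connected open set minus a countable set -/

lemma ball_diff_preconnected (c : ℂ) {r : ℝ} (hr : 0 < r) {S : Set ℂ} (hS : S.Countable) :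
    IsPreconnected (Metric.ball c r \ S) := by
  set e := OpenPartialHomeomorph.univBall c r with he
  have hsrc : e.source = univ := OpenPartialHomeomorph.univBall_source c r
  have htgt : e.target = Metric.ball c r := OpenPartialHomeomorph.univBall_target c hr
  have hinj : InjOn e univ := by
    rw [← hsrc]
    exact e.injOn
  have hZ : (e ⁻¹' S).Countable := by
    have := hS.preimage_of_injOn (f := e) (hinj.mono (subset_univ _))
    exact this
  have hcon : IsPreconnected ((e ⁻¹' S)ᶜ : Set ℂ) :=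
    (hZ.isConnected_compl_of_one_lt_rank (by
      rw [Complex.rank_real_complex]; exact Nat.one_lt_ofNat)).isPreconnected
  have himg : Metric.ball c r \ S = e '' (e ⁻¹' S)ᶜ := by
    ext z
    constructor
    · rintro ⟨hz, hzS⟩
      rw [← htgt] at hz
      refine ⟨e.symm z, ?_, e.right_inv hz⟩
      show e (e.symm z) ∉ S
      rwa [e.right_inv hz]
    · rintro ⟨w, hw, rfl⟩
      refine ⟨?_, hw⟩
      rw [← htgt]
      exact e.map_source (by rw [hsrc]; trivial)
  rw [himg]
  have hcont : ContinuousOn e univ := by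
    rw [← hsrc]
    exact e.continuousOn
  exact hcon.image _ (hcont.mono (subset_univ _))

lemma ball_diff_nonempty (c : ℂ) {r : ℝ} (hr : 0 < r) {S : Set ℂ} (hS : S.Countable) :
    (Metric.ball c r \ S).Nonempty := by
  have h := hS.dense_compl ℝ
  obtain ⟨x, hx1, hx2⟩ := h.inter_open_nonempty (Metric.ball c r) Metric.isOpen_ball
    ⟨c, Metric.mem_ball_self hr⟩
  exact ⟨x, hx1, hx2⟩

lemma diff_preconnected {Q : Set ℂ} (hQ : IsOpen Q) (hc : IsPreconnected Q) {S : Set ℂ}
    (hS : S.Countable) : IsPreconnected (Q \ S) := by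
  rw [isPreconnected_closed_iff]
  intro u v hu hv huv hnu hnv
  by_contra hcon
  rw [not_nonempty_iff_eq_empty] at hcon
  -- the two open sets
  set U : Set ℂ := {p | ∃ r > 0, Metric.ball p r \ S ⊆ u} with hU
  set V : Set ℂ := {p | ∃ r > 0, Metric.ball p r \ S ⊆ v} with hV
  have hopen : ∀ t : Set ℂ, IsOpen {p : ℂ | ∃ r > 0, Metric.ball p r \ S ⊆ t} := by
    intro t
    rw [Metric.isOpen_iff]
    rintro p ⟨r, hr, hp⟩
    refine ⟨r / 2, half_pos hr, fun q hq => ⟨r / 2, half_pos hr, fun z hz => hp ⟨?_, hz.2⟩⟩⟩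
    have h1 := Metric.mem_ball.1 hz.1
    have h2 := Metric.mem_ball.1 hq
    have := dist_triangle z q p
    rw [Metric.mem_ball]
    linarith
  have hdisj : ∀ p ∈ Q, ∀ r > 0, ¬ (Metric.ball p r \ S ⊆ u ∧ Metric.ball p r \ S ⊆ v) := by
    rintro p hp r hr ⟨h1, h2⟩
    obtain ⟨ε, hε, hball⟩ := Metric.isOpen_iff.1 hQ p hp
    obtain ⟨x, hx⟩ := ball_diff_nonempty p (lt_min hr hε) hS
    have hx1 : x ∈ Metric.ball p r \ S := ⟨Metric.ball_subset_ball (min_le_left _ _) hx.1, hx.2⟩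
    have hx2 : x ∈ Q := hball (Metric.ball_subset_ball (min_le_right _ _) hx.1)
    have : x ∈ (Q \ S) ∩ (u ∩ v) := ⟨⟨hx2, hx.2⟩, h1 hx1, h2 hx1⟩
    rw [hcon] at this
    exact this
  have hcover : Q ⊆ U ∪ V := by
    intro p hp
    obtain ⟨ε, hε, hball⟩ := Metric.isOpen_iff.1 hQ p hp
    have hpre := ball_diff_preconnected p hε hS
    rw [isPreconnected_closed_iff] at hpre
    have hsub : Metric.ball p ε \ S ⊆ Q \ S := fun x hx => ⟨hball hx.1, hx.2⟩
    have h1 := hpre u v hu hv (hsub.trans huv)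
    by_cases h2 : ((Metric.ball p ε \ S) ∩ u).Nonempty
    · by_cases h3 : ((Metric.ball p ε \ S) ∩ v).Nonempty
      · obtain ⟨x, hx1, hx2⟩ := h1 h2 h3
        have : x ∈ (Q \ S) ∩ (u ∩ v) := ⟨hsub hx1, hx2⟩
        rw [hcon] at this
        exact absurd this (notMem_empty _)
      · left
        refine ⟨ε, hε, fun x hx => ?_⟩
        rcases huv (hsub hx) with h | h
        · exact h
        · exact absurd ⟨x, hx, h⟩ h3
    · right
      refine ⟨ε, hε, fun x hx => ?_⟩
      rcases huv (hsub hx) with h | h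
      · exact absurd ⟨x, hx, h⟩ h2
      · exact h
  have hQU : (Q ∩ U).Nonempty := by
    obtain ⟨x, hx, hxu⟩ := hnu
    refine ⟨x, hx.1, ?_⟩
    rcases hcover hx.1 with h | ⟨r, hr, h⟩
    · exact h
    · have hxv : x ∈ v := h ⟨Metric.mem_ball_self hr, hx.2⟩
      have : x ∈ (Q \ S) ∩ (u ∩ v) := ⟨hx, hxu, hxv⟩
      rw [hcon] at this
      exact absurd this (notMem_empty _)
  have hQV : (Q ∩ V).Nonempty := by
    obtain ⟨x, hx, hxv⟩ := hnv
    refine ⟨x, hx.1, ?_⟩
    rcases hcover hx.1 with ⟨r, hr, h⟩ | h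
    · have hxu : x ∈ u := h ⟨Metric.mem_ball_self hr, hx.2⟩
      have : x ∈ (Q \ S) ∩ (u ∩ v) := ⟨hx, hxu, hxv⟩
      rw [hcon] at this
      exact absurd this (notMem_empty _)
    · exact h
  obtain ⟨p, hp, ⟨r, hr, h1⟩, ⟨r', hr', h2⟩⟩ := hc U V (hopen u) (hopen v) hcover hQU hQV
  refine hdisj p hp (min r r') (lt_min hr hr') ⟨fun x hx => h1 ⟨?_, hx.2⟩, fun x hx => h2 ⟨?_, hx.2⟩⟩
  · exact Metric.ball_subset_ball (min_le_left _ _) hx.1
  · exact Metric.ball_subset_ball (min_le_right _ _) hx.1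

/-! ### triangles -/

lemma bary (x y v z : ℂ) :
    ((cr (y - x) (v - x) : ℝ) : ℂ) * (z - x) =
      ((cr (z - x) (v - x) : ℝ) : ℂ) * (y - x) + ((cr (y - x) (z - x) : ℝ) : ℂ) * (v - x) := by
  apply Complex.ext
  · simp [cr]; ring
  · simp [cr]; ring

lemma cr_continuous (a b : ℂ → ℂ) (ha : Continuous a) (hb : Continuous b) :
    Continuous fun z => cr (a z) (b z) := by
  unfold cr
  exact ((Complex.continuous_re.comp ha).mul (Complex.continuous_im.comp hb)).sub
    ((Complex.continuous_im.comp ha).mul (Complex.continuous_re.comp hb))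

/-- points with nonnegative coordinates are in the triangle -/
lemma mem_tri {x y v z : ℂ} {a b c : ℝ} (ha : 0 ≤ a) (hb : 0 ≤ b) (hc : 0 ≤ c)
    (habc : a + b + c = 1) (hz : z = a • x + b • y + c • v) :
    z ∈ convexHull ℝ ({x, y, v} : Set ℂ) := by
  have h := (convex_convexHull ℝ ({x, y, v} : Set ℂ)).sum_mem (t := Finset.univ)
    (w := ![a, b, c]) (z := ![x, y, v]) (by
      intro i _
      fin_cases i
      exacts [ha, hb, hc]) (by simp [Fin.sum_univ_three, habc]) (by
      intro i _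
      apply subset_convexHull
      fin_cases i <;> simp)
  rw [hz]
  simpa [Fin.sum_univ_three] using h

/-- coordinates of a point of the triangle -/
lemma coords_of_mem {x y v z : ℂ} (hz : z ∈ convexHull ℝ ({x, y, v} : Set ℂ)) :
    ∃ a b c : ℝ, 0 ≤ a ∧ 0 ≤ b ∧ 0 ≤ c ∧ a + b + c = 1 ∧ z = a • x + b • y + c • v := by
  rw [convexHull_insert (by simp), convexHull_pair, mem_convexJoin] at hz
  obtain ⟨p, hp, q, hq, hz⟩ := hz
  rw [mem_singleton_iff] at hp
  subst hp
  obtain ⟨s, t, hs, ht, hst, rfl⟩ := hq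
  obtain ⟨s', t', hs', ht', hst', rfl⟩ := hz
  refine ⟨s', t' * s, t' * t, hs', mul_nonneg ht' hs, mul_nonneg ht' ht, ?_, ?_⟩
  · have : t' * s + t' * t = t' := by rw [← mul_add, hst, mul_one]
    linarith
  · rw [smul_add, smul_smul, smul_smul, add_assoc]

lemma coord_eqs {x y v z : ℂ} {a b c : ℝ} (habc : a + b + c = 1)
    (hz : z = a • x + b • y + c • v) :
    cr (y - x) (z - x) = c * cr (y - x) (v - x) ∧ cr (z - x) (v - x) = b * cr (y - x) (v - x) := by
  have ha : a = 1 - b - c := by linarith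
  subst ha
  subst hz
  constructor
  · simp [cr]; ring
  · simp [cr]; ring

lemma mem_tri_of {x y v z : ℂ} (hD : cr (y - x) (v - x) ≠ 0)
    (hb : 0 ≤ cr (z - x) (v - x) / cr (y - x) (v - x))
    (hc : 0 ≤ cr (y - x) (z - x) / cr (y - x) (v - x))
    (hs : cr (z - x) (v - x) / cr (y - x) (v - x) + cr (y - x) (z - x) / cr (y - x) (v - x) ≤ 1) :
    z ∈ convexHull ℝ ({x, y, v} : Set ℂ) := by
  have hb' := bary x y v z
  obtain ⟨D, hDdef⟩ : ∃ D, D = cr (y - x) (v - x) := ⟨_, rfl⟩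
  rw [← hDdef] at hb' hD hb hc hs
  refine mem_tri (a := 1 - cr (z - x) (v - x) / D - cr (y - x) (z - x) / D)
    (b := cr (z - x) (v - x) / D) (c := cr (y - x) (z - x) / D) (by linarith) hb hc
    (by ring) ?_
  have hDc : (D : ℂ) ≠ 0 := by exact_mod_cast hD
  have h4 : z - x = ((cr (z - x) (v - x) / D : ℝ) : ℂ) * (y - x) +
      ((cr (y - x) (z - x) / D : ℝ) : ℂ) * (v - x) := by
    push_cast
    field_simp
    linear_combination hb'
  simp only [Complex.real_smul]
  push_cast at h4 ⊢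
  linear_combination h4

lemma ev_coords {x y v p : ℂ} (hD : cr (y - x) (v - x) ≠ 0) {a b c : ℝ} (ha : 0 < a) (hb : 0 < b)
    (habc : a + b + c = 1) (hp : p = a • x + b • y + c • v) :
    ∀ᶠ z in 𝓝 p, 0 ≤ cr (z - x) (v - x) / cr (y - x) (v - x) ∧
      cr (z - x) (v - x) / cr (y - x) (v - x) + cr (y - x) (z - x) / cr (y - x) (v - x) ≤ 1 := by
  have hcc : Continuous fun z : ℂ => cr (y - x) (z - x) / cr (y - x) (v - x) :=
    (cr_continuous _ _ continuous_const (continuous_id.sub continuous_const)).div_const _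
  have hbc : Continuous fun z : ℂ => cr (z - x) (v - x) / cr (y - x) (v - x) :=
    (cr_continuous _ _ (continuous_id.sub continuous_const) continuous_const).div_const _
  obtain ⟨e1, e2⟩ := coord_eqs habc hp
  have f1 : cr (y - x) (p - x) / cr (y - x) (v - x) = c := by rw [e1, mul_div_cancel_right₀ _ hD]
  have f2 : cr (p - x) (v - x) / cr (y - x) (v - x) = b := by rw [e2, mul_div_cancel_right₀ _ hD]
  have n2 : ∀ᶠ z in 𝓝 p, 0 < cr (z - x) (v - x) / cr (y - x) (v - x) :=
    hbc.continuousAt.eventually_const_lt (show 0 < cr (p - x) (v - x) / cr (y - x) (v - x) by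
      rw [f2]; exact hb)
  have n3 : ∀ᶠ z in 𝓝 p, cr (z - x) (v - x) / cr (y - x) (v - x) +
      cr (y - x) (z - x) / cr (y - x) (v - x) < 1 :=
    (hbc.add hcc).continuousAt.eventually_lt_const (by
      show cr (p - x) (v - x) / cr (y - x) (v - x) + cr (y - x) (p - x) / cr (y - x) (v - x) < 1
      rw [f1, f2]; linarith)
  filter_upwards [n2, n3] with z h2 h3
  exact ⟨h2.le, h3.le⟩

/-- the open triangle in coordinates -/
lemma open_tri {x y v p : ℂ} (hD : cr (y - x) (v - x) ≠ 0) {a b c : ℝ} (ha : 0 < a) (hb : 0 < b)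
    (hc : 0 < c) (habc : a + b + c = 1) (hp : p = a • x + b • y + c • v) :
    p ∈ interior (convexHull ℝ ({x, y, v} : Set ℂ)) := by
  have hcc : Continuous fun z : ℂ => cr (y - x) (z - x) / cr (y - x) (v - x) :=
    (cr_continuous _ _ continuous_const (continuous_id.sub continuous_const)).div_const _
  obtain ⟨e1, e2⟩ := coord_eqs habc hp
  have f1 : cr (y - x) (p - x) / cr (y - x) (v - x) = c := by rw [e1, mul_div_cancel_right₀ _ hD]
  rw [mem_interior_iff_mem_nhds]
  have n1 : ∀ᶠ z in 𝓝 p, 0 < cr (y - x) (z - x) / cr (y - x) (v - x) :=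
    hcc.continuousAt.eventually_const_lt (show 0 < cr (y - x) (p - x) / cr (y - x) (v - x) by
      rw [f1]; exact hc)
  filter_upwards [n1, ev_coords hD ha hb habc hp] with z h1 h2
  exact mem_tri_of hD h2.1 h1.le h2.2

/-- the two triangles at an edge cover a neighbourhood of the points of the open edge -/
lemma edge_nhds {x y v w p : ℂ} (h : cr (y - x) (v - x) * cr (y - x) (w - x) < 0)
    (hp : p ∈ openSegment ℝ x y) :
    convexHull ℝ ({x, y, v} : Set ℂ) ∪ convexHull ℝ ({x, y, w} : Set ℂ) ∈ 𝓝 p := by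
  obtain ⟨a, b, ha, hb, hab, rfl⟩ := hp
  have hD : cr (y - x) (v - x) ≠ 0 := by
    intro h0
    rw [h0, zero_mul] at h
    exact lt_irrefl _ h
  have hE : cr (y - x) (w - x) ≠ 0 := by
    intro h0
    rw [h0, mul_zero] at h
    exact lt_irrefl _ h
  have h1 := ev_coords hD ha hb (c := 0) (by linarith) (p := a • x + b • y) (by simp)
  have h2 := ev_coords hE ha hb (c := 0) (by linarith) (p := a • x + b • y) (by simp)
  filter_upwards [h1, h2] with z h1 h2
  by_cases h3 : 0 ≤ cr (y - x) (z - x) / cr (y - x) (v - x)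
  · left
    exact mem_tri_of hD h1.1 h3 h1.2
  · right
    refine mem_tri_of hE h2.1 ?_ h2.2
    push Not at h3
    rcases lt_or_gt_of_ne hD with hD' | hD'
    · have hE' : 0 < cr (y - x) (w - x) := by nlinarith
      have : 0 < cr (y - x) (z - x) := by
        by_contra hcon
        push Not at hcon
        exact absurd h3 (not_lt.2 (div_nonneg_of_nonpos hcon hD'.le))
      exact (div_pos this hE').le
    · have hE' : cr (y - x) (w - x) < 0 := by nlinarith
      have : cr (y - x) (z - x) < 0 := by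
        by_contra hcon
        push Not at hcon
        exact absurd h3 (not_lt.2 (div_nonneg hcon hD'.le))
      exact div_nonneg_of_nonpos this.le hE'.le

lemma cr_cyc (x y v : ℂ) : cr (v - y) (x - y) = cr (y - x) (v - x) := by
  simp [cr]; ring

/-- a point of a triangle is a vertex, an interior point, or a point of an open side -/
lemma tri_class {x y v p : ℂ} (hD : cr (y - x) (v - x) ≠ 0)
    (hp : p ∈ convexHull ℝ ({x, y, v} : Set ℂ)) (hpx : p ≠ x) (hpy : p ≠ y) (hpv : p ≠ v) :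
    p ∈ interior (convexHull ℝ ({x, y, v} : Set ℂ)) ∨
      ∃ x' y' v', ({x, y, v} : Finset ℂ) = {x', y', v'} ∧ cr (y' - x') (v' - x') ≠ 0 ∧
        p ∈ openSegment ℝ x' y' := by
  obtain ⟨a, b, c, ha, hb, hc, habc, hz⟩ := coords_of_mem hp
  rcases hc.eq_or_lt with rfl | hc
  · right
    refine ⟨x, y, v, rfl, hD, a, b, ?_, ?_, by linarith, by rw [hz]; simp⟩
    · refine lt_of_le_of_ne ha fun h => hpy ?_
      subst h
      have : b = 1 := by linarith
      subst this
      rw [hz]; simp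
    · refine lt_of_le_of_ne hb fun h => hpx ?_
      subst h
      have : a = 1 := by linarith
      subst this
      rw [hz]; simp
  rcases hb.eq_or_lt with rfl | hb
  · right
    refine ⟨v, x, y, ?_, ?_, c, a, hc, ?_, by linarith, by rw [hz]; simp [add_comm]⟩
    · ext z
      simp only [Finset.mem_insert, Finset.mem_singleton]
      tauto
    · rw [← cr_cyc] at hD
      rw [← cr_cyc]
      have e : cr (y - x) (v - x) = cr (v - y) (x - y) := (cr_cyc _ _ _).symm
      rw [e]
      exact hD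
    · refine lt_of_le_of_ne ha fun h => hpv ?_
      subst h
      have : c = 1 := by linarith
      subst this
      rw [hz]; simp
  rcases ha.eq_or_lt with rfl | ha
  · right
    refine ⟨y, v, x, ?_, ?_, b, c, hb, hc, by linarith, by rw [hz]; simp⟩
    · ext z
      simp only [Finset.mem_insert, Finset.mem_singleton]
      tauto
    · rw [cr_cyc]
      exact hD
  · left
    exact open_tri hD ha hb hc habc hz

/-- **adjacency graph of the inner triangles is connected** -/
theorem conn_trg {Q : Set ℂ} {F : Set (Finset ℂ)} (hQ : IsOpen Q) (hc : IsConnected Q)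
    (hF : Trg Q F)
    (hfr : ∀ τ ∈ F, Disjoint (interior (convexHull ℝ (τ : Set ℂ))) (frontier Q))
    (hed : ∀ τ ∈ Inn Q F, ∀ x ∈ τ, ∀ y ∈ τ, x ≠ y →
      openSegment ℝ x y ⊆ Q ∨ Disjoint (openSegment ℝ x y) Q) :
    ∀ τ ∈ Inn Q F, ∀ τ' ∈ Inn Q F,
      Relation.ReflTransGen (fun a b => b ∈ Inn Q F ∧ Adj Q a b) τ τ' := by
  intro τ hτ τ' hτ'
  by_contra hcon
  set R : Finset ℂ → Prop := fun σ =>
    Relation.ReflTransGen (fun a b => b ∈ Inn Q F ∧ Adj Q a b) τ σ with hR
  have hRInn : ∀ σ, R σ → σ ∈ Inn Q F := by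
    intro σ h
    induction h with
    | refl => exact hτ
    | tail _ h _ => exact h.1
  have hcl : ∀ σ : Finset ℂ, IsClosed (convexHull ℝ (σ : Set ℂ)) := fun σ =>
    (Set.Finite.isCompact_convexHull (𝕜 := ℝ) σ.finite_toSet).isClosed
  have hne : ∀ σ ∈ F, (interior (convexHull ℝ (σ : Set ℂ))).Nonempty := by
    intro σ hσ
    obtain ⟨x, y, z, rfl, hD⟩ := hF.nondeg σ hσ
    refine ⟨(1 / 3 : ℝ) • x + (1 / 3 : ℝ) • y + (1 / 3 : ℝ) • z, ?_⟩
    have := open_tri hD (a := 1 / 3) (b := 1 / 3) (c := 1 / 3) (by norm_num) (by norm_num)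
      (by norm_num) (by norm_num) rfl
    simpa using this
  have hclint : ∀ σ ∈ F, closure (interior (convexHull ℝ (σ : Set ℂ))) =
      convexHull ℝ (σ : Set ℂ) := by
    intro σ hσ
    rw [Convex.closure_interior_eq_closure_of_nonempty_interior (𝕜 := ℝ)
      (convex_convexHull ℝ _) (hne σ hσ),
      (hcl σ).closure_eq]
  have hmeet : ∀ σ ∈ F, ∀ p ∈ convexHull ℝ (σ : Set ℂ), ∀ U : Set ℂ, U ∈ 𝓝 p →
      (interior U ∩ interior (convexHull ℝ (σ : Set ℂ))).Nonempty := by
    intro σ hσ p hp U hU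
    rw [← hclint σ hσ] at hp
    exact mem_closure_iff.1 hp (interior U) isOpen_interior (mem_interior_iff_mem_nhds.2 hU)
  obtain ⟨A, hA⟩ : ∃ A : Set ℂ, A = ⋃ σ ∈ {σ | σ ∈ F ∧ R σ}, convexHull ℝ (σ : Set ℂ) := ⟨_, rfl⟩
  obtain ⟨B, hB⟩ : ∃ B : Set ℂ, B = ⋃ σ ∈ {σ | σ ∈ F ∧ ¬ R σ}, convexHull ℝ (σ : Set ℂ) :=
    ⟨_, rfl⟩
  obtain ⟨S, hS⟩ : ∃ S : Set ℂ, S = ⋃ σ ∈ F, (σ : Set ℂ) := ⟨_, rfl⟩
  have hScount : S.Countable := by
    rw [hS]
    exact hF.finite.countable.biUnion fun σ _ => σ.finite_toSet.countable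
  have hAcl : IsClosed A := by
    rw [hA]
    exact (hF.finite.subset fun σ h => h.1).isClosed_biUnion fun σ _ => hcl σ
  have hBcl : IsClosed B := by
    rw [hB]
    exact (hF.finite.subset fun σ h => h.1).isClosed_biUnion fun σ _ => hcl σ
  have hcov : Q \ S ⊆ A ∪ B := by
    intro p hp
    obtain ⟨σ, hσ, hpσ⟩ := mem_iUnion₂.1 (hF.cover hp.1)
    by_cases h : R σ
    · left
      rw [hA]
      exact mem_biUnion (show σ ∈ {σ | σ ∈ F ∧ R σ} from ⟨hσ, h⟩) hpσ
    · right
      rw [hB]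
      exact mem_biUnion (show σ ∈ {σ | σ ∈ F ∧ ¬ R σ} from ⟨hσ, h⟩) hpσ
  have hmeetQ : ∀ σ ∈ Inn Q F, ((Q \ S) ∩ convexHull ℝ (σ : Set ℂ)).Nonempty := by
    intro σ hσ
    obtain ⟨p, hp⟩ := hne σ hσ.1
    have h := hScount.dense_compl ℝ
    obtain ⟨q, hq1, hq2⟩ := h.inter_open_nonempty _ isOpen_interior ⟨p, hp⟩
    exact ⟨q, ⟨hσ.2 hq1, hq2⟩, interior_subset hq1⟩
  have hQA : ((Q \ S) ∩ A).Nonempty := by
    obtain ⟨q, hq1, hq2⟩ := hmeetQ τ hτ
    refine ⟨q, hq1, ?_⟩
    rw [hA]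
    exact mem_biUnion (show τ ∈ {σ | σ ∈ F ∧ R σ} from ⟨hτ.1, Relation.ReflTransGen.refl⟩) hq2
  have hQB : ((Q \ S) ∩ B).Nonempty := by
    obtain ⟨q, hq1, hq2⟩ := hmeetQ τ' hτ'
    refine ⟨q, hq1, ?_⟩
    rw [hB]
    exact mem_biUnion (show τ' ∈ {σ | σ ∈ F ∧ ¬ R σ} from ⟨hτ'.1, hcon⟩) hq2
  obtain ⟨p, hpQ, hpA, hpB⟩ := isPreconnected_closed_iff.1
    (diff_preconnected hQ hc.isPreconnected hScount) A B hAcl hBcl hcov hQA hQB
  rw [hA] at hpA
  rw [hB] at hpB
  obtain ⟨σ, ⟨hσF, hσR⟩, hpσ⟩ := mem_iUnion₂.1 hpA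
  obtain ⟨σ', ⟨hσF', hσR'⟩, hpσ'⟩ := mem_iUnion₂.1 hpB
  obtain ⟨x, y, v, rfl, hD⟩ := hF.nondeg σ hσF
  have hpS : ∀ z ∈ ({x, y, v} : Finset ℂ), p ≠ z := by
    intro z hz hpz
    apply hpQ.2
    rw [hS, hpz]
    exact mem_biUnion hσF (by exact_mod_cast hz)
  have hpσ1 : p ∈ convexHull ℝ ({x, y, v} : Set ℂ) := by simpa using hpσ
  rcases tri_class hD hpσ1 (hpS x (by simp)) (hpS y (by simp)) (hpS v (by simp)) with hint | hedge
  · have hint' : convexHull ℝ ((({x, y, v} : Finset ℂ)) : Set ℂ) ∈ 𝓝 p := by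
      rw [← mem_interior_iff_mem_nhds]
      simpa using hint
    have h1 := hF.disj _ hσF _ hσF' (hmeet σ' hσF' p hpσ' _ hint')
    rw [← h1] at hσR'
    exact hσR' hσR
  · obtain ⟨x', y', v', heq, hD', hpe⟩ := hedge
    rw [heq] at hσF hσR
    have hpseg : p ∈ segment ℝ x' y' := openSegment_subset_segment ℝ _ _ hpe
    have hIn := hRInn _ hσR
    have hxy : x' ≠ y' := by
      rintro rfl
      apply hD'
      simp [cr]
    have hopen : openSegment ℝ x' y' ⊆ Q := by
      rcases hed _ hIn x' (by simp) y' (by simp) hxy with h | h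
      · exact h
      · exact absurd hpQ.1 (Set.disjoint_left.1 h hpe)
    rcases hF.face x' y' v' hσF hD' with h | ⟨w, hwF, hw⟩
    · exact absurd hpQ.1 (Set.disjoint_left.1 h hpseg)
    have hpw : p ∈ convexHull ℝ ((({x', y', w} : Finset ℂ)) : Set ℂ) := by
      have : segment ℝ x' y' ⊆ convexHull ℝ ((({x', y', w} : Finset ℂ)) : Set ℂ) :=
        segment_subset_convexHull (by simp) (by simp)
      exact this hpseg
    have hwInn : ({x', y', w} : Finset ℂ) ∈ Inn Q F := by
      refine ⟨hwF, ?_⟩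
      have hpre : IsPreconnected (interior (convexHull ℝ ((({x', y', w} : Finset ℂ)) : Set ℂ))) :=
        (Convex.interior (𝕜 := ℝ) (convex_convexHull ℝ _)).isPreconnected
      obtain ⟨q, hq1, hq2⟩ := hmeet _ hwF p hpw Q (hQ.mem_nhds hpQ.1)
      rw [hQ.interior_eq] at hq1
      have hnf : ∀ z ∈ interior (convexHull ℝ ((({x', y', w} : Finset ℂ)) : Set ℂ)),
          z ∈ Q ∨ z ∈ (closure Q)ᶜ := by
        intro z hz
        by_cases hzc : z ∈ closure Q
        · left
          by_contra hzQ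
          refine Set.disjoint_left.1 (hfr _ hwF) hz ?_
          rw [frontier, hQ.interior_eq]
          exact ⟨hzc, hzQ⟩
        · exact Or.inr hzc
      intro z hz
      rcases hnf z hz with h | h
      · exact h
      · obtain ⟨z', -, hz1, hz2⟩ := hpre Q (closure Q)ᶜ hQ isClosed_closure.isOpen_compl hnf
          ⟨q, hq2, hq1⟩ ⟨z, hz, h⟩
        exact absurd (subset_closure hz1) hz2
    have hRw : R {x', y', w} :=
      hσR.tail ⟨hwInn, x', y', v', w, rfl, rfl, hw, hopen⟩
    have hnh : convexHull ℝ ((({x', y', v'} : Finset ℂ)) : Set ℂ) ∪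
        convexHull ℝ ((({x', y', w} : Finset ℂ)) : Set ℂ) ∈ 𝓝 p := by
      simpa using edge_nhds hw hpe
    obtain ⟨q, hq1, hq2⟩ := hmeet σ' hσF' p hpσ' _ hnh
    -- an open set covered by two closed sets
    set O : Set ℂ := interior (convexHull ℝ ((({x', y', v'} : Finset ℂ)) : Set ℂ) ∪
        convexHull ℝ ((({x', y', w} : Finset ℂ)) : Set ℂ)) ∩
        interior (convexHull ℝ (σ' : Set ℂ)) with hO
    have hOo : IsOpen O := isOpen_interior.inter isOpen_interior
    have hqO : q ∈ O := ⟨hq1, hq2⟩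
    by_cases h1 : (O \ convexHull ℝ ((({x', y', w} : Finset ℂ)) : Set ℂ)).Nonempty
    · obtain ⟨z, hz⟩ := h1
      have ho : IsOpen (O \ convexHull ℝ ((({x', y', w} : Finset ℂ)) : Set ℂ)) :=
        hOo.sdiff (hcl _)
      have hsub : O \ convexHull ℝ ((({x', y', w} : Finset ℂ)) : Set ℂ) ⊆
          convexHull ℝ ((({x', y', v'} : Finset ℂ)) : Set ℂ) := by
        rintro z' ⟨hz1, hz2⟩
        rcases interior_subset hz1.1 with h | h
        · exact h
        · exact absurd h hz2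
      have hz3 : z ∈ interior (convexHull ℝ ((({x', y', v'} : Finset ℂ)) : Set ℂ)) :=
        interior_maximal hsub ho hz
      have h2 := hF.disj _ hσF _ hσF' ⟨z, hz3, hz.1.2⟩
      rw [← h2] at hσR'
      exact hσR' hσR
    · rw [not_nonempty_iff_eq_empty, diff_eq_empty] at h1
      have hz3 : q ∈ interior (convexHull ℝ ((({x', y', w} : Finset ℂ)) : Set ℂ)) :=
        interior_maximal h1 hOo hqO
      have h2 := hF.disj _ hwF _ hσF' ⟨q, hz3, hq2⟩
      rw [← h2] at hσR'
      exact hσR' hRw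

end Vale.Agent.P099T
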