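import Vale.Agent.P099.H172.PTConn

set_option linter.all false

open MeasureTheory Set Filter Topology

namespace Vale.Agent.P099T

namespace U1

open Vale.Agent.P099 Vale.Agent.P099T

/-! ### identities for a point of a segment -/

lemma crp1 {x y p : ℂ} {a b : ℝ} (hab : a + b = 1) (hp : p = a • x + b • y) (v : ℂ) :
    cr (y - p) (v - p) = a * cr (y - x) (v - x) := by
  have : b = 1 - a := by linarith
  subst this
  subst hp
  simp [cr]; ring

lemma crp2 {x y p : ℂ} {a b : ℝ} (hab : a + b = 1) (hp : p = a • x + b • y) (v : ℂ) :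
    cr (x - p) (v - p) = -b * cr (y - x) (v - x) := by
  have : b = 1 - a := by linarith
  subst this
  subst hp
  simp [cr]; ring

lemma crp3 {x y p : ℂ} {a b : ℝ} (hab : a + b = 1) (hp : p = a • x + b • y) (v : ℂ) :
    cr (v - y) (p - y) = a * cr (v - y) (x - y) := by
  have : b = 1 - a := by linarith
  subst this
  subst hp
  simp [cr]; ring

lemma crp4 {x y p : ℂ} {a b : ℝ} (hab : a + b = 1) (hp : p = a • x + b • y) (v : ℂ) :
    cr (v - p) (y - p) = -a * cr (y - x) (v - x) ∧ cr (v - p) (x - p) = b * cr (y - x) (v - x) := by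
  have : b = 1 - a := by linarith
  subst this
  subst hp
  constructor
  · simp [cr]; ring
  · simp [cr]; ring

lemma cr_swap (x y v : ℂ) : cr (x - y) (v - y) = -cr (y - x) (v - x) := by
  simp [cr]; ring

lemma cr_swap' (x y v : ℂ) : cr (v - x) (y - x) = -cr (y - x) (v - x) := by
  simp [cr]; ring

/-! ### half planes -/

lemma half_conv {x y v d c : ℂ} (hx : 0 ≤ cr d (x - c)) (hy : 0 ≤ cr d (y - c))
    (hv : 0 ≤ cr d (v - c)) : ∀ z ∈ convexHull ℝ ({x, y, v} : Set ℂ), 0 ≤ cr d (z - c) := by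
  intro z hz
  obtain ⟨α, β, γ, hα, hβ, hγ, hs, rfl⟩ := coords_of_mem hz
  have e : cr d (α • x + β • y + γ • v - c) =
      α * cr d (x - c) + β * cr d (y - c) + γ * cr d (v - c) := by
    have : α = 1 - β - γ := by linarith
    subst this
    simp [cr]; ring
  rw [e]
  positivity

lemma half_conv' {x y v d c : ℂ} (hx : cr d (x - c) ≤ 0) (hy : cr d (y - c) ≤ 0)
    (hv : cr d (v - c) ≤ 0) : ∀ z ∈ convexHull ℝ ({x, y, v} : Set ℂ), cr d (z - c) ≤ 0 := by
  intro z hz
  obtain ⟨α, β, γ, hα, hβ, hγ, hs, rfl⟩ := coords_of_mem hz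
  have e : cr d (α • x + β • y + γ • v - c) =
      α * cr d (x - c) + β * cr d (y - c) + γ * cr d (v - c) := by
    have : α = 1 - β - γ := by linarith
    subst this
    simp [cr]; ring
  rw [e]
  have h1 := mul_nonneg hα (neg_nonneg.2 hx)
  have h2 := mul_nonneg hβ (neg_nonneg.2 hy)
  have h3 := mul_nonneg hγ (neg_nonneg.2 hv)
  linarith

lemma int_sep {A B : Set ℂ} {d c : ℂ} (hd : d ≠ 0) (hA : ∀ z ∈ A, 0 ≤ cr d (z - c))
    (hB : ∀ z ∈ B, cr d (z - c) ≤ 0) : ¬ (interior A ∩ interior B).Nonempty := by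
  rintro ⟨z, hz⟩
  have ho : IsOpen (interior A ∩ interior B) := isOpen_interior.inter isOpen_interior
  have hcont : Continuous fun s : ℝ => z + (s : ℂ) * (Complex.I * d) := by fun_prop
  have hev : ∀ᶠ s : ℝ in 𝓝 0, z + (s : ℂ) * (Complex.I * d) ∈ interior A ∩ interior B := by
    refine hcont.continuousAt.eventually_mem (ho.mem_nhds ?_)
    simpa using hz
  have hev2 : ∀ᶠ s : ℝ in 𝓝[>] 0, z + (s : ℂ) * (Complex.I * d) ∈ interior A ∩ interior B :=
    eventually_nhdsWithin_of_eventually_nhds hev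
  obtain ⟨s, hs, hs0⟩ := (hev2.and self_mem_nhdsWithin).exists
  have hs0' : 0 < s := hs0
  have h1 := hA z (interior_subset hz.1)
  have h2 := hB _ (interior_subset hs.2)
  have e : cr d (z + (s : ℂ) * (Complex.I * d) - c) =
      cr d (z - c) + s * (d.re * d.re + d.im * d.im) := by
    simp [cr]; ring
  have hpos : 0 < d.re * d.re + d.im * d.im := by
    have := Complex.normSq_pos.2 hd
    rwa [Complex.normSq_apply] at this
  rw [e] at h2
  have := mul_pos hs0' hpos
  linarith

/-! ### the elementary move -/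

/-- subdivision of all triangles containing the edge `x y` at the point `p` of this edge -/
def mv (F : Set (Finset ℂ)) (x y p : ℂ) : Set (Finset ℂ) :=
  {σ | (σ ∈ F ∧ ¬ (x ∈ σ ∧ y ∈ σ)) ∨ ∃ v, ({x, y, v} : Finset ℂ) ∈ F ∧
    cr (y - x) (v - x) ≠ 0 ∧ (σ = {p, y, v} ∨ σ = {p, x, v})}

lemma swap3 (x y v : ℂ) : ({x, y, v} : Finset ℂ) = {y, x, v} := Finset.insert_comm _ _ _

lemma rot3 (x y v : ℂ) : ({x, y, v} : Finset ℂ) = {y, v, x} := by
  ext z
  simp only [Finset.mem_insert, Finset.mem_singleton]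
  tauto

lemma mv_comm (F : Set (Finset ℂ)) (x y p : ℂ) : mv F x y p = mv F y x p := by
  ext σ
  simp only [mv, mem_setOf_eq]
  have h : ∀ x y : ℂ, ((σ ∈ F ∧ ¬ (x ∈ σ ∧ y ∈ σ)) ∨ ∃ v, ({x, y, v} : Finset ℂ) ∈ F ∧
    cr (y - x) (v - x) ≠ 0 ∧ (σ = {p, y, v} ∨ σ = {p, x, v})) →
    ((σ ∈ F ∧ ¬ (y ∈ σ ∧ x ∈ σ)) ∨ ∃ v, ({y, x, v} : Finset ℂ) ∈ F ∧
    cr (x - y) (v - y) ≠ 0 ∧ (σ = {p, x, v} ∨ σ = {p, y, v})) := by
    intro x y h
    rcases h with ⟨h1, h2⟩ | ⟨v, h1, h2, h3⟩
    · exact Or.inl ⟨h1, fun h => h2 ⟨h.2, h.1⟩⟩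
    · refine Or.inr ⟨v, ?_, ?_, h3.symm⟩
      · rwa [swap3]
      · rw [cr_swap]
        exact neg_ne_zero.2 h2
  exact ⟨h x y, h y x⟩

/-- the triangles at an edge -/
lemma pair_form {Q : Set ℂ} {F : Set (Finset ℂ)} (hF : Trg Q F) {τ : Finset ℂ} (hτ : τ ∈ F)
    {x y : ℂ} (hx : x ∈ τ) (hy : y ∈ τ) (hxy : x ≠ y) :
    ∃ v, τ = {x, y, v} ∧ cr (y - x) (v - x) ≠ 0 := by
  obtain ⟨a, b, c, rfl, hD⟩ := hF.nondeg τ hτ
  have h1 : cr (c - b) (a - b) ≠ 0 := by rw [cr_cyc]; exact hD
  have h2 : cr (a - c) (b - c) ≠ 0 := by rw [cr_cyc]; exact h1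
  simp only [Finset.mem_insert, Finset.mem_singleton] at hx hy
  rcases hx with rfl | rfl | rfl <;> rcases hy with rfl | rfl | rfl
  · exact absurd rfl hxy
  · exact ⟨c, rfl, hD⟩
  · refine ⟨b, ?_, ?_⟩
    · ext z
      simp only [Finset.mem_insert, Finset.mem_singleton]
      tauto
    · rw [cr_swap']
      exact neg_ne_zero.2 hD
  · refine ⟨c, swap3 _ _ _, ?_⟩
    rw [cr_swap]
    exact neg_ne_zero.2 hD
  · exact absurd rfl hxy
  · exact ⟨a, rot3 _ _ _, h1⟩
  · refine ⟨b, ?_, h2⟩
    rw [← rot3]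
  · refine ⟨a, ?_, ?_⟩
    · ext z
      simp only [Finset.mem_insert, Finset.mem_singleton]
      tauto
    · rw [cr_swap]
      exact neg_ne_zero.2 h1
  · exact absurd rfl hxy

lemma ne_of_cr {x y v : ℂ} (h : cr (y - x) (v - x) ≠ 0) : x ≠ y ∧ y ≠ v ∧ x ≠ v := by
  refine ⟨?_, ?_, ?_⟩
  · rintro rfl
    apply h
    simp [cr]
  · rintro rfl
    apply h
    simp [cr]; ring
  · rintro rfl
    apply h
    simp [cr]

lemma perm6 {a b c x y z : ℂ} (h : ({x, y, z} : Finset ℂ) = {a, b, c}) (hxy : x ≠ y)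
    (hyz : y ≠ z) (hxz : x ≠ z) :
    (x = a ∧ y = b ∧ z = c) ∨ (x = a ∧ y = c ∧ z = b) ∨ (x = b ∧ y = a ∧ z = c) ∨
      (x = b ∧ y = c ∧ z = a) ∨ (x = c ∧ y = a ∧ z = b) ∨ (x = c ∧ y = b ∧ z = a) := by
  have hx : x ∈ ({a, b, c} : Finset ℂ) := by rw [← h]; simp
  have hy : y ∈ ({a, b, c} : Finset ℂ) := by rw [← h]; simp
  have hz : z ∈ ({a, b, c} : Finset ℂ) := by rw [← h]; simp
  simp only [Finset.mem_insert, Finset.mem_singleton] at hx hy hz
  clear h
  rcases hx with rfl | rfl | rfl <;> rcases hy with rfl | rfl | rfl <;>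
    rcases hz with rfl | rfl | rfl <;> simp_all

/-- the condition at an edge -/
def FaceAt (Q : Set ℂ) (F : Set (Finset ℂ)) (x y v : ℂ) : Prop :=
  Disjoint (segment ℝ x y) Q ∨
    ∃ w, ({x, y, w} : Finset ℂ) ∈ F ∧ cr (y - x) (v - x) * cr (y - x) (w - x) < 0

lemma FaceAt.symm {Q : Set ℂ} {F : Set (Finset ℂ)} {x y v : ℂ} (h : FaceAt Q F x y v) :
    FaceAt Q F y x v := by
  rcases h with h | ⟨w, h1, h2⟩
  · left
    rwa [segment_symm]
  · right
    refine ⟨w, by rwa [swap3], ?_⟩
    rw [cr_swap x y v, cr_swap x y w, neg_mul_neg]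
    exact h2

lemma faceAt_perm {Q : Set ℂ} {F : Set (Finset ℂ)} {a b c x y v : ℂ}
    (h : ({x, y, v} : Finset ℂ) = {a, b, c}) (hD : cr (y - x) (v - x) ≠ 0)
    (h1 : FaceAt Q F a b c) (h2 : FaceAt Q F b c a) (h3 : FaceAt Q F a c b) :
    FaceAt Q F x y v := by
  obtain ⟨n1, n2, n3⟩ := ne_of_cr hD
  rcases perm6 h n1 n2 n3 with ⟨rfl, rfl, rfl⟩ | ⟨rfl, rfl, rfl⟩ | ⟨rfl, rfl, rfl⟩ |
    ⟨rfl, rfl, rfl⟩ | ⟨rfl, rfl, rfl⟩ | ⟨rfl, rfl, rfl⟩
  exacts [h1, h3, h1.symm, h2, h3.symm, h2.symm]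

section move

variable {Q : Set ℂ} {F : Set (Finset ℂ)} (hF : Trg Q F) {x y p : ℂ} {a b : ℝ} (ha : 0 < a)
  (hb : 0 < b) (hab : a + b = 1) (hp : p = a • x + b • y)

include hF ha hb hab hp

/-- the conditions at the edges of a new triangle -/
lemma new_face {v : ℂ} (hv : ({x, y, v} : Finset ℂ) ∈ F) (hD : cr (y - x) (v - x) ≠ 0)
    {x1 y1 v1 : ℂ} (h : ({x1, y1, v1} : Finset ℂ) = {p, y, v})
    (hD1 : cr (y1 - x1) (v1 - x1) ≠ 0) : FaceAt Q (mv F x y p) x1 y1 v1 := by
  obtain ⟨n1, n2, n3⟩ := ne_of_cr hD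
  refine faceAt_perm h hD1 ?_ ?_ ?_
  · rcases hF.face x y v hv hD with h1 | ⟨w, hw, h1⟩
    · left
      refine h1.mono_left ?_
      refine (convex_segment x y).segment_subset ?_ (right_mem_segment ℝ x y)
      rw [hp]
      exact ⟨a, b, ha.le, hb.le, hab, rfl⟩
    · right
      refine ⟨w, ?_, ?_⟩
      · right
        refine ⟨w, hw, ?_, Or.inl rfl⟩
        intro h0
        rw [h0, mul_zero] at h1
        exact lt_irrefl _ h1
      · rw [crp1 hab hp, crp1 hab hp]
        have : a * cr (y - x) (v - x) * (a * cr (y - x) (w - x)) =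
            (a * a) * (cr (y - x) (v - x) * cr (y - x) (w - x)) := by ring
        rw [this]
        exact mul_neg_of_pos_of_neg (mul_pos ha ha) h1
  · have hv' : ({y, v, x} : Finset ℂ) ∈ F := by rwa [← rot3]
    have hD' : cr (v - y) (x - y) ≠ 0 := by rw [cr_cyc]; exact hD
    rcases hF.face y v x hv' hD' with h1 | ⟨w, hw, h1⟩
    · exact Or.inl h1
    · right
      refine ⟨w, ?_, ?_⟩
      · left
        refine ⟨hw, fun hxy => ?_⟩
        have h2 := hxy.1
        simp only [Finset.mem_insert, Finset.mem_singleton] at h2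
        rcases h2 with h2 | h2 | h2
        · exact n1 h2
        · exact n3 h2
        · rw [h2] at h1
          exact absurd h1 (not_lt.2 (mul_self_nonneg _))
      · rw [crp3 hab hp, mul_assoc]
        exact mul_neg_of_pos_of_neg ha h1
  · right
    refine ⟨x, ?_, ?_⟩
    · right
      refine ⟨v, hv, hD, Or.inr ?_⟩
      ext z
      simp only [Finset.mem_insert, Finset.mem_singleton]
      tauto
    · obtain ⟨e1, e2⟩ := crp4 hab hp v
      rw [e1, e2]
      have : -a * cr (y - x) (v - x) * (b * cr (y - x) (v - x)) =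
          -((a * b) * (cr (y - x) (v - x) * cr (y - x) (v - x))) := by ring
      rw [this, neg_neg_iff_pos]
      exact mul_pos (mul_pos ha hb) (mul_self_pos.2 hD)

/-- the condition at an edge of an old triangle, the neighbour is subdivided -/
lemma old_face {x1 v1 : ℂ} (hw : ({x1, y, x} : Finset ℂ) ∈ F)
    (h1 : cr (y - x1) (v1 - x1) * cr (y - x1) (x - x1) < 0) :
    FaceAt Q (mv F x y p) x1 y v1 := by
  have hne : cr (y - x1) (x - x1) ≠ 0 := by
    intro h0
    rw [h0, mul_zero] at h1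
    exact lt_irrefl _ h1
  right
  refine ⟨p, ?_, ?_⟩
  · right
    refine ⟨x1, ?_, ?_, Or.inl ?_⟩
    · have e : ({x, y, x1} : Finset ℂ) = {x1, y, x} := by
        ext z
        simp only [Finset.mem_insert, Finset.mem_singleton]
        tauto
      rw [e]
      exact hw
    · have e : cr (y - x) (x1 - x) = -cr (y - x1) (x - x1) := by
        simp [cr]; ring
      rw [e]
      exact neg_ne_zero.2 hne
    · ext z
      simp only [Finset.mem_insert, Finset.mem_singleton]
      tauto
  · have e : cr (y - x1) (p - x1) = a * cr (y - x1) (x - x1) := by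
      have : b = 1 - a := by linarith
      subst this
      subst hp
      simp [cr]; ring
    rw [e]
    have : cr (y - x1) (v1 - x1) * (a * cr (y - x1) (x - x1)) =
        a * (cr (y - x1) (v1 - x1) * cr (y - x1) (x - x1)) := by ring
    rw [this]
    exact mul_neg_of_pos_of_neg ha h1

lemma sub_hull {v : ℂ} : convexHull ℝ ({p, y, v} : Set ℂ) ⊆ convexHull ℝ ({x, y, v} : Set ℂ) := by
  refine convexHull_min ?_ (convex_convexHull ℝ _)
  intro z hz
  simp only [mem_insert_iff, mem_singleton_iff] at hz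
  rcases hz with rfl | rfl | rfl
  · exact mem_tri ha.le hb.le le_rfl (by linarith) (by rw [hp]; simp)
  · exact subset_convexHull ℝ _ (by simp)
  · exact subset_convexHull ℝ _ (by simp)

lemma cover_hull {v : ℂ} : convexHull ℝ ({x, y, v} : Set ℂ) ⊆
    convexHull ℝ ({p, y, v} : Set ℂ) ∪ convexHull ℝ ({p, x, v} : Set ℂ) := by
  intro z hz
  obtain ⟨α, β, γ, hα, hβ, hγ, hs, hz⟩ := coords_of_mem hz
  rcases le_total (α * b) (β * a) with h | h
  · left
    refine mem_tri (a := α / a) (b := β - α * b / a) (c := γ) (div_nonneg hα ha.le) ?_ hγ ?_ ?_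
    · rw [sub_nonneg, div_le_iff₀ ha]
      exact h
    · have : b = 1 - a := by linarith
      subst this
      field_simp
      nlinarith
    · rw [hz, hp]
      simp only [smul_add, smul_smul, sub_smul]
      have e1 : α / a * a = α := by field_simp
      have e2 : α * b / a = α / a * b := by ring
      rw [e1, e2]
      abel
  · right
    refine mem_tri (a := β / b) (b := α - β * a / b) (c := γ) (div_nonneg hβ hb.le) ?_ hγ ?_ ?_
    · rw [sub_nonneg, div_le_iff₀ hb]
      exact h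
    · have : a = 1 - b := by linarith
      subst this
      field_simp
      nlinarith
    · rw [hz, hp]
      simp only [smul_add, smul_smul, sub_smul]
      have e1 : β / b * b = β := by field_simp
      have e2 : β * a / b = β / b * a := by ring
      rw [e1, e2]
      abel

lemma new_disj {v : ℂ} (hD : cr (y - x) (v - x) ≠ 0) :
    ¬ (interior (convexHull ℝ ({p, y, v} : Set ℂ)) ∩
      interior (convexHull ℝ ({p, x, v} : Set ℂ))).Nonempty := by
  obtain ⟨e1, e2⟩ := crp4 hab hp v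
  have hd : v - p ≠ 0 := by
    intro h0
    rw [h0] at e2
    have : cr 0 (x - p) = 0 := by simp [cr]
    rw [this] at e2
    exact mul_ne_zero hb.ne' hD e2.symm
  have z1 : cr (v - p) (p - p) = 0 := by simp [cr]
  have z2 : cr (v - p) (v - p) = 0 := by simp [cr]; ring
  rcases lt_or_gt_of_ne hD with h | h
  · refine int_sep (c := p) hd (half_conv z1.ge ?_ z2.ge) (half_conv' z1.le ?_ z2.le)
    · rw [e1]; nlinarith
    · rw [e2]; nlinarith
  · intro hne
    rw [inter_comm] at hne
    refine int_sep (c := p) hd (half_conv z1.ge ?_ z2.ge) (half_conv' z1.le ?_ z2.le) hne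
    · rw [e2]; nlinarith
    · rw [e1]; nlinarith

lemma mv_finite : (mv F x y p).Finite := by
  have h1 : mv F x y p ⊆ F ∪ (⋃ τ ∈ F, {σ | σ = insert p (τ.erase x) ∨ σ = insert p (τ.erase y)}) := by
    rintro σ (⟨h, -⟩ | ⟨v, hv, hD, h⟩)
    · exact Or.inl h
    · right
      obtain ⟨n1, n2, n3⟩ := ne_of_cr hD
      refine mem_biUnion hv ?_
      have e1 : ({x, y, v} : Finset ℂ).erase x = {y, v} := by
        rw [Finset.erase_insert]
        simp [n1, n3]
      have e2 : ({x, y, v} : Finset ℂ).erase y = {x, v} := by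
        rw [Finset.insert_comm, Finset.erase_insert]
        simp [n1.symm, n2]
      rw [mem_setOf_eq, e1, e2]
      exact h
  refine (hF.finite.union (hF.finite.biUnion fun τ _ => ?_)).subset h1
  have : {σ : Finset ℂ | σ = insert p (τ.erase x) ∨ σ = insert p (τ.erase y)} =
      {insert p (τ.erase x), insert p (τ.erase y)} := by
    ext σ
    simp
  rw [this]
  exact toFinite _

/-- interior of a new triangle -/
lemma new_int {σ : Finset ℂ} {v : ℂ} (h : σ = {p, y, v} ∨ σ = {p, x, v}) :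
    interior (convexHull ℝ (σ : Set ℂ)) ⊆
      interior (convexHull ℝ ((({x, y, v} : Finset ℂ)) : Set ℂ)) := by
  refine interior_mono ?_
  rcases h with rfl | rfl
  · simpa using sub_hull hF ha hb hab hp (v := v)
  · have h1 := sub_hull hF hb ha (by linarith) (x := y) (y := x) (p := p)
      (by rw [hp]; exact add_comm _ _) (v := v)
    have e : ({y, x, v} : Set ℂ) = {x, y, v} := insert_comm _ _ _
    rw [e] at h1
    simpa using h1

lemma mv_nondeg : ∀ τ ∈ mv F x y p, ∃ x y z, τ = {x, y, z} ∧ cr (y - x) (z - x) ≠ 0 := by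
  intro σ hσ
  rcases hσ with ⟨h, -⟩ | ⟨v, hv, hD, h | h⟩
  · exact hF.nondeg σ h
  · refine ⟨p, y, v, h, ?_⟩
    rw [crp1 hab hp]
    exact mul_ne_zero ha.ne' hD
  · refine ⟨p, x, v, h, ?_⟩
    rw [crp2 hab hp]
    exact mul_ne_zero (neg_ne_zero.2 hb.ne') hD

lemma mv_disj_old {σ : Finset ℂ} {v : ℂ} (hv : ({x, y, v} : Finset ℂ) ∈ F)
    (h : σ = {p, y, v} ∨ σ = {p, x, v}) {τ : Finset ℂ} (hτ : τ ∈ F) (hno : ¬ (x ∈ τ ∧ y ∈ τ)) :
    ¬ (interior (convexHull ℝ (σ : Set ℂ)) ∩ interior (convexHull ℝ (τ : Set ℂ))).Nonempty := by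
  rintro ⟨z, hz1, hz2⟩
  have := hF.disj _ hv _ hτ ⟨z, new_int hF ha hb hab hp h hz1, hz2⟩
  rw [← this] at hno
  exact hno ⟨by simp, by simp⟩

lemma mv_disj_new {σ σ' : Finset ℂ} {v v' : ℂ} (hv : ({x, y, v} : Finset ℂ) ∈ F)
    (hD : cr (y - x) (v - x) ≠ 0) (h : σ = {p, y, v} ∨ σ = {p, x, v})
    (hv' : ({x, y, v'} : Finset ℂ) ∈ F) (hD' : cr (y - x) (v' - x) ≠ 0)
    (h' : σ' = {p, y, v'} ∨ σ' = {p, x, v'})
    (hne : (interior (convexHull ℝ (σ : Set ℂ)) ∩ interior (convexHull ℝ (σ' : Set ℂ))).Nonempty) :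
    σ = σ' := by
  obtain ⟨z, hz1, hz2⟩ := hne
  have e := hF.disj _ hv _ hv' ⟨z, new_int hF ha hb hab hp h hz1, new_int hF ha hb hab hp h' hz2⟩
  have hvv : v = v' := by
    obtain ⟨n1, n2, n3⟩ := ne_of_cr hD
    have hmem : v ∈ ({x, y, v'} : Finset ℂ) := by rw [← e]; simp
    simp only [Finset.mem_insert, Finset.mem_singleton] at hmem
    rcases hmem with h | h | h
    · exact absurd h.symm n3
    · exact absurd h.symm n2
    · exact h
  subst hvv
  have hd := new_disj hF ha hb hab hp hD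
  have c1 : (((({p, y, v} : Finset ℂ)) : Set ℂ)) = {p, y, v} := by simp
  have c2 : (((({p, x, v} : Finset ℂ)) : Set ℂ)) = {p, x, v} := by simp
  rcases h with h | h <;> rcases h' with h' | h'
  · rw [h, h']
  · exfalso
    rw [h, c1] at hz1
    rw [h', c2] at hz2
    exact hd ⟨z, hz1, hz2⟩
  · exfalso
    rw [h, c2] at hz1
    rw [h', c1] at hz2
    exact hd ⟨z, hz2, hz1⟩
  · rw [h, h']

lemma mv_disj : ∀ τ ∈ mv F x y p, ∀ τ' ∈ mv F x y p,
    (interior (convexHull ℝ (τ : Set ℂ)) ∩ interior (convexHull ℝ (τ' : Set ℂ))).Nonempty →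
    τ = τ' := by
  intro σ hσ σ' hσ' hne
  rcases hσ with ⟨h, hno⟩ | ⟨v, hv, hD, h⟩
  · rcases hσ' with ⟨h', hno'⟩ | ⟨v', hv', hD', h'⟩
    · exact hF.disj σ h σ' h' hne
    · rw [inter_comm] at hne
      exact absurd hne (mv_disj_old hF ha hb hab hp hv' h' h hno)
  · rcases hσ' with ⟨h', hno'⟩ | ⟨v', hv', hD', h'⟩
    · exact absurd hne (mv_disj_old hF ha hb hab hp hv h h' hno')
    · exact mv_disj_new hF ha hb hab hp hv hD h hv' hD' h' hne

lemma mv_cover (hxy : x ≠ y) : Q ⊆ ⋃ τ ∈ mv F x y p, convexHull ℝ (τ : Set ℂ) := by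
  intro z hz
  obtain ⟨τ, hτ, hzτ⟩ := mem_iUnion₂.1 (hF.cover hz)
  by_cases hxy' : x ∈ τ ∧ y ∈ τ
  · obtain ⟨v, rfl, hD⟩ := pair_form hF hτ hxy'.1 hxy'.2 hxy
    have h1 : z ∈ convexHull ℝ ({x, y, v} : Set ℂ) := by simpa using hzτ
    rcases cover_hull hF ha hb hab hp h1 with h2 | h2
    · exact mem_iUnion₂.2 ⟨{p, y, v}, Or.inr ⟨v, hτ, hD, Or.inl rfl⟩, by simpa using h2⟩
    · exact mem_iUnion₂.2 ⟨{p, x, v}, Or.inr ⟨v, hτ, hD, Or.inr rfl⟩, by simpa using h2⟩
  · exact mem_iUnion₂.2 ⟨τ, Or.inl ⟨hτ, hxy'⟩, hzτ⟩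

end move

/-- the two cases `w = x` of an old face whose neighbour is subdivided -/
lemma old_face' {Q : Set ℂ} {F : Set (Finset ℂ)} (hF : Trg Q F) {x y p : ℂ} {a b : ℝ} (ha : 0 < a)
    (hb : 0 < b) (hab : a + b = 1) (hp : p = a • x + b • y) {x1 y1 v1 : ℂ}
    (hy : y = x1 ∨ y = y1) (hw : ({x1, y1, x} : Finset ℂ) ∈ F)
    (h1 : cr (y1 - x1) (v1 - x1) * cr (y1 - x1) (x - x1) < 0) :
    FaceAt Q (mv F x y p) x1 y1 v1 := by
  rcases hy with hy | hy
  · subst hy
    refine FaceAt.symm (old_face hF ha hb hab hp (x1 := y1) (v1 := v1) ?_ ?_)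
    · rwa [swap3]
    · rw [cr_swap y y1 v1, cr_swap y y1 x, neg_mul_neg]
      exact h1
  · subst hy
    exact old_face hF ha hb hab hp hw h1

lemma mv_face {Q : Set ℂ} {F : Set (Finset ℂ)} (hF : Trg Q F) {x y p : ℂ} {a b : ℝ} (ha : 0 < a)
    (hb : 0 < b) (hab : a + b = 1) (hp : p = a • x + b • y) (hxy : x ≠ y) {x1 y1 v1 : ℂ}
    (hmem : ({x1, y1, v1} : Finset ℂ) ∈ mv F x y p) (hD1 : cr (y1 - x1) (v1 - x1) ≠ 0) :
    FaceAt Q (mv F x y p) x1 y1 v1 := by
  have hp' : p = b • y + a • x := by rw [hp]; exact add_comm _ _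
  have hab' : b + a = 1 := by linarith
  rcases hmem with ⟨h, hno⟩ | ⟨v, hv, hD, h | h⟩
  · rcases hF.face x1 y1 v1 h hD1 with h1 | ⟨w, hw, h1⟩
    · exact Or.inl h1
    · by_cases hxy' : x ∈ ({x1, y1, w} : Finset ℂ) ∧ y ∈ ({x1, y1, w} : Finset ℂ)
      · obtain ⟨hx, hy⟩ := hxy'
        simp only [Finset.mem_insert, Finset.mem_singleton] at hx hy hno
        by_cases hxw : x = w
        · subst hxw
          refine old_face' hF ha hb hab hp ?_ hw h1
          rcases hy with hy | hy | hy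
          · exact Or.inl hy
          · exact Or.inr hy
          · exact absurd hy.symm hxy
        · by_cases hyw : y = w
          · subst hyw
            rw [mv_comm]
            refine old_face' hF hb ha hab' hp' ?_ hw h1
            rcases hx with hx | hx | hx
            · exact Or.inl hx
            · exact Or.inr hx
            · exact absurd hx hxy
          · exfalso
            apply hno
            tauto
      · exact Or.inr ⟨w, Or.inl ⟨hw, hxy'⟩, h1⟩
  · exact new_face hF ha hb hab hp hv hD h hD1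
  · rw [mv_comm]
    refine new_face hF hb ha hab' hp' (v := v) (by rwa [swap3]) ?_ h hD1
    rw [cr_swap]
    exact neg_ne_zero.2 hD

/-- **the elementary move** -/
theorem trg_mv {Q : Set ℂ} {F : Set (Finset ℂ)} (hF : Trg Q F) {x y p : ℂ} {a b : ℝ} (ha : 0 < a)
    (hb : 0 < b) (hab : a + b = 1) (hp : p = a • x + b • y) (hxy : x ≠ y) :
    Trg Q (mv F x y p) where
  finite := mv_finite hF ha hb hab hp
  nondeg := mv_nondeg hF ha hb hab hp
  disj := mv_disj hF ha hb hab hp
  cover := mv_cover hF ha hb hab hp hxy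
  face := fun x1 y1 v1 hmem hD1 => mv_face hF ha hb hab hp hxy hmem hD1

/-- no crossing of other lines is created -/
lemma noCross_mv {Q : Set ℂ} {F : Set (Finset ℂ)} (hF : Trg Q F) {x y p : ℂ} {a b : ℝ}
    (ha : 0 < a) (hb : 0 < b) (hab : a + b = 1) (hp : p = a • x + b • y) {c d : ℂ}
    (h : NoCross F c d) : NoCross (mv F x y p) c d := by
  have e : cr d (p - c) = a * cr d (x - c) + b * cr d (y - c) := by
    have : b = 1 - a := by linarith
    subst this
    subst hp
    simp [cr]; ring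
  intro σ hσ
  rcases hσ with ⟨hσ, -⟩ | ⟨v, hv, hD, hs⟩
  · exact h σ hσ
  · rcases h _ hv with h1 | h1
    · left
      have hx := h1 x (by simp)
      have hy := h1 y (by simp)
      have hv := h1 v (by simp)
      have hpp : 0 ≤ cr d (p - c) := by rw [e]; positivity
      intro z hz
      rcases hs with rfl | rfl
      · simp only [Finset.mem_insert, Finset.mem_singleton] at hz
        rcases hz with rfl | rfl | rfl <;> assumption
      · simp only [Finset.mem_insert, Finset.mem_singleton] at hz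
        rcases hz with rfl | rfl | rfl <;> assumption
    · right
      have hx := h1 x (by simp)
      have hy := h1 y (by simp)
      have hv := h1 v (by simp)
      have hpp : cr d (p - c) ≤ 0 := by
        rw [e]
        have := mul_nonneg ha.le (neg_nonneg.2 hx)
        have := mul_nonneg hb.le (neg_nonneg.2 hy)
        linarith
      intro z hz
      rcases hs with rfl | rfl
      · simp only [Finset.mem_insert, Finset.mem_singleton] at hz
        rcases hz with rfl | rfl | rfl <;> assumption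
      · simp only [Finset.mem_insert, Finset.mem_singleton] at hz
        rcases hz with rfl | rfl | rfl <;> assumption

/-- the crossing pairs -/
def crossP (F : Set (Finset ℂ)) (c d : ℂ) : Set (ℂ × ℂ) :=
  {q | ∃ τ ∈ F, q.1 ∈ τ ∧ q.2 ∈ τ ∧ cr d (q.1 - c) < 0 ∧ 0 < cr d (q.2 - c)}

lemma crossP_finite {Q : Set ℂ} {F : Set (Finset ℂ)} (hF : Trg Q F) (c d : ℂ) :
    (crossP F c d).Finite := by
  refine (hF.finite.biUnion (t := fun τ : Finset ℂ => ((τ ×ˢ τ : Finset (ℂ × ℂ)) : Set (ℂ × ℂ)))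
    fun τ _ => Finset.finite_toSet _).subset ?_
  rintro q ⟨τ, hτ, h1, h2, -⟩
  refine mem_biUnion hτ ?_
  simp [h1, h2]

lemma noCross_of_empty {F : Set (Finset ℂ)} {c d : ℂ} (h : crossP F c d = ∅) : NoCross F c d := by
  intro τ hτ
  by_cases h1 : ∀ v ∈ τ, 0 ≤ cr d (v - c)
  · exact Or.inl h1
  · right
    push Not at h1
    obtain ⟨x, hx, hx0⟩ := h1
    intro y hy
    by_contra hcon
    push Not at hcon
    have : (x, y) ∈ crossP F c d := ⟨τ, hτ, hx, hy, hx0, hcon⟩
    rw [h] at this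
    exact this

/-- make a line uncrossed -/
lemma clear_line {Q : Set ℂ} {c d : ℂ} (n : ℕ) : ∀ {F : Set (Finset ℂ)}, Trg Q F →
    (crossP F c d).ncard = n → ∃ F' : Set (Finset ℂ), Trg Q F' ∧ NoCross F' c d ∧
      ∀ c' d', NoCross F c' d' → NoCross F' c' d' := by
  induction n using Nat.strong_induction_on with
  | _ n ih =>
    intro F hF hn
    by_cases he : crossP F c d = ∅
    · exact ⟨F, hF, noCross_of_empty he, fun _ _ h => h⟩
    · obtain ⟨⟨x, y⟩, τ, hτ, hx, hy, hx0, hy0⟩ := nonempty_iff_ne_empty.2 he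
      simp only at hx hy hx0 hy0
      have hxy : x ≠ y := by
        rintro rfl
        linarith
      -- the point of the line
      set s := cr d (y - c) - cr d (x - c) with hs
      have hs0 : 0 < s := by rw [hs]; linarith
      obtain ⟨a, ha'⟩ : ∃ a, a = cr d (y - c) / s := ⟨_, rfl⟩
      obtain ⟨b, hb'⟩ : ∃ b, b = -cr d (x - c) / s := ⟨_, rfl⟩
      have ha : 0 < a := by rw [ha']; exact div_pos hy0 hs0
      have hb : 0 < b := by rw [hb']; exact div_pos (by linarith) hs0
      have hab : a + b = 1 := by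
        rw [ha', hb', ← add_div]
        exact (div_eq_one_iff_eq hs0.ne').2 (by rw [hs]; ring)
      obtain ⟨p, hp⟩ : ∃ p, p = a • x + b • y := ⟨_, rfl⟩
      have hp0 : cr d (p - c) = 0 := by
        have e : cr d (p - c) = a * cr d (x - c) + b * cr d (y - c) := by
          have : b = 1 - a := by linarith
          subst this
          subst hp
          simp [cr]; ring
        rw [e, ha', hb']
        field_simp
        ring
      have hF' := trg_mv hF ha hb hab hp hxy
      have hsub : crossP (mv F x y p) c d ⊆ crossP F c d \ {(x, y)} := by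
        rintro ⟨x', y'⟩ ⟨σ, hσ, h1, h2, h3, h4⟩
        simp only at h1 h2 h3 h4
        have hx'p : x' ≠ p := by
          rintro rfl
          rw [hp0] at h3
          exact lt_irrefl _ h3
        have hy'p : y' ≠ p := by
          rintro rfl
          rw [hp0] at h4
          exact lt_irrefl _ h4
        rcases hσ with ⟨hσ, hno⟩ | ⟨v, hv, hD, hs'⟩
        · refine ⟨⟨σ, hσ, h1, h2, h3, h4⟩, ?_⟩
          intro h5
          rw [mem_singleton_iff, Prod.mk.injEq] at h5
          rw [h5.1] at h1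
          rw [h5.2] at h2
          exact hno ⟨h1, h2⟩
        · obtain ⟨n1, n2, n3⟩ := ne_of_cr hD
          rcases hs' with rfl | rfl
          · simp only [Finset.mem_insert, Finset.mem_singleton] at h1 h2
            refine ⟨⟨{x, y, v}, hv, ?_, ?_, h3, h4⟩, ?_⟩
            · simp only [Finset.mem_insert, Finset.mem_singleton]
              tauto
            · simp only [Finset.mem_insert, Finset.mem_singleton]
              tauto
            · intro h5
              rw [mem_singleton_iff, Prod.mk.injEq] at h5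
              rcases h1 with h1 | h1 | h1
              · exact hx'p h1
              · exact n1 (h5.1.symm.trans h1)
              · exact n3 (h5.1.symm.trans h1)
          · simp only [Finset.mem_insert, Finset.mem_singleton] at h1 h2
            refine ⟨⟨{x, y, v}, hv, ?_, ?_, h3, h4⟩, ?_⟩
            · simp only [Finset.mem_insert, Finset.mem_singleton]
              tauto
            · simp only [Finset.mem_insert, Finset.mem_singleton]
              tauto
            · intro h5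
              rw [mem_singleton_iff, Prod.mk.injEq] at h5
              rcases h2 with h2 | h2 | h2
              · exact hy'p h2
              · exact n1 (h5.2.symm.trans h2).symm
              · exact n2 (h5.2.symm.trans h2)
      have hlt : (crossP (mv F x y p) c d).ncard < n := by
        rw [← hn]
        refine lt_of_le_of_lt (ncard_le_ncard hsub ((crossP_finite hF c d).subset diff_subset)) ?_
        exact ncard_diff_singleton_lt_of_mem ⟨τ, hτ, hx, hy, hx0, hy0⟩ (crossP_finite hF c d)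
      obtain ⟨F'', h1, h2, h3⟩ := ih _ hlt hF' rfl
      exact ⟨F'', h1, h2, fun c' d' h => h3 c' d' (noCross_mv hF ha hb hab hp h)⟩

/-- the big triangle -/
lemma base_trg (Q : Set ℂ) (hQ : Bornology.IsBounded Q) : ∃ F : Set (Finset ℂ), Trg Q F := by
  obtain ⟨R, hR0, hR⟩ := hQ.exists_pos_norm_lt
  obtain ⟨A, hA⟩ : ∃ A : ℂ, A = ⟨-R, -R⟩ := ⟨_, rfl⟩
  obtain ⟨B, hB⟩ : ∃ B : ℂ, B = ⟨3 * R, -R⟩ := ⟨_, rfl⟩
  obtain ⟨C, hC⟩ : ∃ C : ℂ, C = ⟨-R, 3 * R⟩ := ⟨_, rfl⟩
  have hre : ∀ z ∈ Q, |z.re| < R := fun z hz => (Complex.abs_re_le_norm z).trans_lt (hR z hz)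
  have him : ∀ z ∈ Q, |z.im| < R := fun z hz => (Complex.abs_im_le_norm z).trans_lt (hR z hz)
  refine ⟨{{A, B, C}}, ?_, ?_, ?_, ?_, ?_⟩
  · exact finite_singleton _
  · intro τ hτ
    refine ⟨A, B, C, hτ, ?_⟩
    have e : cr (B - A) (C - A) = 16 * R * R := by
      rw [hA, hB, hC]
      simp [cr]; ring
    rw [e]
    positivity
  · intro τ hτ τ' hτ' _
    rw [mem_singleton_iff] at hτ hτ'
    rw [hτ, hτ']
  · intro z hz
    refine mem_iUnion₂.2 ⟨{A, B, C}, rfl, ?_⟩
    have h1 := abs_lt.1 (hre z hz)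
    have h2 := abs_lt.1 (him z hz)
    have h3 : z ∈ convexHull ℝ ({A, B, C} : Set ℂ) := by
      refine mem_tri (a := (2 * R - z.re - z.im) / (4 * R)) (b := (z.re + R) / (4 * R))
        (c := (z.im + R) / (4 * R)) (div_nonneg (by linarith) (by linarith))
        (div_nonneg (by linarith) (by linarith)) (div_nonneg (by linarith) (by linarith)) ?_ ?_
      · field_simp
        ring
      · rw [hA, hB, hC]
        apply Complex.ext
        · simp only [Complex.add_re, Complex.smul_re, smul_eq_mul]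
          field_simp
          ring
        · simp only [Complex.add_im, Complex.smul_im, smul_eq_mul]
          field_simp
          ring
    simpa using h3
  · intro x y v hmem hD
    refine faceAt_perm (a := A) (b := B) (c := C) hmem hD (Or.inl ?_) (Or.inl ?_) (Or.inl ?_)
    · rw [Set.disjoint_left]
      rintro z ⟨s, t, hs, ht, hst, rfl⟩ hz
      have h2 := (abs_lt.1 (him _ hz)).1
      have e : (s • A + t • B).im = -R := by
        rw [hA, hB]
        simp
        nlinarith
      rw [e] at h2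
      exact lt_irrefl _ h2
    · rw [Set.disjoint_left]
      rintro z ⟨s, t, hs, ht, hst, rfl⟩ hz
      have h1 := (abs_lt.1 (hre _ hz)).2
      have h2 := (abs_lt.1 (him _ hz)).2
      have e : (s • B + t • C).re + (s • B + t • C).im = 2 * R := by
        rw [hB, hC]
        simp
        nlinarith
      linarith
    · rw [Set.disjoint_left]
      rintro z ⟨s, t, hs, ht, hst, rfl⟩ hz
      have h2 := (abs_lt.1 (hre _ hz)).1
      have e : (s • A + t • C).re = -R := by
        rw [hA, hC]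
        simp
        nlinarith
      rw [e] at h2
      exact lt_irrefl _ h2

end U1

open Vale.Agent.P099 U1

/-- existence of a triangulation not crossed by given lines -/
theorem exists_trg (Q : Set ℂ) (hQ : Bornology.IsBounded Q) (L : Finset (ℂ × ℂ))
    (hL : ∀ l ∈ L, l.2 ≠ 0) : ∃ F : Set (Finset ℂ), Trg Q F ∧ ∀ l ∈ L, NoCross F l.1 l.2 := by
  clear hL
  induction L using Finset.induction_on with
  | empty =>
    obtain ⟨F, hF⟩ := base_trg Q hQ
    exact ⟨F, hF, fun l hl => absurd hl (Finset.notMem_empty _)⟩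
  | insert l L hl ih =>
    obtain ⟨F, hF, hN⟩ := ih
    obtain ⟨F', h1, h2, h3⟩ := clear_line (c := l.1) (d := l.2) _ hF rfl
    refine ⟨F', h1, fun l' hl' => ?_⟩
    rcases Finset.mem_insert.1 hl' with rfl | h
    · exact h2
    · exact h3 _ _ (hN l' h)

end Vale.Agent.P099T
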