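import Vale.Agent.P099.H184.PT.Defs
import Vale.Agent.P099.Bdl.B1
import Mathlib.Tactic

set_option linter.all false

open MeasureTheory Set Filter Topology

namespace Vale.Agent.P099T

open Vale.Agent.P099

namespace PolygonalTable

variable {N : ℕ} (T : PolygonalTable N)

lemma u4_d_ne (i : Fin N) : T.b i - T.a i ≠ 0 := sub_ne_zero.2 (T.ne i).symm

/-- the number of the reflection in the wall `i`: `refl i u = u4_cdir i * conj u` -/
noncomputable def u4_cdir (i : Fin N) : ℂ := (T.b i - T.a i) / (starRingEnd ℂ) (T.b i - T.a i)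

lemma u4_norm_cdir (i : Fin N) : ‖T.u4_cdir i‖ = 1 := by
  have h1 : ‖T.b i - T.a i‖ ≠ 0 := norm_ne_zero_iff.2 (T.u4_d_ne _)
  rw [u4_cdir, norm_div, RCLike.norm_conj, div_self h1]

lemma u4_refl_eq (i : Fin N) (u : ℂ) : T.refl i u = T.u4_cdir i * (starRingEnd ℂ) u := by
  obtain ⟨d, hd'⟩ : ∃ d, d = T.b i - T.a i := ⟨_, rfl⟩
  have hd : d ≠ 0 := by rw [hd']; exact T.u4_d_ne i
  have hc : (starRingEnd ℂ) d ≠ 0 := by simpa only [ne_eq, map_eq_zero] using hd
  have h1 : T.refl i u = (Submodule.span ℝ {d}).reflection u := by rw [hd']; rfl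
  rw [h1, u4_cdir, ← hd', Submodule.reflection_singleton_apply, div_mul_eq_mul_div, eq_div_iff hc]
  have hn : ((‖d‖ : ℝ) : ℂ) ^ 2 = d * (starRingEnd ℂ) d := by
    rw [Complex.mul_conj, Complex.normSq_eq_norm_sq]
    push_cast
    rfl
  have hn0 : ((‖d‖ : ℝ) : ℂ) ^ 2 ≠ 0 := by
    rw [hn]
    exact mul_ne_zero hd hc
  have hin : ((inner ℝ d u : ℝ) : ℂ) =
      ((starRingEnd ℂ) d * u + d * (starRingEnd ℂ) u) / 2 := by
    rw [Complex.inner]
    rw [Complex.re_eq_add_conj]
    simp only [map_mul, RingHomCompTriple.comp_apply, RingHom.id_apply, mul_comm]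
  rw [two_smul, Complex.real_smul, Complex.ofReal_div, hin]
  simp only [RCLike.ofReal_real_eq_id, id_eq, Complex.ofReal_pow]
  rw [hn]
  field_simp
  ring

/-! ### unfolding -/

/-- linear part of the unfolding -/
noncomputable def u4_GG : List (Fin N) → (ℂ ≃ₗᵢ[ℝ] ℂ)
  | [] => LinearIsometryEquiv.refl ℝ ℂ
  | i :: w => (u4_GG w).trans ((Submodule.span ℝ {T.b i - T.a i}).reflection)

/-- the unfolding -/
noncomputable def u4_RR : List (Fin N) → ℂ → ℂ
  | [] => id
  | i :: w => fun z => T.a i + T.refl i (u4_RR w z - T.a i)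

lemma u4_GG_cons (i : Fin N) (w : List (Fin N)) (u : ℂ) : T.u4_GG (i :: w) u = T.refl i (T.u4_GG w u) := rfl

lemma u4_refl_add (i : Fin N) (u v : ℂ) : T.refl i (u + v) = T.refl i u + T.refl i v :=
  map_add (Submodule.span ℝ {T.b i - T.a i}).reflection u v

lemma u4_refl_neg (i : Fin N) (u : ℂ) : T.refl i (-u) = -T.refl i u :=
  map_neg (Submodule.span ℝ {T.b i - T.a i}).reflection u

lemma u4_refl_refl (i : Fin N) (u : ℂ) : T.refl i (T.refl i u) = u :=
  Submodule.reflection_reflection _ u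

lemma u4_RR_add (w : List (Fin N)) (z h : ℂ) : T.u4_RR w (z + h) = T.u4_RR w z + T.u4_GG w h := by
  induction w with
  | nil => rfl
  | cons i w ih =>
    change T.a i + T.refl i (T.u4_RR w (z + h) - T.a i) =
      T.a i + T.refl i (T.u4_RR w z - T.a i) + T.refl i (T.u4_GG w h)
    rw [ih, add_sub_right_comm, u4_refl_add, add_assoc]

lemma u4_refl_on_wall {i : Fin N} {z : ℂ} (hz : z ∈ T.side i) :
    T.a i + T.refl i (z - T.a i) = z := by
  obtain ⟨s, t, hs, ht, hst, rfl⟩ := hz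
  have h1 : s • T.a i + t • T.b i - T.a i = t • (T.b i - T.a i) := by
    have : s = 1 - t := by linarith
    subst this
    simp only [Complex.real_smul]
    push_cast
    ring
  have h2 : T.refl i (s • T.a i + t • T.b i - T.a i) = s • T.a i + t • T.b i - T.a i := by
    rw [h1]
    exact Submodule.reflection_mem_subspace_eq_self
      (Submodule.smul_mem _ _ (Submodule.mem_span_singleton_self _))
  rw [h2]
  ring

lemma u4_side_notMem {i : Fin N} {z : ℂ} (hz : z ∈ T.side i) : z ∉ T.Q := by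
  intro hQ
  have h1 : z ∈ frontier T.Q := by
    rw [T.frontier_eq]
    exact mem_iUnion.2 ⟨i, openSegment_subset_segment ℝ _ _ hz⟩
  rw [frontier, T.isOpen.interior_eq] at h1
  exact h1.2 hQ

/-- after the time `t` the trajectory moves straight with the unfolded direction -/
def u4_PR (γ : ℝ → ℂ × ℂ) (x u : ℂ) (t : ℝ) : Prop :=
  ∃ w, (γ t).1 = T.u4_RR w (x + t • u) ∧
    ∀ᶠ s in 𝓝[>] t, γ s = ((γ t).1 + (s - t) • T.u4_GG w u, T.u4_GG w u)

lemma u4_PR_step {γ : ℝ → ℂ × ℂ} {x u : ℂ} {t : ℝ} (h : T.u4_PR γ x u t) :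
    ∃ ε > 0, ∀ s, t < s → s < t + ε → T.u4_PR γ x u s := by
  obtain ⟨w, h1, h2⟩ := h
  rw [eventually_nhdsWithin_iff, Metric.eventually_nhds_iff] at h2
  obtain ⟨ε, hε, h2⟩ := h2
  refine ⟨ε, hε, fun s hs1 hs2 => ?_⟩
  have hs : γ s = ((γ t).1 + (s - t) • T.u4_GG w u, T.u4_GG w u) := h2 (by
    rw [Real.dist_eq, abs_lt]
    constructor <;> linarith) hs1
  have hs' : (γ s).1 = (γ t).1 + (s - t) • T.u4_GG w u := by rw [hs]
  refine ⟨w, ?_, ?_⟩
  · rw [hs', h1]
    have e : x + s • u = x + t • u + (s - t) • u := by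
      rw [sub_smul]; ring
    rw [e, T.u4_RR_add w (x + t • u), map_smul]
  · have h3 : ∀ᶠ s' in 𝓝[>] s, s' < t + ε :=
      eventually_nhdsWithin_of_eventually_nhds (eventually_lt_nhds hs2)
    filter_upwards [h3, self_mem_nhdsWithin] with s' h4 h5
    have h6 : s < s' := h5
    rw [h2 (y := s') (by
      rw [Real.dist_eq, abs_lt]
      constructor <;> linarith) (show t < s' by linarith), hs']
    rw [Prod.mk.injEq]
    refine ⟨?_, rfl⟩
    rw [add_assoc, ← add_smul]
    congr 2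
    ring

lemma u4_PR_limit {γ : ℝ → ℂ × ℂ} (hγ : T.IsTrajectory γ) {x u : ℂ} {t : ℝ} (ht : 0 < t)
    (h : ∀ s, 0 ≤ s → s < t → T.u4_PR γ x u s) : T.u4_PR γ x u t := by
  -- left velocity
  have key : ∀ v : ℂ, (∀ᶠ s in 𝓝[<] t, γ s = ((γ t).1 + (s - t) • v, v)) →
      ∃ w, T.u4_GG w u = v ∧ (γ t).1 = T.u4_RR w (x + t • u) := by
    intro v hv
    rw [eventually_nhdsWithin_iff, Metric.eventually_nhds_iff] at hv
    obtain ⟨ε, hε, hv⟩ := hv
    obtain ⟨s, hs0, hst, hsε⟩ : ∃ s, 0 ≤ s ∧ s < t ∧ t - ε < s :=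
      ⟨max 0 (t - ε / 2), le_max_left _ _, max_lt ht (by linarith),
        lt_of_lt_of_le (by linarith) (le_max_right _ _)⟩
    obtain ⟨w, h1, h2⟩ := h s hs0 hst
    have h3 : ∀ᶠ s' in 𝓝[>] s, s' < t :=
      eventually_nhdsWithin_of_eventually_nhds (eventually_lt_nhds hst)
    obtain ⟨s', h4, h5, h6⟩ := (h2.and (h3.and self_mem_nhdsWithin)).exists
    have h7 : s < s' := h6
    have h8 := hv (y := s') (by
      rw [Real.dist_eq, abs_lt]
      constructor <;> linarith) h5
    have h9 := hv (y := s) (by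
      rw [Real.dist_eq, abs_lt]
      constructor <;> linarith) hst
    have h10 : T.u4_GG w u = v := by
      rw [h4] at h8
      exact (Prod.mk.inj h8).2
    refine ⟨w, h10, ?_⟩
    have h11 : (γ s).1 = (γ t).1 + (s - t) • v := by rw [h9]
    have e : x + t • u = x + s • u + (t - s) • u := by
      rw [sub_smul]; ring
    rw [e, T.u4_RR_add, map_smul, ← h1, h10, h11, add_assoc, ← add_smul]
    simp
  rcases hγ t with ⟨-, h1⟩ | ⟨i, v, hi, h1, h2⟩
  · obtain ⟨w, hw, hw'⟩ := key _ (eventually_nhdsWithin_of_eventually_nhds h1)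
    refine ⟨w, hw', ?_⟩
    rw [hw]
    exact eventually_nhdsWithin_of_eventually_nhds h1
  · obtain ⟨w, hw, hw'⟩ := key _ h1
    refine ⟨i :: w, ?_, ?_⟩
    · change (γ t).1 = T.a i + T.refl i (T.u4_RR w (x + t • u) - T.a i)
      rw [← hw', T.u4_refl_on_wall hi]
    · rw [T.u4_GG_cons, hw]
      exact h2

lemma u4_PR_all {γ : ℝ → ℂ × ℂ} (hγ : T.IsTrajectory γ) {x u : ℂ} (h0 : γ 0 = (x, u))
    (hx : x ∈ T.Q) : ∀ t, 0 ≤ t → T.u4_PR γ x u t := by
  by_contra hcon
  push Not at hcon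
  obtain ⟨t, ht, hnt⟩ := hcon
  set S : Set ℝ := {t | 0 ≤ t ∧ ¬ T.u4_PR γ x u t} with hS
  have hne : S.Nonempty := ⟨t, ht, hnt⟩
  have hbd : BddBelow S := ⟨0, fun t ht => ht.1⟩
  set m := sInf S with hm
  have hm0 : 0 ≤ m := le_csInf hne fun t ht => ht.1
  have hlt : ∀ s, 0 ≤ s → s < m → T.u4_PR γ x u s := by
    intro s hs hsm
    by_contra hcon
    exact absurd (csInf_le hbd (show s ∈ S from ⟨hs, hcon⟩)) (not_le.2 hsm)
  have hPm : T.u4_PR γ x u m := by
    rcases hm0.eq_or_lt with h | h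
    · rw [← h]
      rcases hγ 0 with ⟨-, h1⟩ | ⟨i, v, hi, h1, h2⟩
      · refine ⟨[], ?_, ?_⟩
        · rw [h0]
          simp [u4_RR]
        · have h2 : ∀ᶠ s in 𝓝[>] (0:ℝ), γ s = ((γ 0).1 + (s - 0) • (γ 0).2, (γ 0).2) :=
            eventually_nhdsWithin_of_eventually_nhds h1
          have h3 : T.u4_GG [] u = (γ 0).2 := by
            rw [h0]
            rfl
          rw [h3]
          exact h2
      · rw [h0] at hi
        exact absurd hx (T.u4_side_notMem hi)
    · exact T.u4_PR_limit hγ h hlt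
  obtain ⟨ε, hε, hstep⟩ := T.u4_PR_step hPm
  have : m + ε ≤ m := by
    conv_rhs => rw [hm]
    refine le_csInf hne fun s hs => ?_
    by_contra hcon
    push Not at hcon
    have h1 : m ≤ s := csInf_le hbd hs
    rcases h1.eq_or_lt with h | h
    · rw [← h] at hs
      exact hs.2 hPm
    · exact hs.2 (hstep s h hcon)
  linarith

lemma u4_track_nonneg {γ : ℝ → ℂ × ℂ} (hγ : T.IsTrajectory γ) {x u : ℂ} (h0 : γ 0 = (x, u))
    (hx : x ∈ T.Q) (t : ℝ) (ht : 0 ≤ t) :
    ∃ w, (γ t).1 = T.u4_RR w (x + t • u) ∧ ((γ t).1 ∈ T.Q → (γ t).2 = T.u4_GG w u) := by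
  obtain ⟨w, h1, h2⟩ := T.u4_PR_all hγ h0 hx t ht
  refine ⟨w, h1, fun hQ => ?_⟩
  rcases hγ t with ⟨-, h3⟩ | ⟨i, v, hi, -, -⟩
  · obtain ⟨s, h4, h5⟩ := (h2.and (eventually_nhdsWithin_of_eventually_nhds h3)).exists
    rw [h4] at h5
    exact (Prod.mk.inj h5).2.symm
  · exact absurd hQ (T.u4_side_notMem hi)

lemma u4_reverse {γ : ℝ → ℂ × ℂ} (hγ : T.IsTrajectory γ) :
    T.IsTrajectory (fun t => ((γ (-t)).1, -(γ (-t)).2)) := by
  intro t
  rcases hγ (-t) with ⟨h1, h2⟩ | ⟨i, v, hi, h1, h2⟩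
  · left
    refine ⟨h1, ?_⟩
    filter_upwards [(continuous_neg.tendsto t).eventually h2] with s hs
    rw [hs]
    simp only [Prod.mk.injEq]
    refine ⟨?_, trivial⟩
    rw [smul_neg, ← neg_smul]
    congr 2
    ring
  · right
    refine ⟨i, -T.refl i v, hi, ?_, ?_⟩
    · filter_upwards [(tendsto_neg_nhdsLT (a := t)).eventually h2] with s hs
      rw [hs]
      simp only [Prod.mk.injEq]
      refine ⟨?_, trivial⟩
      rw [smul_neg, ← neg_smul]
      congr 2
      ring
    · filter_upwards [(tendsto_neg_nhdsGT (a := t)).eventually h1] with s hs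
      rw [hs, T.u4_refl_neg, T.u4_refl_refl]
      simp only [Prod.mk.injEq]
      refine ⟨?_, trivial⟩
      rw [smul_neg, ← neg_smul]
      congr 2
      ring

/-- the position at the time `t` is given by an unfolding -/
theorem u4_track {γ : ℝ → ℂ × ℂ} (hγ : T.IsTrajectory γ) {x u : ℂ} (h0 : γ 0 = (x, u))
    (hx : x ∈ T.Q) (t : ℝ) :
    ∃ w, (γ t).1 = T.u4_RR w (x + t • u) ∧ ((γ t).1 ∈ T.Q → (γ t).2 = T.u4_GG w u) := by
  rcases le_total 0 t with ht | ht
  · exact T.u4_track_nonneg hγ h0 hx t ht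
  · obtain ⟨w, h1, h2⟩ := T.u4_track_nonneg (T.u4_reverse hγ) (x := x) (u := -u)
      (by simp [h0]) hx (-t) (by linarith)
    simp only [neg_neg, neg_smul, smul_neg] at h1 h2
    refine ⟨w, h1, fun hQ => ?_⟩
    have h3 := h2 hQ
    rw [map_neg, neg_inj] at h3
    exact h3

/-! ### rational tables -/

/-- all angles rational: a common order -/
lemma u4_exists_common (hT : ¬ T.IsIrrational) :
    ∃ n : ℕ, 0 < n ∧ ∃ c : ℂ, ‖c‖ = 1 ∧ ∀ i, T.u4_cdir i ^ n = c ^ n := by
  classical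
  rcases isEmpty_or_nonempty (Fin N) with hN | ⟨⟨j⟩⟩
  · exact ⟨1, one_pos, 1, by simp, fun i => hN.elim i⟩
  unfold IsIrrational at hT
  push Not at hT
  have key : ∀ i, ∃ n : ℕ, 0 < n ∧ (T.u4_cdir i / T.u4_cdir j) ^ n = 1 := by
    intro i
    have hi := hT i j
    rw [Irrational, not_not] at hi
    obtain ⟨q, hq⟩ := hi
    rw [Complex.angle_eq_abs_arg (T.u4_d_ne i) (T.u4_d_ne j)] at hq
    obtain ⟨z, hz⟩ : ∃ z, z = (T.b i - T.a i) / (T.b j - T.a j) := ⟨_, rfl⟩
    rw [← hz] at hq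
    have hz0 : z ≠ 0 := by rw [hz]; exact div_ne_zero (T.u4_d_ne i) (T.u4_d_ne j)
    have hquot : T.u4_cdir i / T.u4_cdir j = z / (starRingEnd ℂ) z := by
      rw [u4_cdir, u4_cdir, hz, map_div₀]
      have h1 := T.u4_d_ne i
      have h2 := T.u4_d_ne j
      have h3 : (starRingEnd ℂ) (T.b i - T.a i) ≠ 0 := by
        simpa only [ne_eq, map_eq_zero] using h1
      have h4 : (starRingEnd ℂ) (T.b j - T.a j) ≠ 0 := by
        simpa only [ne_eq, map_eq_zero] using h2
      field_simp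
    obtain ⟨θ, hθ⟩ : ∃ θ, θ = z.arg := ⟨_, rfl⟩
    rw [← hθ] at hq
    have hexp : z / (starRingEnd ℂ) z = Complex.exp (2 * θ * Complex.I) := by
      have h1 : z = ‖z‖ * Complex.exp (θ * Complex.I) := by
        rw [hθ]; exact (Complex.norm_mul_exp_arg_mul_I z).symm
      have h2 : (starRingEnd ℂ) z = ‖z‖ * Complex.exp (-(θ * Complex.I)) := by
        conv_lhs => rw [h1]
        rw [map_mul, Complex.conj_ofReal, ← Complex.exp_conj, map_mul, Complex.conj_ofReal,
          Complex.conj_I]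
        congr 2
        ring
      have hn : (‖z‖ : ℂ) ≠ 0 := by exact_mod_cast norm_ne_zero_iff.2 hz0
      rw [div_eq_iff (by rw [h2]; exact mul_ne_zero hn (Complex.exp_ne_zero _)), h2]
      have h3 : Complex.exp (2 * θ * Complex.I) * (‖z‖ * Complex.exp (-(θ * Complex.I))) =
          ‖z‖ * (Complex.exp (2 * θ * Complex.I) * Complex.exp (-(θ * Complex.I))) := by ring
      rw [h3, ← Complex.exp_add]
      have h4 : 2 * (θ : ℂ) * Complex.I + -(θ * Complex.I) = θ * Complex.I := by ring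
      rw [h4]
      exact h1
    have hpi := Real.pi_ne_zero
    have h1 : |θ| = q * Real.pi := by
      rw [hq]
      field_simp
    have hden : (q.den : ℝ) ≠ 0 := by exact_mod_cast q.den_ne_zero
    have h2 : (q.den : ℝ) * |θ| = q.num * Real.pi := by
      rw [h1]
      have h3 : (q : ℝ) = q.num / q.den := by exact_mod_cast (Rat.num_div_den q).symm
      rw [h3]
      field_simp
    refine ⟨q.den, q.den_pos, ?_⟩
    rw [hquot, hexp, ← Complex.exp_nat_mul, Complex.exp_eq_one_iff]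
    rcases abs_choice θ with h | h
    · refine ⟨q.num, ?_⟩
      rw [h] at h2
      have h3 : (q.den : ℂ) * θ = q.num * Real.pi := by exact_mod_cast h2
      linear_combination (2 * Complex.I) * h3
    · refine ⟨-q.num, ?_⟩
      rw [h] at h2
      have h3 : (q.den : ℂ) * (-θ) = q.num * Real.pi := by exact_mod_cast h2
      push_cast
      linear_combination (-2 * Complex.I) * h3
  choose n hn0 hn using key
  have hj0 : T.u4_cdir j ≠ 0 := by
    rw [← norm_ne_zero_iff, T.u4_norm_cdir]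
    exact one_ne_zero
  refine ⟨∏ i, n i, Finset.prod_pos fun i _ => hn0 i, T.u4_cdir j, T.u4_norm_cdir j, fun i => ?_⟩
  obtain ⟨k, hk⟩ := Finset.dvd_prod_of_mem n (Finset.mem_univ i)
  have h1 : (T.u4_cdir i / T.u4_cdir j) ^ (∏ i, n i) = 1 := by
    rw [hk, pow_mul, hn, one_pow]
  rw [div_pow, div_eq_one_iff_eq (pow_ne_zero _ hj0)] at h1
  exact h1

/-! ### null sets -/

lemma u4_volume_Q_pos : 0 < volume T.Q :=
  T.isOpen.measure_pos volume T.isConnected.nonempty

lemma u4_volume_Q_lt_top : volume T.Q < ⊤ := T.isBounded.measure_lt_top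

lemma u4_prob_cond : IsProbabilityMeasure (ProbabilityTheory.cond volume T.Q) :=
  ProbabilityTheory.cond_isProbabilityMeasure_of_finite T.u4_volume_Q_pos.ne' T.u4_volume_Q_lt_top.ne

lemma u4_isProbabilityMeasure_mu : IsProbabilityMeasure T.mu := by
  have := T.u4_prob_cond
  unfold mu
  infer_instance

/-- the direction line -/
def u4_lineSub (d : ℂ) : Submodule ℝ ℂ where
  carrier := {z | cr d z = 0}
  add_mem' := by
    intro a b ha hb
    have h1 : cr d a = 0 := ha
    have h2 : cr d b = 0 := hb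
    show cr d (a + b) = 0
    have : cr d (a + b) = cr d a + cr d b := by simp [cr]; ring
    rw [this, h1, h2, add_zero]
  zero_mem' := by
    show cr d 0 = 0
    simp [cr]
  smul_mem' := by
    intro c z hz
    have h1 : cr d z = 0 := hz
    show cr d (c • z) = 0
    have : cr d (c • z) = c * cr d z := by simp [cr]; ring
    rw [this, h1, mul_zero]

lemma u4_volume_line {d : ℂ} (hd : d ≠ 0) (k : ℂ) : volume {z : ℂ | cr d (z + k) = 0} = 0 := by
  have h1 : volume ((u4_lineSub d : Submodule ℝ ℂ) : Set ℂ) = 0 := by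
    refine Measure.addHaar_submodule volume _ fun htop => ?_
    have h2 : Complex.I * d ∈ u4_lineSub d := by rw [htop]; trivial
    have h3 : cr d (Complex.I * d) = 0 := h2
    have h4 : cr d (Complex.I * d) = d.re * d.re + d.im * d.im := by simp [cr]
    rw [h4] at h3
    apply hd
    apply Complex.ext
    · simp only [Complex.zero_re]; nlinarith [mul_self_nonneg d.re, mul_self_nonneg d.im]
    · simp only [Complex.zero_im]; nlinarith [mul_self_nonneg d.re, mul_self_nonneg d.im]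
  have h2 : {z : ℂ | cr d (z + k) = 0} = (fun z => z + k) ⁻¹' ((u4_lineSub d : Submodule ℝ ℂ) : Set ℂ) :=
    rfl
  rw [h2, measure_preimage_add_right, h1]

lemma u4_continuous_RR (w : List (Fin N)) : Continuous (T.u4_RR w) := by
  have h : T.u4_RR w = fun z => T.u4_RR w 0 + T.u4_GG w z := by
    funext z
    rw [← T.u4_RR_add, zero_add]
  rw [h]
  exact continuous_const.add (T.u4_GG w).continuous

lemma u4_wall_null (t : ℝ) (w : List (Fin N)) (i : Fin N) :
    T.mu {p | T.u4_RR w (p.1 + t • p.2) ∈ T.side i} = 0 := by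
  have := T.u4_prob_cond
  set d := T.b i - T.a i with hd
  set S : Set (ℂ × ℂ) := {p | cr d (T.u4_RR w (p.1 + t • p.2) - T.a i) = 0} with hS
  have hsub : {p : ℂ × ℂ | T.u4_RR w (p.1 + t • p.2) ∈ T.side i} ⊆ S := by
    intro p hp
    obtain ⟨s, t', hs, ht, hst, he⟩ := hp
    show cr d (T.u4_RR w (p.1 + t • p.2) - T.a i) = 0
    rw [← he]
    have : s = 1 - t' := by linarith
    subst this
    simp [hd, cr]
    ring
  refine measure_mono_null hsub ?_
  have hcr : Continuous fun z : ℂ => cr d (z - T.a i) := by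
    unfold cr
    fun_prop
  have hcont : Continuous fun p : ℂ × ℂ => cr d (T.u4_RR w (p.1 + t • p.2) - T.a i) :=
    hcr.comp ((T.u4_continuous_RR w).comp (by fun_prop))
  have hSm : MeasurableSet S := (isClosed_singleton.preimage hcont).measurableSet
  unfold mu
  rw [Measure.prod_apply_symm hSm]
  rw [lintegral_eq_zero_iff' (by
    exact (measurable_measure_prodMk_right hSm).aemeasurable)]
  refine ae_of_all _ fun u => ?_
  show ProbabilityTheory.cond volume T.Q ((fun x => (x, u)) ⁻¹' S) = 0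
  refine ProbabilityTheory.cond_absolutelyContinuous ?_
  have h1 : (fun x => (x, u)) ⁻¹' S = (T.u4_GG w) ⁻¹'
      {z : ℂ | cr d (z + (T.u4_GG w (t • u) + T.u4_RR w 0 - T.a i)) = 0} := by
    ext x
    simp only [hS, mem_preimage, mem_setOf_eq]
    have h2 : T.u4_RR w (x + t • u) = T.u4_GG w x + T.u4_GG w (t • u) + T.u4_RR w 0 := by
      have h5 := T.u4_RR_add w 0 (x + t • u)
      rw [zero_add] at h5
      rw [h5, map_add, add_comm]
    rw [h2]
    have h3 : T.u4_GG w x + T.u4_GG w (t • u) + T.u4_RR w 0 - T.a i =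
        T.u4_GG w x + (T.u4_GG w (t • u) + T.u4_RR w 0 - T.a i) := by ring
    rw [h3]
  have hk : Continuous fun z : ℂ => cr d (z + (T.u4_GG w (t • u) + T.u4_RR w 0 - T.a i)) := by
    unfold cr
    fun_prop
  have hkm : MeasurableSet
      {z : ℂ | cr d (z + (T.u4_GG w (t • u) + T.u4_RR w 0 - T.a i)) = 0} :=
    (isClosed_singleton.preimage hk).measurableSet
  rw [h1, (T.u4_GG w).measurePreserving.measure_preimage hkm.nullMeasurableSet]
  exact u4_volume_line (T.u4_d_ne i) _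

/-- at a given time almost every trajectory is not at a wall -/
lemma u4_ae_not_wall (t : ℝ) :
    ∀ᵐ p ∂T.mu, ∀ (w : List (Fin N)) (i : Fin N), T.u4_RR w (p.1 + t • p.2) ∉ T.side i := by
  rw [ae_all_iff]
  intro w
  rw [ae_all_iff]
  intro i
  exact measure_eq_zero_iff_ae_notMem.1 (T.u4_wall_null t w i)

lemma u4_ae_mem_Q : ∀ᵐ p ∂T.mu, p.1 ∈ T.Q := by
  have := T.u4_prob_cond
  have h1 : ∀ᵐ x ∂(ProbabilityTheory.cond volume T.Q), x ∈ T.Q :=
    ProbabilityTheory.ae_cond_mem T.isOpen.measurableSet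
  exact Measure.quasiMeasurePreserving_fst.ae h1

/-- **the directions of a billiard flow are given by the unfoldings** -/
theorem u4_flow_direction {Φ : ℝ → ℂ × ℂ → ℂ × ℂ} (hΦ : T.IsBilliardFlow Φ) (t : ℝ) :
    ∀ᵐ p ∂T.mu, ∃ w, (Φ t p).1 = T.u4_RR w (p.1 + t • p.2) ∧ (Φ t p).2 = T.u4_GG w p.2 := by
  filter_upwards [hΦ, T.u4_ae_mem_Q, T.u4_ae_not_wall t] with p h1 h2 h3
  obtain ⟨w, h4, h5⟩ := T.u4_track h1.2 (x := p.1) (u := p.2) (by rw [h1.1]) h2 t
  refine ⟨w, h4, h5 ?_⟩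
  rcases h1.2 t with h | ⟨i, v, hi, -, -⟩
  · exact h.1
  · rw [h4] at hi
    exact absurd hi (h3 w i)

/-- **In a rational table no billiard flow is ergodic.** -/
theorem not_ergodic (hN : ¬ T.IsIrrational) {Φ : ℝ → ℂ × ℂ → ℂ × ℂ}
    (hΦ : T.IsBilliardFlow Φ) : ¬ FlowErgodic T.mu Φ := by
  intro herg
  have hprob : IsProbabilityMeasure T.mu := T.u4_isProbabilityMeasure_mu
  obtain ⟨n, hn, c, hcn, hcom⟩ := T.u4_exists_common hN
  set g : ℂ → ℂ := fun u => u ^ (2 * n) / c ^ n with hg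
  have hgm : Measurable g := by
    rw [hg]
    fun_prop
  have hginv : ∀ i u, (g (T.refl i u)).re = (g u).re := by
    intro i u
    have h1 : g (T.refl i u) = (starRingEnd ℂ) (g u) := by
      have h2 : T.refl i u = T.u4_cdir i * (starRingEnd ℂ) u := T.u4_refl_eq i u
      have h3 : (starRingEnd ℂ) c * c = 1 := by
        rw [mul_comm, Complex.mul_conj, Complex.normSq_eq_norm_sq, hcn]; simp
      have h4 : c ≠ 0 := by
        rw [← norm_ne_zero_iff, hcn]
        exact one_ne_zero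
      have h5 : (starRingEnd ℂ) c = c⁻¹ := eq_inv_of_mul_eq_one_left h3
      simp only [hg]
      rw [h2, map_div₀, map_pow, map_pow, h5, mul_pow, mul_comm 2 n, pow_mul, hcom i, ← pow_mul]
      rw [inv_pow, div_inv_eq_mul]
      field_simp
      ring
    rw [h1, Complex.conj_re]
  have hgw : ∀ (w : List (Fin N)) u, (g (T.u4_GG w u)).re = (g u).re := by
    intro w
    induction w with
    | nil => intro u; rfl
    | cons j w ih =>
      intro u
      rw [T.u4_GG_cons, hginv, ih]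
  set A : Set (ℂ × ℂ) := {p | 0 < (g p.2).re} with hA
  have hAm : MeasurableSet A := measurableSet_lt measurable_const
    (Complex.measurable_re.comp (hgm.comp measurable_snd))
  have hinv : ∀ t, T.mu (symmDiff (Φ t ⁻¹' A) A) = 0 := by
    intro t
    rw [measure_eq_zero_iff_ae_notMem]
    filter_upwards [T.u4_flow_direction hΦ t] with p h1
    obtain ⟨w, -, hw⟩ := h1
    have h3 : p ∈ Φ t ⁻¹' A ↔ p ∈ A := by
      rw [mem_preimage]
      simp only [hA, mem_setOf_eq]
      rw [hw, hgw]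
    rw [mem_symmDiff]
    tauto
  have hmu : T.mu A = nu {u | 0 < (g u).re} := by
    have h1 : A = (univ : Set ℂ) ×ˢ {u | 0 < (g u).re} := by
      ext p
      simp [hA]
    have h2 := T.u4_prob_cond
    rw [h1, mu, Measure.prod_prod, measure_univ, one_mul]
  -- rotations
  have hrot : ∀ ζ : ℂ, ‖ζ‖ = 1 → ∀ {P : ℂ → Prop}, (∀ᵐ u ∂nu, P (g u)) →
      ∀ᵐ u ∂nu, P (ζ ^ (2 * n) * g u) := by
    intro ζ hζ P hP
    have h1 := (measurePreserving_mul hζ).quasiMeasurePreserving.ae hP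
    filter_upwards [h1] with u hu
    have h2 : g (ζ * u) = ζ ^ (2 * n) * g u := by
      simp only [hg]
      rw [mul_pow, mul_div_assoc]
    rwa [h2] at hu
  have hroot : ∀ z : ℂ, ‖z‖ = 1 → ∃ ζ : ℂ, ‖ζ‖ = 1 ∧ ζ ^ (2 * n) = z := by
    intro z hz
    have h2n : (2 * n) ≠ 0 := by omega
    refine ⟨z ^ ((((2 * n : ℕ) : ℂ))⁻¹), ?_, Complex.cpow_nat_inv_pow z h2n⟩
    have h3 : ‖z ^ ((((2 * n : ℕ) : ℂ))⁻¹)‖ ^ (2 * n) = 1 := by
      rw [← norm_pow, Complex.cpow_nat_inv_pow z h2n, hz]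
    exact (pow_eq_one_iff_of_nonneg (norm_nonneg _) h2n).1 h3
  obtain ⟨ζ1, hζ1, hζ1'⟩ := hroot (-1) (by simp)
  obtain ⟨ζ2, hζ2, hζ2'⟩ := hroot Complex.I (by simp)
  have hnorm : ∀ᵐ u ∂nu, ‖g u‖ = 1 := by
    filter_upwards [ae_norm] with u hu
    simp only [hg]
    rw [norm_div, norm_pow, norm_pow, hu, hcn, one_pow, one_pow, div_one]
  rcases herg A hAm hinv with h0 | h1
  · rw [hmu, measure_eq_zero_iff_ae_notMem] at h0
    have h0' : ∀ᵐ u ∂nu, (g u).re ≤ 0 := by
      filter_upwards [h0] with u hu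
      exact not_lt.1 hu
    have h2 := hrot ζ1 hζ1 (P := fun z => z.re ≤ 0) h0'
    rw [hζ1'] at h2
    have h3 : ∀ᵐ u ∂nu, (g u).re = 0 := by
      filter_upwards [h0', h2] with u hu1 hu2
      simp only [neg_mul, one_mul, Complex.neg_re] at hu2
      linarith
    have h4 := hrot ζ2 hζ2 (P := fun z => z.re = 0) h3
    rw [hζ2'] at h4
    obtain ⟨u, hu1, hu2, hu3⟩ := (h3.and (h4.and hnorm)).exists
    have hu4 : g u = 0 := by
      apply Complex.ext
      · exact hu1
      · have := hu2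
        simp only [Complex.mul_re, Complex.I_re, zero_mul, Complex.I_im, one_mul] at this
        simpa using this
    rw [hu4, norm_zero] at hu3
    exact zero_ne_one hu3
  · have h1' : nu {u | 0 < (g u).re}ᶜ = 0 := by
      rw [hmu] at h1
      exact (prob_compl_eq_zero_iff (measurableSet_lt measurable_const
        (Complex.measurable_re.comp hgm))).2 h1
    rw [measure_eq_zero_iff_ae_notMem] at h1'
    have h0' : ∀ᵐ u ∂nu, 0 < (g u).re := by
      filter_upwards [h1'] with u hu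
      by_contra hcon
      exact hu hcon
    have h2 := hrot ζ1 hζ1 (P := fun z => 0 < z.re) h0'
    rw [hζ1'] at h2
    obtain ⟨u, hu1, hu2⟩ := (h0'.and h2).exists
    simp only [neg_mul, one_mul, Complex.neg_re] at hu2
    linarith

end PolygonalTable

end Vale.Agent.P099T
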