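import Vale.Agent.P099.Bdl.B1
attribute [-instance] ProperSMul.toContinuousSMul IsTopologicalTorsor.toContinuousSMul IdemSemiring.toCanonicallyOrderedAdd IdemSemiring.toMulLeftMono IdemSemiring.toMulRightMono AddQuantale.instAddLeftMono AddQuantale.instAddRightMono Quantale.instMulLeftMono Quantale.instMulRightMono FiniteDimensional.rclike_to_real IsScalarTower.complexToReal FiniteDimensional.complexToReal
set_option linter.all false

/-!
# Twisted energy estimate

The energy estimate of `B1.lean` for functions on (triangle) x (directions) x (parameters) whose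
boundary condition at the side `i` also moves the parameter by a measure preserving involution
`σ i`.
-/

open MeasureTheory Set Filter Topology
open scoped ComplexConjugate

namespace Vale.Agent.P099

variable {Ω : Type} [MeasurableSpace Ω]

/-- three measure preserving involutions of the parameter space -/
structure Inv3 (m : Measure Ω) (σ : Fin 3 → Ω → Ω) : Prop where
  mp : ∀ i, MeasurePreserving (σ i) m m
  inv : ∀ i q, σ i (σ i q) = q

lemma Inv3.meas {m : Measure Ω} {σ : Fin 3 → Ω → Ω} (h : Inv3 m σ) (i : Fin 3) :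
    Measurable (σ i) := (h.mp i).measurable

lemma Inv3.integral_comp {m : Measure Ω} {σ : Fin 3 → Ω → Ω} (h : Inv3 m σ) (i : Fin 3)
    {E : Type*} [NormedAddCommGroup E] [NormedSpace ℝ E] (g : Ω → E) :
    ∫ q, g (σ i q) ∂m = ∫ q, g q ∂m :=
  (h.mp i).integral_comp (MeasurableEquiv.measurableEmbedding
    ⟨⟨σ i, σ i, h.inv i, h.inv i⟩, h.meas i, h.meas i⟩) g

lemma Inv3.integral_anti {m : Measure Ω} {σ : Fin 3 → Ω → Ω} (h : Inv3 m σ) (i : Fin 3)
    {g : Ω → ℝ} (hg : ∀ q, g (σ i q) = - g q) : ∫ q, g q ∂m = 0 := by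
  have h1 := h.integral_comp i g
  simp only [hg, integral_neg] at h1
  linarith

namespace Triangle

variable (T : Triangle)

/-- the boundary term of the Jacobian identity -/
noncomputable def jb (i : Fin 3) (h : ℂ → ℂ) : ℝ :=
  (∫ t in (0 : ℝ)..1, conj (h (T.P (i + 1) + t • T.d i)) *
    fderiv ℝ h (T.P (i + 1) + t • T.d i) (T.d i)).im

/-- The Jacobian identity on a triangle, with boundary terms. -/
theorem jac_simp_gen {A B C : ℂ} (hnd : cdet (B - A) (C - A) ≠ 0) {h : ℂ → ℂ}
    (hh : ContDiff ℝ 2 h) :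
    2 * cr (B - A) (C - A) * ∫ p in simp2, (‖dz h (tri A (B - A) (C - A) p)‖ ^ 2
      - ‖dzb h (tri A (B - A) (C - A) p)‖ ^ 2) =
      (∫ t in (0 : ℝ)..1, conj (h (B + t • (C - B))) * fderiv ℝ h (B + t • (C - B)) (C - B)).im
      - (∫ t in (0 : ℝ)..1, conj (h (A + t • (C - A))) * fderiv ℝ h (A + t • (C - A)) (C - A)).im
      + (∫ t in (0 : ℝ)..1, conj (h (A + t • (B - A))) *
          fderiv ℝ h (A + t • (B - A)) (B - A)).im := by
  set u := B - A with hu
  set v := C - A with hv
  set T := tri A u v with hT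
  have hTc : Continuous T := continuous_tri A u v
  have hh1 : ContDiff ℝ 1 h := hh.of_le one_le_two
  have hD : Differentiable ℝ h := hh.differentiable two_ne_zero
  have hfd : Continuous (fderiv ℝ h) := hh.continuous_fderiv two_ne_zero
  have hfd1 : ContDiff ℝ 1 (fderiv ℝ h) := hh.fderiv_right (m := 1) (by norm_num)
  have hfd2 : Continuous (fderiv ℝ (fderiv ℝ h)) := hfd1.continuous_fderiv one_ne_zero
  have hsymm : ∀ z a b, fderiv ℝ (fderiv ℝ h) z a b = fderiv ℝ (fderiv ℝ h) z b a := by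
    intro z a b
    exact second_derivative_symmetric (f := h) (f' := fderiv ℝ h)
      (fun y => (hD y).hasFDerivAt) ((hfd1.differentiable one_ne_zero z).hasFDerivAt) a b
  let F : ℝ × ℝ → ℂ := fun p => conj (h (T p)) * fderiv ℝ h (T p) v
  let G : ℝ × ℝ → ℂ := fun p => conj (h (T p)) * fderiv ℝ h (T p) u
  let Fs : ℝ × ℝ → ℂ := fun p => conj (fderiv ℝ h (T p) u) * fderiv ℝ h (T p) v
    + conj (h (T p)) * fderiv ℝ (fderiv ℝ h) (T p) u v
  let Gt : ℝ × ℝ → ℂ := fun p => conj (fderiv ℝ h (T p) v) * fderiv ℝ h (T p) u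
    + conj (h (T p)) * fderiv ℝ (fderiv ℝ h) (T p) v u
  have hFc : Continuous F := (Complex.continuous_conj.comp (hh.continuous.comp hTc)).mul
    ((hfd.comp hTc).clm_apply continuous_const)
  have hGc : Continuous G := (Complex.continuous_conj.comp (hh.continuous.comp hTc)).mul
    ((hfd.comp hTc).clm_apply continuous_const)
  have hFsc : Continuous Fs :=
    ((Complex.continuous_conj.comp ((hfd.comp hTc).clm_apply continuous_const)).mul
      ((hfd.comp hTc).clm_apply continuous_const)).add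
    ((Complex.continuous_conj.comp (hh.continuous.comp hTc)).mul
      (((hfd2.comp hTc).clm_apply continuous_const).clm_apply continuous_const))
  have hGtc : Continuous Gt :=
    ((Complex.continuous_conj.comp ((hfd.comp hTc).clm_apply continuous_const)).mul
      ((hfd.comp hTc).clm_apply continuous_const)).add
    ((Complex.continuous_conj.comp (hh.continuous.comp hTc)).mul
      (((hfd2.comp hTc).clm_apply continuous_const).clm_apply continuous_const))
  have hTs : ∀ s t : ℝ, HasDerivAt (fun s => T (s, t)) u s := by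
    intro s t
    have h1 : HasDerivAt (fun s : ℝ => A + (s • u + t • v)) u s := by
      simpa using (((hasDerivAt_id s).smul_const u).add_const (t • v)).const_add A
    exact h1
  have hTt : ∀ s t : ℝ, HasDerivAt (fun t => T (s, t)) v t := by
    intro s t
    have h1 : HasDerivAt (fun t : ℝ => A + (s • u + t • v)) v t := by
      simpa only [Complex.real_smul, hasDerivAt_const_add_iff, id_eq, one_smul] using     (((hasDerivAt_id t).smul_const v).const_add (s • u)).const_add A
    exact h1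
  have hhs : ∀ s t : ℝ, HasDerivAt (fun s => h (T (s, t))) (fderiv ℝ h (T (s, t)) u) s :=
    fun s t => (hD _).hasFDerivAt.comp_hasDerivAt s (hTs s t)
  have hht : ∀ s t : ℝ, HasDerivAt (fun t => h (T (s, t))) (fderiv ℝ h (T (s, t)) v) t :=
    fun s t => (hD _).hasFDerivAt.comp_hasDerivAt t (hTt s t)
  have hds : ∀ (s t : ℝ) (w : ℂ), HasDerivAt (fun s => fderiv ℝ h (T (s, t)) w)
      (fderiv ℝ (fderiv ℝ h) (T (s, t)) u w) s := by
    intro s t w
    have h1 := (hfd1.differentiable one_ne_zero (T (s, t))).hasFDerivAt.comp_hasDerivAt s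
      (hTs s t)
    exact h1.clm_apply (hasDerivAt_const s w) |>.congr_deriv (by simp)
  have hdt : ∀ (s t : ℝ) (w : ℂ), HasDerivAt (fun t => fderiv ℝ h (T (s, t)) w)
      (fderiv ℝ (fderiv ℝ h) (T (s, t)) v w) t := by
    intro s t w
    have h1 := (hfd1.differentiable one_ne_zero (T (s, t))).hasFDerivAt.comp_hasDerivAt t
      (hTt s t)
    exact h1.clm_apply (hasDerivAt_const t w) |>.congr_deriv (by simp only [Function.comp_apply, map_zero, add_zero])
  have hcs : ∀ s t : ℝ, HasDerivAt (fun s => conj (h (T (s, t))))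
      (conj (fderiv ℝ h (T (s, t)) u)) s := fun s t => (hhs s t).star
  have hct : ∀ s t : ℝ, HasDerivAt (fun t => conj (h (T (s, t))))
      (conj (fderiv ℝ h (T (s, t)) v)) t := fun s t => (hht s t).star
  have hgreen := green_simp2 (E := ℂ) (F := F) (G := G) (Fs := Fs) (Gt := Gt) hFsc hGtc
    (fun s t => (hcs s t).mul (hds s t v)) (fun s t => (hct s t).mul (hdt s t u)) hFc hGc
  have hpt : ∀ p, Fs p - Gt p
      = ((2 * cr u v * (‖dz h (T p)‖ ^ 2 - ‖dzb h (T p)‖ ^ 2) : ℝ) : ℂ) * Complex.I := by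
    intro p
    rw [← jac_point h (T p) u v]
    simp only [Fs, Gt]
    rw [hsymm (T p) u v]
    ring
  have hside1 : (∫ t in (0 : ℝ)..1, F (0, t)) =
      (∫ t in (0 : ℝ)..1, conj (h (A + t • v)) * fderiv ℝ h (A + t • v) v) := by
    have hTe : ∀ t : ℝ, T (0, t) = A + t • v := by
      intro t
      simp [hT, tri]
    simp only [F, hTe]
  have hside2 : (∫ s in (0 : ℝ)..1, G (s, 0)) =
      (∫ t in (0 : ℝ)..1, conj (h (A + t • u)) * fderiv ℝ h (A + t • u) u) := by
    have hTe : ∀ t : ℝ, T (t, 0) = A + t • u := by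
      intro t
      simp [hT, tri]
    simp only [G, hTe]
  have hside3 : (∫ t in (0 : ℝ)..1, (F (1 - t, t) - G (1 - t, t))) =
      ∫ t in (0 : ℝ)..1, conj (h (B + t • (C - B))) * fderiv ℝ h (B + t • (C - B)) (C - B) := by
    have hTe : ∀ t : ℝ, T (1 - t, t) = B + t • (C - B) := by
      intro t
      simp only [hT, tri, Complex.real_smul]
      rw [hu, hv]
      push_cast
      ring
    have hw : C - B = v - u := by rw [hu, hv]; ring
    have hFG : ∀ t : ℝ, F (1 - t, t) - G (1 - t, t)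
        = conj (h (B + t • (C - B))) * fderiv ℝ h (B + t • (C - B)) (C - B) := by
      intro t
      have e : fderiv ℝ h (B + t • (C - B)) (C - B)
          = fderiv ℝ h (B + t • (C - B)) v - fderiv ℝ h (B + t • (C - B)) u := by
        rw [← map_sub (fderiv ℝ h (B + t • (C - B))) v u, ← hw]
      simp only [F, G, hTe]
      rw [e]
      ring
    simp only [hFG]
  have hlhs : ∫ p in simp2, (Fs p - Gt p)
      = ((2 * cr u v * ∫ p in simp2, (‖dz h (T p)‖ ^ 2 - ‖dzb h (T p)‖ ^ 2) : ℝ) : ℂ)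
        * Complex.I := by
    simp only [hpt]
    rw [integral_mul_const, integral_complex_ofReal, integral_const_mul]
  have him := congrArg Complex.im hgreen
  rw [hlhs, Complex.add_im, Complex.sub_im, hside1, hside2, hside3, Complex.im_ofReal_mul,
    Complex.I_im, mul_one] at him
  exact him

/-- The energy identity with boundary terms. -/
theorem jac_gen {h : ℂ → ℂ} (hh : ContDiff ℝ 2 h) :
    ∫ x in T.table, (‖dz h x‖ ^ 2 - ‖dzb h x‖ ^ 2) =
      |T.Del| / (2 * T.Del) * (T.jb 0 h + T.jb 1 h + T.jb 2 h) := by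
  have h1 := jac_simp_gen (A := T.P 0) (B := T.P 1) (C := T.P 2) T.Del_ne hh
  have e1 : T.jb 1 h = - (∫ t in (0 : ℝ)..1, conj (h (T.P 0 + t • (T.P 2 - T.P 0))) *
      fderiv ℝ h (T.P 0 + t • (T.P 2 - T.P 0)) (T.P 2 - T.P 0)).im := by
    have h3 := intervalIntegral.integral_comp_sub_left (a := 0) (b := 1)
      (fun t : ℝ => conj (h (T.P 2 + t • T.d 1)) * fderiv ℝ h (T.P 2 + t • T.d 1) (T.d 1)) 1
    rw [sub_zero, sub_self] at h3
    have e0 : T.jb 1 h = (∫ t in (0 : ℝ)..1, conj (h (T.P 2 + t • T.d 1)) *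
      fderiv ℝ h (T.P 2 + t • T.d 1) (T.d 1)).im := rfl
    rw [e0, ← h3, ← Complex.neg_im, ← intervalIntegral.integral_neg]
    congr 1
    apply intervalIntegral.integral_congr
    intro t _
    have e3 : T.P 2 + (1 - t) • T.d 1 = T.P 0 + t • (T.P 2 - T.P 0) := by
      rw [d_one]
      simp only [Complex.real_smul]
      push_cast
      ring
    have e4 : T.d 1 = -(T.P 2 - T.P 0) := by rw [d_one]; ring
    simp only
    rw [e3, e4, map_neg, mul_neg]
  have e2 : T.jb 0 h = (∫ t in (0 : ℝ)..1, conj (h (T.P 1 + t • (T.P 2 - T.P 1))) *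
      fderiv ℝ h (T.P 1 + t • (T.P 2 - T.P 1)) (T.P 2 - T.P 1)).im := rfl
  have e3 : T.jb 2 h = (∫ t in (0 : ℝ)..1, conj (h (T.P 0 + t • (T.P 1 - T.P 0))) *
      fderiv ℝ h (T.P 0 + t • (T.P 1 - T.P 0)) (T.P 1 - T.P 0)).im := rfl
  have hD : cr (T.P 1 - T.P 0) (T.P 2 - T.P 0) = T.Del := rfl
  rw [hD] at h1
  have hsum : T.jb 0 h + T.jb 1 h + T.jb 2 h = 2 * T.Del *
      ∫ p in simp2, (‖dz h (tri (T.P 0) (T.P 1 - T.P 0) (T.P 2 - T.P 0) p)‖ ^ 2
        - ‖dzb h (tri (T.P 0) (T.P 1 - T.P 0) (T.P 2 - T.P 0) p)‖ ^ 2) := by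
    rw [h1, e1, e2, e3]
    ring
  rw [hsum, integral_table, smul_eq_mul]
  have := T.Del_ne
  field_simp

/-- the boundary term changes its sign under `w ↦ ω * conj w` -/
theorem jb_anti {i : Fin 3} {h h' : ℂ → ℂ} (hh : ContDiff ℝ 1 h) (hh' : ContDiff ℝ 1 h') {ω : ℂ}
    (hω : ‖ω‖ = 1) (hb : ∀ y ∈ segment ℝ (T.P (i + 1)) (T.P (i + 2)), h' y = ω * conj (h y)) :
    T.jb i h' = - T.jb i h := by
  have key : ∀ t ∈ Ioo (0 : ℝ) 1,
      conj (h' (T.P (i + 1) + t • T.d i)) * fderiv ℝ h' (T.P (i + 1) + t • T.d i) (T.d i) =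
      conj (conj (h (T.P (i + 1) + t • T.d i)) *
        fderiv ℝ h (T.P (i + 1) + t • T.d i) (T.d i)) := by
    intro t ht
    have hline : ∀ s : ℝ, HasDerivAt (fun t : ℝ => T.P (i + 1) + t • T.d i) (T.d i) s := by
      intro s
      simpa using ((hasDerivAt_id s).smul_const (T.d i)).const_add (T.P (i + 1))
    have h1 : HasDerivAt (fun t : ℝ => h (T.P (i + 1) + t • T.d i))
        (fderiv ℝ h (T.P (i + 1) + t • T.d i) (T.d i)) t :=
      (hh.differentiable one_ne_zero _).hasFDerivAt.comp_hasDerivAt t (hline t)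
    have h2 : HasDerivAt (fun t : ℝ => h' (T.P (i + 1) + t • T.d i))
        (fderiv ℝ h' (T.P (i + 1) + t • T.d i) (T.d i)) t :=
      (hh'.differentiable one_ne_zero _).hasFDerivAt.comp_hasDerivAt t (hline t)
    have h3 : HasDerivAt (fun t : ℝ => ω * conj (h (T.P (i + 1) + t • T.d i)))
        (ω * conj (fderiv ℝ h (T.P (i + 1) + t • T.d i) (T.d i))) t :=
      h1.star.const_mul ω
    have h5 : (fun t : ℝ => h' (T.P (i + 1) + t • T.d i)) =ᶠ[nhds t]
        fun t => ω * conj (h (T.P (i + 1) + t • T.d i)) := by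
      filter_upwards [Ioo_mem_nhds ht.1 ht.2] with s hs
      apply hb
      have := mem_seg (A := T.P (i + 1)) (B := T.P (i + 2)) (t := s) ⟨hs.1.le, hs.2.le⟩
      exact this
    have h6 : fderiv ℝ h' (T.P (i + 1) + t • T.d i) (T.d i) =
        ω * conj (fderiv ℝ h (T.P (i + 1) + t • T.d i) (T.d i)) :=
      h2.unique (h3.congr_of_eventuallyEq h5)
    have h7 : h' (T.P (i + 1) + t • T.d i) = ω * conj (h (T.P (i + 1) + t • T.d i)) :=
      h5.eq_of_nhds
    rw [h6, h7, map_mul, map_mul, Complex.conj_conj]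
    have h8 : conj ω * ω = 1 := by
      rw [mul_comm, Complex.mul_conj, Complex.normSq_eq_norm_sq, hω]
      norm_num
    linear_combination (h (T.P (i + 1) + t • T.d i) *
      conj (fderiv ℝ h (T.P (i + 1) + t • T.d i) (T.d i))) * h8
  have h1 : ∫ t in (0 : ℝ)..1, conj (h' (T.P (i + 1) + t • T.d i)) *
      fderiv ℝ h' (T.P (i + 1) + t • T.d i) (T.d i) =
      conj (∫ t in (0 : ℝ)..1, conj (h (T.P (i + 1) + t • T.d i)) *
        fderiv ℝ h (T.P (i + 1) + t • T.d i) (T.d i)) := by
    rw [intervalIntegral.integral_of_le zero_le_one, intervalIntegral.integral_of_le zero_le_one,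
      integral_Ioc_eq_integral_Ioo, integral_Ioc_eq_integral_Ioo, ← integral_conj]
    exact setIntegral_congr_fun measurableSet_Ioo key
  unfold jb
  rw [h1, Complex.conj_im]

/-- extension by reflection in the three sides -/
noncomputable def extS (σ : Fin 3 → Ω → Ω) (f : ℂ → ℂ × Ω → ℝ) (y : ℂ) (ω : ℂ × Ω) : ℝ :=
  T.table.indicator (fun y => f y ω) y +
    ∑ i, (T.R i ⁻¹' T.table).indicator (fun y => f (T.R i y) (T.refl i ω.1, σ i ω.2)) y

/-- the mollification satisfies the reflection boundary condition -/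
def SymS (σ : Fin 3 → Ω → Ω) (ε : ℝ) (f : ℂ → ℂ × Ω → ℝ) : Prop :=
  ∀ i, ∀ y ∈ segment ℝ (T.P (i + 1)) (T.P (i + 2)), ∀ ω : ℂ × Ω,
    mol ε f y (T.refl i ω.1, σ i ω.2) = mol ε f y ω

variable (m : Measure Ω)

/-- `V` is the derivative of `U` along motions with one collision. -/
def BounceDerS (σ : Fin 3 → Ω → Ω) (U V : ℂ → ℂ × Ω → ℝ) : Prop :=
  ∀ t : ℝ, 0 < t → ∀ i, ∀ᵐ p ∂((volume.restrict T.table).prod (nu.prod m)),
    T.E i (p.1, p.2.1) → T.hitT i (p.1, p.2.1) < t → T.R i (p.1 + t • p.2.1) ∈ T.table →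
      U (T.R i (p.1 + t • p.2.1)) (T.refl i p.2.1, σ i p.2.2) - U p.1 p.2 =
        (∫ s in (0:ℝ)..(T.hitT i (p.1, p.2.1)), V (p.1 + s • p.2.1) p.2) +
        ∫ s in (T.hitT i (p.1, p.2.1))..t, V (T.R i (p.1 + s • p.2.1)) (T.refl i p.2.1, σ i p.2.2)

/-- boundary condition for the modes -/
lemma md_bdryS {σ : Fin 3 → Ω → Ω} {ε : ℝ} {f : ℂ → ℂ × Ω → ℝ} (hε : 0 < ε) (hf : Bdd f)
    (hfs : T.SymS σ ε f) (k : ℤ) (q : Ω)
    (i : Fin 3) (y : ℂ) (hy : y ∈ segment ℝ (T.P (i + 1)) (T.P (i + 2))) :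
    md k (fun x ω => (mol ε f x ω : ℂ)) y (σ i q) =
      (T.d i / (starRingEnd ℂ) (T.d i)) ^ (-k) *
        (starRingEnd ℂ) (md k (fun x ω => (mol ε f x ω : ℂ)) y q) := by
  have hmeas : Measurable (fun u : ℂ => (mol ε f y (u, σ i q) : ℂ) * u ^ (-k)) := by
    have h2 := (bm_cv (continuous_rhoC ε) (hcs_rhoC hε) hf).meas_u y (σ i q)
    simp only [← mol_eq_cv] at h2
    exact h2.mul (measurable_zpow' k)
  have hmp := T.measurePreserving_refl i
  calc md k (fun x ω => (mol ε f x ω : ℂ)) y (σ i q)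
      = ∫ u, (mol ε f y (u, σ i q) : ℂ) * u ^ (-k) ∂(nu.map (T.refl i)) := by
        rw [hmp.map_eq]; rfl
    _ = ∫ u, (mol ε f y (T.refl i u, σ i q) : ℂ) * (T.refl i u) ^ (-k) ∂nu :=
        integral_map hmp.measurable.aemeasurable hmeas.aestronglyMeasurable
    _ = ∫ u, (T.d i / (starRingEnd ℂ) (T.d i)) ^ (-k) *
          (starRingEnd ℂ) ((mol ε f y (u, q) : ℂ) * u ^ (-k)) ∂nu := by
        congr 1
        ext u
        have h1 := hfs i y hy (u, q)
        simp only at h1
        rw [h1, T.refl_eq i u, mul_zpow, map_mul, map_zpow₀, Complex.conj_ofReal]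
        ring
    _ = (T.d i / (starRingEnd ℂ) (T.d i)) ^ (-k) *
        (starRingEnd ℂ) (md k (fun x ω => (mol ε f x ω : ℂ)) y q) := by
        rw [integral_const_mul, integral_conj]
        rfl

end Triangle

lemma BMq.const (c : ℂ) : BMq (fun (_ : ℂ) (_ : Ω) => c) :=
  ⟨measurable_const, ‖c‖, fun _ _ => le_rfl⟩

/-- integrals along a segment are integrable in the parameter -/
lemma BMq.integrable_side {G : ℂ → Ω → ℂ} (hG : BMq G) (m : Measure Ω) [IsProbabilityMeasure m]
    (P V : ℂ) : Integrable (fun q => ∫ t in (0 : ℝ)..1, G (P + t • V) q) m := by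
  obtain ⟨hm, C, hC⟩ := hG
  have h1 : Measurable (fun z : Ω × ℝ => G (P + z.2 • V) z.1) := by
    have : Measurable (fun z : Ω × ℝ => ((P + z.2 • V, z.1) : ℂ × Ω)) := by fun_prop
    exact hm.comp this
  have h2 : Measurable (fun q : Ω => ∫ t in (0 : ℝ)..1, G (P + t • V) q) := by
    simp only [intervalIntegral.integral_of_le zero_le_one]
    exact (h1.stronglyMeasurable.integral_prod_right'
      (ν := (volume : Measure ℝ).restrict (Ioc 0 1))).measurable
  refine Integrable.of_bound h2.aestronglyMeasurable C (Filter.Eventually.of_forall fun q => ?_)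
  have := intervalIntegral.norm_integral_le_of_norm_le_const (a := 0) (b := 1) (C := C)
    (f := fun t : ℝ => G (P + t • V) q) (fun s _ => hC _ _)
  simpa using this

section identitiesS

variable (T : Triangle) (m : Measure Ω) [IsProbabilityMeasure m]

lemma fderiv_eq_dz (h : ℂ → ℂ) (z v : ℂ) :
    fderiv ℝ h z v = dz h z * v + dzb h z * conj v := by
  rw [fderiv_complex_eq h z v]
  unfold dz dzb
  have hv : v = (v.re : ℂ) + (v.im : ℂ) * Complex.I := (Complex.re_add_im v).symm
  have hcv : conj v = (v.re : ℂ) - (v.im : ℂ) * Complex.I := by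
    apply Complex.ext <;> simp
  have h2 : Complex.I * Complex.I = -1 := Complex.I_mul_I
  rw [hcv]
  conv_rhs => rw [hv]
  simp only [Complex.add_re, Complex.ofReal_re, Complex.mul_re, Complex.I_re, mul_zero,
    Complex.ofReal_im, Complex.I_im, mul_one, sub_self, add_zero, Complex.add_im, Complex.mul_im,
    zero_add]
  linear_combination ((v.im : ℂ) * fderiv ℝ h z Complex.I) * h2

lemma nrmq_grd_eqS {σ : Fin 3 → Ω → Ω} (hσ : Inv3 m σ) {ε : ℝ} (hε : 0 < ε)
    {f : ℂ → ℂ × Ω → ℝ} (hf : Bdd f) (hfs : T.SymS σ ε f)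
    (k : ℤ) : T.nrmq m (md k (grd ε f)) =
      T.nrmq m (md k (fun x ω => (starRingEnd ℂ) (grd ε f x ω))) := by
  have hA := bm_md (bm_grd hε hf) k
  have hB := bm_md (bm_cgrd hε hf) k
  have hW := bm_md (bm_mol hε hf) k
  rw [nrmq_eq_integral T m hA, nrmq_eq_integral T m hB,
    integral_prod_symm _ (hA.integrable_sq T m), integral_prod_symm _ (hB.integrable_sq T m),
    ← sub_eq_zero, ← integral_sub (hA.integrable_sq T m).integral_prod_right
      (hB.integrable_sq T m).integral_prod_right]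
  -- the modes
  set w : Ω → ℂ → ℂ := fun q x => md k (fun x ω => (mol ε f x ω : ℂ)) x q with hwdef
  have hw : ∀ q, ContDiff ℝ 2 (w q) := fun q => contDiff_infty.1 (md_mol_contDiff hε hf k q) 2
  have hgen : ∀ q, (∫ x in T.table, ‖md k (grd ε f) x q‖ ^ 2) -
      (∫ x in T.table, ‖md k (fun x ω => (starRingEnd ℂ) (grd ε f x ω)) x q‖ ^ 2) =
      |T.Del| / (2 * T.Del) * (T.jb 0 (w q) + T.jb 1 (w q) + T.jb 2 (w q)) := by
    intro q
    rw [← integral_sub (hA.integrable_sq_x T q) (hB.integrable_sq_x T q), ← T.jac_gen (hw q)]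
    simp only [hwdef, dz_md_mol hε hf k q, dzb_md_mol hε hf k q]
  have hjb : ∀ i q, T.jb i (w q) = (∫ t in (0 : ℝ)..1,
      (fun x q => conj (md k (fun x ω => (mol ε f x ω : ℂ)) x q) *
        (md k (grd ε f) x q * T.d i +
          md k (fun x ω => (starRingEnd ℂ) (grd ε f x ω)) x q * conj (T.d i)))
        (T.P (i + 1) + t • T.d i) q).im := by
    intro i q
    unfold Triangle.jb
    congr 1
    apply intervalIntegral.integral_congr
    intro t _
    simp only
    rw [fderiv_eq_dz]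
    simp only [hwdef, dz_md_mol hε hf k q, dzb_md_mol hε hf k q]
  have hint : ∀ i, Integrable (fun q => T.jb i (w q)) m := by
    intro i
    simp only [hjb]
    have := (hW.conj.mul ((hA.mul (BMq.const (T.d i))).add
      (hB.mul (BMq.const (conj (T.d i)))))).integrable_side m (T.P (i + 1)) (T.d i)
    exact (Complex.imCLM.integrable_comp this)
  have hanti : ∀ i, ∫ q, T.jb i (w q) ∂m = 0 := by
    intro i
    apply hσ.integral_anti i
    intro q
    have hd : T.d i ≠ 0 := T.d_ne i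
    have hn : ‖(T.d i / (starRingEnd ℂ) (T.d i)) ^ (-k)‖ = 1 := by
      rw [norm_zpow, norm_div, RCLike.norm_conj, div_self (norm_ne_zero_iff.2 hd), one_zpow]
    exact T.jb_anti (h := w q) (h' := w (σ i q)) ((hw q).of_le one_le_two)
      ((hw (σ i q)).of_le one_le_two) hn (fun y hy => T.md_bdryS hε hf hfs k q i y hy)
  have e : ∫ q, ((∫ x in T.table, ‖md k (grd ε f) x q‖ ^ 2) -
      (∫ x in T.table, ‖md k (fun x ω => (starRingEnd ℂ) (grd ε f x ω)) x q‖ ^ 2)) ∂m = 0 := by
    simp only [hgen]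
    have e2 : ∫ q, (T.jb 0 (w q) + T.jb 1 (w q) + T.jb 2 (w q)) ∂m =
        ∫ q, (T.jb 0 (w q) + T.jb 1 (w q)) ∂m + ∫ q, T.jb 2 (w q) ∂m :=
      integral_add ((hint 0).add (hint 1)) (hint 2)
    have e3 : ∫ q, (T.jb 0 (w q) + T.jb 1 (w q)) ∂m =
        ∫ q, T.jb 0 (w q) ∂m + ∫ q, T.jb 1 (w q) ∂m := integral_add (hint 0) (hint 1)
    rw [integral_const_mul, e2, e3, hanti 0, hanti 1, hanti 2]
    simp
  exact e

/-- `Re ∫ ∂_z h` with boundary terms -/
theorem Triangle.green1_gen (h : ℂ → ℂ) (hh : ContDiff ℝ 1 h) :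
    (∫ x in T.table, dz h x).re = 1 / 2 * ((SignType.sign T.Del : ℝ) *
      ∑ i, ∫ t in (0:ℝ)..1, cr (h (T.P (i + 1) + t • T.d i)) (T.d i)) := by
  have hp : ContDiff ℝ 1 (fun z => (h z).re) := Complex.reCLM.contDiff.comp hh
  have hq : ContDiff ℝ 1 (fun z => (h z).im) := Complex.imCLM.contDiff.comp hh
  have hfd : Continuous (fderiv ℝ h) := hh.continuous_fderiv one_ne_zero
  have hdz : Continuous (dz h) := by
    unfold dz
    exact (((hfd.clm_apply continuous_const)).sub
      (continuous_const.mul (hfd.clm_apply continuous_const))).div_const _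
  have hint : IntegrableOn (dz h) T.table := by
    rw [T.table_eq_image]
    exact integrableOn_tri hdz
  have hre : (∫ x in T.table, dz h x).re = ∫ x in T.table, (dz h x).re := by
    have := integral_re hint
    simpa only [RCLike.re_to_complex] using this.symm
  have hD : Differentiable ℝ h := hh.differentiable one_ne_zero
  have hpt : ∀ x, (dz h x).re
      = (1 / 2) * (fderiv ℝ (fun z => (h z).re) x 1 + fderiv ℝ (fun z => (h z).im) x Complex.I) := by
    intro x
    have h1 : fderiv ℝ (fun z => (h z).re) x = Complex.reCLM.comp (fderiv ℝ h x) :=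
      (Complex.reCLM.hasFDerivAt.comp x (hD x).hasFDerivAt).fderiv
    have h2 : fderiv ℝ (fun z => (h z).im) x = Complex.imCLM.comp (fderiv ℝ h x) :=
      (Complex.imCLM.hasFDerivAt.comp x (hD x).hasFDerivAt).fderiv
    rw [h1, h2]
    unfold dz
    simp only [Complex.div_ofNat_re, Complex.sub_re, Complex.mul_re, Complex.I_re, zero_mul, Complex.I_im, one_mul, zero_sub, sub_neg_eq_add, one_div, ContinuousLinearMap.comp_apply, Complex.reCLM_apply, Complex.imCLM_apply]
    ring
  rw [hre]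
  simp only [hpt]
  rw [integral_const_mul, T.div_thm _ _ hp hq]
  simp only [Complex.re_add_im]

lemma skew_idS {σ : Fin 3 → Ω → Ω} (hσ : Inv3 m σ)
    {ε : ℝ} (hε : 0 < ε) {f h : ℂ → ℂ × Ω → ℝ} (hf : Bdd f) (hh : Bdd h)
    (hfs : T.SymS σ ε f) (hhs : T.SymS σ ε h)
    (hskew : ∀ y y' u u', ∫ q, h y (u, q) * f y' (u', q) ∂m =
      - ∫ q, f y (u, q) * h y' (u', q) ∂m) (k : ℤ) :
    (inner ℂ (cls T m (bm_md (bm_grd hε hf) (k - 1))) (cls T m (bm_md (bm_mol hε hh) k))).re =
      (inner ℂ (cls T m (bm_md (bm_mol hε hh) (k - 1)))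
        (cls T m (bm_md (bm_cgrd hε hf) k))).re := by
  rw [re_inner_cls, re_inner_cls]
  -- the three functions
  have hT1 : BMq (fun x q => md (k - 1) (grd ε f) x q *
      (starRingEnd ℂ) (md k (fun x ω => (mol ε h x ω : ℂ)) x q)) :=
    (bm_md (bm_grd hε hf) (k - 1)).mul (bm_md (bm_mol hε hh) k).conj
  have hT2 : BMq (fun x q => md (k - 1) (fun x ω => (mol ε f x ω : ℂ)) x q *
      (starRingEnd ℂ) (md k (fun x ω => (starRingEnd ℂ) (grd ε h x ω)) x q)) :=
    (bm_md (bm_mol hε hf) (k - 1)).mul (bm_md (bm_cgrd hε hh) k).conj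
  have hT3 : BMq (fun x q => md (k - 1) (fun x ω => (mol ε h x ω : ℂ)) x q *
      (starRingEnd ℂ) (md k (fun x ω => (starRingEnd ℂ) (grd ε f x ω)) x q)) :=
    (bm_md (bm_mol hε hh) (k - 1)).mul (bm_md (bm_cgrd hε hf) k).conj
  -- the product on the boundary
  set g : ℂ → Ω → ℂ := fun x q => md (k - 1) (fun x ω => (mol ε f x ω : ℂ)) x q *
        (starRingEnd ℂ) (md k (fun x ω => (mol ε h x ω : ℂ)) x q) with hg
  have hgB : BMq g := (bm_md (bm_mol hε hf) (k - 1)).mul (bm_md (bm_mol hε hh) k).conj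
  -- Green's formula
  have hgreen : ∀ q, (∫ x in T.table, (md (k - 1) (grd ε f) x q *
      (starRingEnd ℂ) (md k (fun x ω => (mol ε h x ω : ℂ)) x q) +
      md (k - 1) (fun x ω => (mol ε f x ω : ℂ)) x q *
      (starRingEnd ℂ) (md k (fun x ω => (starRingEnd ℂ) (grd ε h x ω)) x q))).re =
      1 / 2 * ((SignType.sign T.Del : ℝ) *
      ∑ i, ∫ t in (0:ℝ)..1, cr (g (T.P (i + 1) + t • T.d i) q) (T.d i)) := by
    intro q
    have hw := md_mol_contDiff hε hf (k - 1) q
    have hw' := md_mol_contDiff hε hh k q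
    have hcd : ContDiff ℝ 1 (fun x => md (k - 1) (fun x ω => (mol ε f x ω : ℂ)) x q *
        (starRingEnd ℂ) (md k (fun x ω => (mol ε h x ω : ℂ)) x q)) := by
      apply ContDiff.mul (contDiff_infty.1 hw 1)
      exact (Complex.conjCLE.toContinuousLinearMap).contDiff.comp (contDiff_infty.1 hw' 1)
    have hgr := T.green1_gen _ hcd
    have hdz : ∀ x, dz (fun x => md (k - 1) (fun x ω => (mol ε f x ω : ℂ)) x q *
        (starRingEnd ℂ) (md k (fun x ω => (mol ε h x ω : ℂ)) x q)) x =
        md (k - 1) (grd ε f) x q *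
      (starRingEnd ℂ) (md k (fun x ω => (mol ε h x ω : ℂ)) x q) +
      md (k - 1) (fun x ω => (mol ε f x ω : ℂ)) x q *
      (starRingEnd ℂ) (md k (fun x ω => (starRingEnd ℂ) (grd ε h x ω)) x q) := by
      intro x
      rw [dz_mul_conj ((contDiff_infty.1 hw 1).differentiable one_ne_zero x)
        ((contDiff_infty.1 hw' 1).differentiable one_ne_zero x),
        dz_md_mol hε hf (k - 1) q x, dzb_md_mol hε hh k q x]
    simp only [hdz] at hgr
    exact hgr
  have hbd : ∀ i, ∀ q, ∀ y ∈ segment ℝ (T.P (i + 1)) (T.P (i + 2)),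
      g y (σ i q) = T.d i / (starRingEnd ℂ) (T.d i) * (starRingEnd ℂ) (g y q) := by
    intro i q y hy
    have b1 := T.md_bdryS hε hf hfs (k - 1) q i y hy
    have b2 := T.md_bdryS hε hh hhs k q i y hy
    set c : ℂ := T.d i / (starRingEnd ℂ) (T.d i) with hc
    have hd : T.d i ≠ 0 := T.d_ne i
    have hd' : (starRingEnd ℂ) (T.d i) ≠ 0 := by simpa using hd
    have hc0 : c ≠ 0 := div_ne_zero hd hd'
    have hcc : (starRingEnd ℂ) c = c⁻¹ := by
      rw [hc, map_div₀, Complex.conj_conj, inv_div]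
    have b3 : (starRingEnd ℂ) (md k (fun x ω => (mol ε h x ω : ℂ)) y (σ i q)) =
        c ^ k * md k (fun x ω => (mol ε h x ω : ℂ)) y q := by
      rw [b2, map_mul, map_zpow₀, hcc, Complex.conj_conj, inv_zpow', neg_neg]
    have e1 : c ^ (-(k - 1)) * c ^ k = c := by
      rw [← zpow_add₀ hc0]
      have : -(k - 1) + k = 1 := by ring
      rw [this, zpow_one]
    simp only [hg]
    rw [b1, b3, map_mul, Complex.conj_conj]
    calc c ^ (-(k - 1)) * (starRingEnd ℂ) (md (k - 1) (fun x ω => (mol ε f x ω : ℂ)) y q) *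
          (c ^ k * md k (fun x ω => (mol ε h x ω : ℂ)) y q)
        = (c ^ (-(k - 1)) * c ^ k) *
          ((starRingEnd ℂ) (md (k - 1) (fun x ω => (mol ε f x ω : ℂ)) y q) *
            md k (fun x ω => (mol ε h x ω : ℂ)) y q) := by ring
      _ = _ := by rw [e1]
  have hside : ∀ i, Integrable (fun q => ∫ t in (0:ℝ)..1,
      cr (g (T.P (i + 1) + t • T.d i) q) (T.d i)) m ∧
      ∫ q, (∫ t in (0:ℝ)..1, cr (g (T.P (i + 1) + t • T.d i) q) (T.d i)) ∂m = 0 := by
    intro i
    constructor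
    · have h1 := (hgB.conj.mul (BMq.const (T.d i))).integrable_side m (T.P (i + 1)) (T.d i)
      have h2 := Complex.imCLM.integrable_comp h1
      refine h2.congr (Filter.Eventually.of_forall fun q => ?_)
      have hc : Continuous fun t : ℝ => g (T.P (i + 1) + t • T.d i) q := by
        have hw := (md_mol_contDiff hε hf (k - 1) q).continuous
        have hw' := (md_mol_contDiff hε hh k q).continuous
        have hl : Continuous fun t : ℝ => T.P (i + 1) + t • T.d i := by fun_prop
        exact (hw.comp hl).mul (Complex.continuous_conj.comp (hw'.comp hl))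
      have hc2 : IntervalIntegrable (fun t : ℝ => (starRingEnd ℂ)
          (g (T.P (i + 1) + t • T.d i) q) * T.d i) volume 0 1 :=
        ((Complex.continuous_conj.comp hc).mul continuous_const).intervalIntegrable _ _
      have h3 := Complex.imCLM.intervalIntegral_comp_comm hc2
      simp only [Complex.imCLM_apply] at h3 ⊢
      rw [← h3]
      apply intervalIntegral.integral_congr
      intro t _
      exact (Triangle.cr_eq_im _ _).symm
    · apply hσ.integral_anti i
      intro q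
      rw [← intervalIntegral.integral_neg]
      apply intervalIntegral.integral_congr
      intro t ht
      rw [uIcc_of_le zero_le_one] at ht
      simp only
      have hmem : T.P (i + 1) + t • T.d i ∈ segment ℝ (T.P (i + 1)) (T.P (i + 2)) :=
        Triangle.mem_seg (A := T.P (i + 1)) (B := T.P (i + 2)) ht
      rw [hbd i q _ hmem]
      have hr := T.cr_refl i (g (T.P (i + 1) + t • T.d i) q) (T.d i)
      rw [T.refl_d, T.refl_eq] at hr
      exact hr
  have h12 : (∫ p, (md (k - 1) (grd ε f) p.1 p.2 *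
      (starRingEnd ℂ) (md k (fun x ω => (mol ε h x ω : ℂ)) p.1 p.2) +
      md (k - 1) (fun x ω => (mol ε f x ω : ℂ)) p.1 p.2 *
      (starRingEnd ℂ) (md k (fun x ω => (starRingEnd ℂ) (grd ε h x ω)) p.1 p.2))
        ∂(lm T m)).re = 0 := by
    have hT12 := hT1.add hT2
    have hint := hT12.integrable T m
    have h0 := congrArg Complex.re (integral_prod_symm _ hint)
    have h1 : (∫ q, (∫ x in T.table, (md (k - 1) (grd ε f) x q *
      (starRingEnd ℂ) (md k (fun x ω => (mol ε h x ω : ℂ)) x q) +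
      md (k - 1) (fun x ω => (mol ε f x ω : ℂ)) x q *
      (starRingEnd ℂ) (md k (fun x ω => (starRingEnd ℂ) (grd ε h x ω)) x q))) ∂m).re =
      ∫ q, (∫ x in T.table, (md (k - 1) (grd ε f) x q *
      (starRingEnd ℂ) (md k (fun x ω => (mol ε h x ω : ℂ)) x q) +
      md (k - 1) (fun x ω => (mol ε f x ω : ℂ)) x q *
      (starRingEnd ℂ) (md k (fun x ω => (starRingEnd ℂ) (grd ε h x ω)) x q))).re ∂m :=
      (Complex.reCLM.integral_comp_comm hint.integral_prod_right).symm
    refine h0.trans (h1.trans ?_)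
    simp only [hgreen]
    rw [integral_const_mul, integral_const_mul, integral_finset_sum _ (fun i _ => (hside i).1),
      Finset.sum_eq_zero (fun i _ => (hside i).2), mul_zero, mul_zero]
  have h3 : ∫ p, md (k - 1) (fun x ω => (mol ε f x ω : ℂ)) p.1 p.2 *
      (starRingEnd ℂ) (md k (fun x ω => (starRingEnd ℂ) (grd ε h x ω)) p.1 p.2) ∂(lm T m) =
      - ∫ p, md (k - 1) (fun x ω => (mol ε h x ω : ℂ)) p.1 p.2 *
      (starRingEnd ℂ) (md k (fun x ω => (starRingEnd ℂ) (grd ε f x ω)) p.1 p.2) ∂(lm T m) := by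
    have e2 := integral_prod _ (hT2.integrable T m)
    have e3 := integral_prod _ (hT3.integrable T m)
    rw [show (∫ p, md (k - 1) (fun x ω => (mol ε f x ω : ℂ)) p.1 p.2 *
      (starRingEnd ℂ) (md k (fun x ω => (starRingEnd ℂ) (grd ε h x ω)) p.1 p.2) ∂(lm T m)) = _
      from e2, show (∫ p, md (k - 1) (fun x ω => (mol ε h x ω : ℂ)) p.1 p.2 *
      (starRingEnd ℂ) (md k (fun x ω => (starRingEnd ℂ) (grd ε f x ω)) p.1 p.2) ∂(lm T m)) = _
      from e3, ← integral_neg]
    congr 1
    ext x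
    have hs := skew_md m (continuous_rhoC ε) (hcs_rhoC hε) (continuous_kap ε) (hcs_kap hε)
      hf hh hskew (k - 1) (-k) x
    have c1 : ∀ (f' : ℂ → ℂ × Ω → ℝ) q,
        (starRingEnd ℂ) (md k (fun x ω => (starRingEnd ℂ) (grd ε f' x ω)) x q) =
        md (-k) (cv (kap ε) f') x q := by
      intro f' q
      rw [conj_md]
      simp only [Complex.conj_conj]
      rfl
    simp only [c1, mol_eq_cv]
    exact hs
  rw [integral_add (hT1.integrable T m) (hT2.integrable T m), Complex.add_re, h3,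
    Complex.neg_re] at h12
  linarith only [h12]

end identitiesS

namespace Triangle

variable (T : Triangle) (m : Measure Ω)

/-- The energy estimate. -/
theorem energyS [IsProbabilityMeasure m] {σ : Fin 3 → Ω → Ω} (hσ : Inv3 m σ) {ε : ℝ} (hε : 0 < ε)
    (f h : ℂ → ℂ × Ω → ℝ)
    (hf : BddSupp f) (hh : BddSupp h) (hfs : T.SymS σ ε f) (hhs : T.SymS σ ε h)
    (hskew : ∀ y y' u u', ∫ q, h y (u, q) * f y' (u', q) ∂m =
      - ∫ q, f y (u, q) * h y' (u', q) ∂m)
    (a v e : ℝ) (ha : 0 ≤ a) (hv : 0 ≤ v) (he : 0 ≤ e)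
    (hA : T.nrm m (grd ε f) ≤ a ^ 2)
    (hV : T.nrm m (fun x ω => (mol ε h x ω : ℂ)) ≤ v ^ 2)
    (hE : T.nrm m (fun x ω => ((Xd ε f x ω - mol ε h x ω : ℝ) : ℂ)) ≤ e ^ 2)
    (k : ℤ) (n : ℕ) (hn : |k| ≤ n) :
    T.nrmq m (fun x q => md (k - 1) (grd ε f) x q -
        md (k + 1) (fun x ω => (starRingEnd ℂ) (grd ε f x ω)) x q) ≤
      T.nrmq m (md (n + 1) (fun x ω => (mol ε h x ω : ℂ))) +
      T.nrmq m (md (-n - 1) (fun x ω => (mol ε h x ω : ℂ))) +
      100 * (n + 1) * (e * a + e * v + e ^ 2) := by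
  have hf := hf.1
  have hh := hh.1
  have hres := hilbert_energy
    (fun k => cls T m (bm_md (bm_grd hε hf) k))
    (fun k => cls T m (bm_md (bm_cgrd hε hf) k))
    (fun k => cls T m (bm_md (bm_mol hε hh) k))
    (fun k => cls T m (bm_md (bm_gt hε hf hh) k))
    (by
      intro k
      have h1 := nrmq_grd_eqS T m hσ hε hf hfs k
      rw [← norm_cls_sq T m (bm_md (bm_grd hε hf) k),
        ← norm_cls_sq T m (bm_md (bm_cgrd hε hf) k)] at h1
      exact (pow_left_inj₀ (norm_nonneg _) (norm_nonneg _) two_ne_zero).1 h1)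
    (by
      intro k
      rw [← cls_add, ← cls_add]
      apply cls_congr
      intro x q
      exact md_gt hε hf hh k x q)
    (fun k => skew_idS T m hσ hε hf hh hfs hhs hskew k)
    a v e ha hv he
    (fun s => by
      simp only [norm_cls_sq]
      exact (bessel_md T m (bm_grd hε hf) s).trans hA)
    (fun s => by
      simp only [norm_cls_sq]
      exact (bessel_md T m (bm_mol hε hh) s).trans hV)
    (fun s => by
      simp only [norm_cls_sq]
      refine (bessel_md T m (bm_gt hε hf hh) s).trans ?_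
      rw [nrm_gt]
      exact hE)
    k n hn
  simp only [← cls_sub, norm_cls_sq] at hres
  exact hres

end Triangle

end Vale.Agent.P099
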