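import Vale.Agent.P099.H172.TwA
attribute [-instance] ProperSMul.toContinuousSMul IsTopologicalTorsor.toContinuousSMul IdemSemiring.toCanonicallyOrderedAdd IdemSemiring.toMulLeftMono IdemSemiring.toMulRightMono AddQuantale.instAddLeftMono AddQuantale.instAddRightMono Quantale.instMulLeftMono Quantale.instMulRightMono FiniteDimensional.rclike_to_real IsScalarTower.complexToReal FiniteDimensional.complexToReal
set_option linter.all false

/-!
# Twisted version of the estimates of `B1.lean`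

The files `TwB`, `TwC` repeat the lemmas of `B1.lean` that involve the extension by reflections,
with a measure preserving involution `ς i` of the parameter space applied at the side `i`.
-/

open MeasureTheory Set Filter Topology

namespace Vale.Agent.P099

variable {Ω : Type} [MeasurableSpace Ω]

/-- three measurable involutions -/
class TwInv (ς : Fin 3 → Ω → Ω) : Prop where
  meas : ∀ i, Measurable (ς i)
  inv : ∀ i q, ς i (ς i q) = q

/-- the maps preserve the measure -/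
class TwMP (m : Measure Ω) (ς : Fin 3 → Ω → Ω) : Prop where
  mp : ∀ i, MeasurePreserving (ς i) m m

/-- the maps commute with the flow -/
class TwCom (Ψ : ℝ → Ω → Ω) (ς : Fin 3 → Ω → Ω) : Prop where
  com : ∀ t i q, Ψ t (ς i q) = ς i (Ψ t q)

lemma Inv3.mk' (m : Measure Ω) (ς : Fin 3 → Ω → Ω) [TwInv ς] [TwMP m ς] : Inv3 m ς :=
  ⟨TwMP.mp, TwInv.inv⟩

/-- an optional involution -/
def os (ς : Fin 3 → Ω → Ω) : Option (Fin 3) → Ω → Ω
  | none => id
  | some i => ς i

lemma os_meas (ς : Fin 3 → Ω → Ω) [TwInv ς] (j : Option (Fin 3)) : Measurable (os ς j) := by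
  cases j with
  | none => exact measurable_id
  | some i => exact TwInv.meas i

namespace Triangle

variable (T : Triangle) (m : Measure Ω)

lemma measurePreserving_refl_prodS [SFinite m] {ς : Fin 3 → Ω → Ω} [TwMP m ς] (i : Fin 3) :
    MeasurePreserving (fun p : ℂ × (ℂ × Ω) => (T.R i p.1, (T.refl i p.2.1, ς i p.2.2)))
      ((volume : Measure ℂ).prod (nu.prod m)) ((volume : Measure ℂ).prod (nu.prod m)) :=
  (T.measurePreserving_R i).prod ((T.measurePreserving_refl i).prod (TwMP.mp i))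

lemma ae_reflectS [SFinite m] {ς : Fin 3 → Ω → Ω} [TwMP m ς] (i : Fin 3)
    {P : ℂ × (ℂ × Ω) → Prop}
    (h : ∀ᵐ p ∂((volume : Measure ℂ).prod (nu.prod m)), P p) :
    ∀ᵐ p ∂((volume : Measure ℂ).prod (nu.prod m)), P (T.R i p.1, (T.refl i p.2.1, ς i p.2.2)) :=
  (T.measurePreserving_refl_prodS m i).quasiMeasurePreserving.ae h

end Triangle

end Vale.Agent.P099

section
section
open MeasureTheory Set Filter Topology
namespace Vale.Agent.P099
set_option linter.unusedSectionVars false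
variable {Ω : Type} [MeasurableSpace Ω] {ς : Fin 3 → Ω → Ω} [TwInv ς]
namespace Triangle
variable (T : Triangle)
variable {T}
lemma ext_of_posS {f : ℂ → ℂ × Ω → ℝ} {y : ℂ} (h : y ∈ T.table) (ω : ℂ × Ω) :
    T.extS ς f y ω = f y ω := by
  unfold extS
  rw [indicator_of_mem h, Finset.sum_eq_zero, add_zero]
  intro j _
  apply indicator_of_notMem
  exact R_not_mem_table ((T.mem_table_iff y).mp h j).le

lemma LocAt.ext_of_negS {f : ℂ → ℂ × Ω → ℝ} {i : Fin 3} {y : ℂ} (h : T.LocAt i y)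
    (hi : T.lam i y < 0) (ω : ℂ × Ω) :
    T.extS ς f y ω = f (T.R i y) (T.refl i ω.1, ς i ω.2) := by
  unfold extS
  rw [indicator_of_notMem (not_mem_table_of_nonpos hi.le), zero_add,
    Finset.sum_eq_single i]
  · rw [indicator_of_mem]
    exact h.R_mem_table hi
  · intro j _ hj
    apply indicator_of_notMem
    exact R_not_mem_table (h.1 j hj).le
  · simp

lemma LocAt.ext_of_zeroS {f : ℂ → ℂ × Ω → ℝ} {i : Fin 3} {y : ℂ} (h : T.LocAt i y)
    (hi : T.lam i y = 0) (ω : ℂ × Ω) :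
    T.extS ς f y ω = 0 := by
  unfold extS
  rw [indicator_of_notMem (not_mem_table_of_nonpos hi.le), zero_add, Finset.sum_eq_zero]
  intro j _
  apply indicator_of_notMem
  by_cases hj : j = i
  · apply R_not_mem_table
    rw [hj, hi]
  · exact R_not_mem_table (h.1 j hj).le

variable (T)
/-- (b) -/
lemma ext_eq_zero_nearS {r0 : ℝ} (hr1 : T.Lp * r0 ≤ 1) {f : ℂ → ℂ × Ω → ℝ}
    (hf : ∀ m, ∀ x ∈ T.table, ‖x - T.P m‖ < r0 → ∀ ω, f x ω = 0) {m : Fin 3} {y : ℂ}
    (hy : ‖y - T.P m‖ < r0) (ω : ℂ × Ω) : T.extS ς f y ω = 0 := by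
  unfold extS
  have h1 : T.table.indicator (fun y => f y ω) y = 0 := by
    by_cases h : y ∈ T.table
    · rw [indicator_of_mem h]
      exact hf m y h hy ω
    · exact indicator_of_notMem h _
  rw [h1, zero_add]
  apply Finset.sum_eq_zero
  intro j _
  by_cases h : T.R j y ∈ T.table
  · rw [indicator_of_mem (by exact h)]
    by_cases hj : m = j
    · exfalso
      subst hj
      have h2 := (T.mem_table_iff _).mp h m
      rw [T.lam_R] at h2
      have h3 := T.abs_lam_sub_le m (T.P m) y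
      rw [T.lam_P, if_pos rfl] at h3
      have h4 : T.Lp * ‖y - T.P m‖ < T.Lp * r0 := by
        have := T.Lp_pos
        (clear * - hy this; gcongr)
      have h5 := (abs_le.mp h3).1
      linarith only [hr1, h2, h4, h5]
    · apply hf m _ h
      rw [← T.R_P hj, T.norm_R_sub_R]
      exact hy
  · exact indicator_of_notMem (s := T.R j ⁻¹' T.table) (by exact h) _

/-- symmetry of the extension under the reflection, near the side -/
lemma LocAt.ext_RS {T : Triangle} {f : ℂ → ℂ × Ω → ℝ} {i : Fin 3} {z : ℂ} (h : T.LocAt i z)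
    (h' : T.LocAt i (T.R i z)) (ω : ℂ × Ω) :
    T.extS ς f (T.R i z) (T.refl i ω.1, ς i ω.2) = T.extS ς f z ω := by
  rcases lt_trichotomy (T.lam i z) 0 with h0 | h0 | h0
  · rw [h.ext_of_negS h0, ext_of_posS (h.R_mem_table h0)]
  · rw [h.ext_of_zeroS h0, T.R_of_lam_eq_zero h0, h.ext_of_zeroS h0]
  · rw [ext_of_posS (h.mem_table h0), h'.ext_of_negS (by rw [T.lam_R]; linarith), T.R_R]
    simp only [T.refl_refl, TwInv.inv]

/-- (c) -/
lemma sym_extS : ∃ κ : ℝ, 0 < κ ∧ ∀ r0 : ℝ, 0 < r0 → T.Lp * r0 ≤ 1 → ∀ ε : ℝ, 0 < ε → ε ≤ κ * r0 →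
    ∀ f : ℂ → ℂ × Ω → ℝ, (∀ m, ∀ x ∈ T.table, ‖x - T.P m‖ < r0 → ∀ ω, f x ω = 0) →
    T.SymS ς ε (T.extS ς f) := by
  obtain ⟨κ, hκ, hloc⟩ := T.exists_locAt
  refine ⟨min κ (1 / 4), by positivity, ?_⟩
  intro r0 hr0 hr1 ε hε hεκ f hf i y hy ω
  have hεκ1 : ε ≤ κ * r0 := hεκ.trans (by gcongr; exact min_le_left _ _)
  have hεκ2 : ε ≤ 1 / 4 * r0 := hεκ.trans (by gcongr; exact min_le_right _ _)
  obtain ⟨hyi, hyj⟩ := T.mem_segment_lam hy
  have hRy : T.R i y = y := T.R_of_lam_eq_zero hyi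
  unfold mol
  rw [← (T.measurePreserving_R i).integral_comp
    (MeasurableEquiv.measurableEmbedding
      ⟨⟨T.R i, T.R i, T.R_R i, T.R_R i⟩, (T.continuous_R i).measurable, (T.continuous_R i).measurable⟩)]
  congr 1
  funext z
  have h1 : ‖y - T.R i z‖ = ‖y - z‖ := by
    conv_lhs => rw [← hRy]
    exact T.norm_R_sub_R i y z
  rw [rho_radial ε h1]
  by_cases hz : ε ≤ ‖y - z‖
  · rw [rho_eq_zero hε hz, zero_mul, zero_mul]
  · push Not at hz
    congr 1
    by_cases hm : ∀ m, r0 / 2 ≤ ‖y - T.P m‖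
    · obtain ⟨i', hi'⟩ := hloc r0 hr0 ε hε hεκ1 y hyj hm
      have hii : i' = i := by
        by_contra hne
        have := (hi' y (by simp; positivity)).1 i (Ne.symm hne)
        linarith only [hyi, this]
      subst hii
      apply LocAt.ext_RS
      · apply hi'
        rw [norm_sub_rev]
        linarith only [hε, hz]
      · apply hi'
        rw [norm_sub_rev, h1]
        linarith only [hε, hz]
    · push Not at hm
      obtain ⟨m, hm⟩ := hm
      rw [T.ext_eq_zero_nearS hr1 hf (m := m), T.ext_eq_zero_nearS hr1 hf (m := m)]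
      · calc ‖z - T.P m‖ = ‖(y - T.P m) - (y - z)‖ := by congr 1; ring
          _ ≤ ‖y - T.P m‖ + ‖y - z‖ := norm_sub_le _ _
          _ < r0 := by linarith only [hm, hz, hεκ2, hε]
      · calc ‖T.R i z - T.P m‖ = ‖(y - T.P m) - (y - T.R i z)‖ := by congr 1; ring
          _ ≤ ‖y - T.P m‖ + ‖y - T.R i z‖ := norm_sub_le _ _
          _ < r0 := by rw [h1]; linarith only [hm, hz, hεκ2, hε]

/-- inside the table the extension is the function -/
lemma ext_of_memS (f : ℂ → ℂ × Ω → ℝ) {y : ℂ} (hy : y ∈ T.table) (ω : ℂ × Ω) :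
    T.extS ς f y ω = f y ω := ext_of_posS hy ω

/-- in the mirror image, away from the other two sides -/
lemma ext_of_RS (f : ℂ → ℂ × Ω → ℝ) {y : ℂ} {i : Fin 3} (hy : T.R i y ∈ T.table)
    (h : ∀ j, j ≠ i → 0 < T.lam j y) (ω : ℂ × Ω) :
    T.extS ς f y ω = f (T.R i y) (T.refl i ω.1, ς i ω.2) := by
  have h1 := (T.mem_table_iff _).mp hy
  have h0 : T.lam i y < 0 := by
    have := h1 i
    rw [T.lam_R] at this
    linarith
  exact LocAt.ext_of_negS (i := i) ⟨h, fun _ j _ => h1 j⟩ h0 ω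

/-- Local structure: near a point of the closed table one only sees a vertex or at most one side. -/
lemma exists_locS : ∃ κ r1 : ℝ, 0 < κ ∧ κ ≤ 1 / 4 ∧ 0 < r1 ∧
    (∀ (f : ℂ → ℂ × Ω → ℝ) (r0 : ℝ), r0 < r1 →
      (∀ x ω, x ∈ T.table → (∃ k, ‖x - T.P k‖ < r0) → f x ω = 0) →
      ∀ y ω, (∃ k, ‖y - T.P k‖ < r0) → T.extS ς f y ω = 0) ∧
    (∀ (f : ℂ → ℂ × Ω → ℝ) (r0 ε : ℝ), 0 < r0 → r0 < r1 → 0 < ε → ε ≤ κ * r0 →
      (∀ x ω, x ∈ T.table → (∃ k, ‖x - T.P k‖ < r0) → f x ω = 0) → T.SymS ς ε (T.extS ς f)) ∧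
    ∀ r0 ε : ℝ, 0 < r0 → r0 < r1 → 0 < ε → ε ≤ κ * r0 → ∀ x, (∀ i, 0 ≤ T.lam i x) →
      (∃ k, ∀ y, ‖y - x‖ < 2 * ε → ‖y - T.P k‖ < r0) ∨
      (∃ i, ∀ y, ‖y - x‖ < 2 * ε → T.LocAt i y) := by
  obtain ⟨κ1, hκ1, hloc⟩ := T.exists_locAt
  obtain ⟨κ2, hκ2, hsym⟩ := T.sym_extS (Ω := Ω) (ς := ς)
  have hL := T.Lp_pos
  refine ⟨min (1 / 4) (min κ1 κ2), 1 / T.Lp, by positivity, min_le_left _ _, by positivity,
    ?_, ?_, ?_⟩
  · intro f r0 hr0 hf y ω ⟨k, hk⟩
    apply T.ext_eq_zero_nearS (r0 := r0) _ (fun m x hx hxm ω => hf x ω hx ⟨m, hxm⟩) hk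
    rw [lt_div_iff₀ hL] at hr0
    linarith
  · intro f r0 ε hr0 hr1 hε hεκ hf
    apply hsym r0 hr0 _ ε hε _ f (fun m x hx hxm ω => hf x ω hx ⟨m, hxm⟩)
    · rw [lt_div_iff₀ hL] at hr1
      linarith only [hr1]
    · refine hεκ.trans ?_
      gcongr
      exact (min_le_right _ _).trans (min_le_right _ _)
  · intro r0 ε hr0 hr1 hε hεκ x hx
    have h1 : ε ≤ κ1 * r0 := by
      refine hεκ.trans ?_
      gcongr
      exact (min_le_right _ _).trans (min_le_left _ _)
    have h2 : ε ≤ 1 / 4 * r0 := by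
      refine hεκ.trans ?_
      gcongr
      exact min_le_left _ _
    by_cases hm : ∀ m, r0 / 2 ≤ ‖x - T.P m‖
    · exact Or.inr (hloc r0 hr0 ε hε h1 x hx hm)
    · push Not at hm
      obtain ⟨k, hk⟩ := hm
      refine Or.inl ⟨k, fun y hy => ?_⟩
      calc ‖y - T.P k‖ = ‖(y - x) + (x - T.P k)‖ := by congr 1; ring
        _ ≤ ‖y - x‖ + ‖x - T.P k‖ := norm_add_le _ _
        _ < r0 := by linarith only [hy, hk, h2]

lemma measurable_extS {f : ℂ → ℂ × Ω → ℝ}
    (hf : Measurable (fun p : ℂ × (ℂ × Ω) => f p.1 p.2)) :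
    Measurable (fun p : ℂ × (ℂ × Ω) => T.extS ς f p.1 p.2) := by
  have hmt : MeasurableSet T.table := T.isOpen_table.measurableSet
  have h1 : Measurable (fun p : ℂ × (ℂ × Ω) => T.table.indicator (fun y => f y p.2) p.1) := by
    have : (fun p : ℂ × (ℂ × Ω) => T.table.indicator (fun y => f y p.2) p.1) =
        (Prod.fst ⁻¹' T.table).indicator (fun p : ℂ × (ℂ × Ω) => f p.1 p.2) := by
      funext p
      simp only [indicator, mem_preimage]
      rfl
    rw [this]
    exact hf.indicator (measurable_fst hmt)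
  have h2 : ∀ i, Measurable (fun p : ℂ × (ℂ × Ω) =>
      (T.R i ⁻¹' T.table).indicator (fun y => f (T.R i y) (T.refl i p.2.1, ς i p.2.2)) p.1) := by
    intro i
    have hR : Measurable (T.R i) := (T.continuous_R i).measurable
    have hr : Measurable (T.refl i) := (T.continuous_refl i).measurable
    have : (fun p : ℂ × (ℂ × Ω) =>
      (T.R i ⁻¹' T.table).indicator (fun y => f (T.R i y) (T.refl i p.2.1, ς i p.2.2)) p.1) =
        (Prod.fst ⁻¹' (T.R i ⁻¹' T.table)).indicator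
          (fun p : ℂ × (ℂ × Ω) => f (T.R i p.1) (T.refl i p.2.1, ς i p.2.2)) := by
      funext p
      simp only [indicator, mem_preimage]
      rfl
    rw [this]
    apply Measurable.indicator
    · have h3 : Measurable (fun p : ℂ × (ℂ × Ω) =>
          ((T.R i p.1, (T.refl i p.2.1, ς i p.2.2)) : ℂ × (ℂ × Ω))) := by
        refine (hR.comp measurable_fst).prodMk ?_
        exact (hr.comp (measurable_fst.comp measurable_snd)).prodMk
          ((TwInv.meas i).comp (measurable_snd.comp measurable_snd))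
      exact hf.comp h3
    · exact measurable_fst (hR hmt)
  unfold extS
  exact h1.add (Finset.measurable_sum _ fun i _ => h2 i)

/-- (d) -/
lemma bddSupp_extS {f : ℂ → ℂ × Ω → ℝ} (hf : Bdd f) : BddSupp (T.extS ς f) := by
  obtain ⟨hm, C, hC⟩ := hf
  obtain ⟨r, hr, hr1, hr2⟩ := T.exists_table_bound'
  refine ⟨⟨T.measurable_extS hm, 4 * |C|, fun y ω => ?_⟩, r, fun y ω hy => ?_⟩
  · unfold extS
    have h1 : |T.table.indicator (fun y => f y ω) y| ≤ |C| := by
      unfold indicator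
      split_ifs
      · exact (hC y ω).trans (le_abs_self C)
      · simp
    have h2 : ∀ i, |(T.R i ⁻¹' T.table).indicator (fun y => f (T.R i y) (T.refl i ω.1, ς i ω.2)) y| ≤ |C| := by
      intro i
      unfold indicator
      split_ifs
      · exact (hC _ _).trans (le_abs_self C)
      · simp
    calc _ ≤ |T.table.indicator (fun y => f y ω) y| +
        |∑ i, (T.R i ⁻¹' T.table).indicator (fun y => f (T.R i y) (T.refl i ω.1, ς i ω.2)) y| :=
          abs_add_le _ _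
      _ ≤ |C| + ∑ i, |(T.R i ⁻¹' T.table).indicator (fun y => f (T.R i y) (T.refl i ω.1, ς i ω.2)) y| := by
          gcongr
          exact Finset.abs_sum_le_sum_abs _ _
      _ ≤ |C| + ∑ _i : Fin 3, |C| := by
          have := Finset.sum_le_sum (s := Finset.univ) (fun i _ => h2 i)
          linarith only [this]
      _ = 4 * |C| := by simp; ring
  · unfold extS
    rw [indicator_of_notMem, Finset.sum_eq_zero, add_zero]
    · intro i _
      apply indicator_of_notMem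
      intro h
      have := hr2 i y h
      linarith
    · intro h
      have := hr1 y h
      linarith

end Triangle
end Vale.Agent.P099
end
end
section
section
open MeasureTheory Set Filter Topology
set_option linter.unusedSectionVars false
namespace Vale.Agent.P099
variable {Ω : Type} [MeasurableSpace Ω] {ς : Fin 3 → Ω → Ω} [TwInv ς]
namespace Triangle
variable (T : Triangle)
/-- `f` in the reflected coordinates -/
lemma bdd_reflS {f : ℂ → ℂ × Ω → ℝ} (hf : Bdd f) (i : Fin 3) :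
    Bdd (fun y ω => f (T.R i y) (T.refl i ω.1, ς i ω.2)) := by
  obtain ⟨h1, C, hC⟩ := hf
  refine ⟨?_, C, fun y ω => hC _ _⟩
  exact h1.comp (((T.continuous_R i).measurable.comp measurable_fst).prodMk
    (((T.continuous_refl i).measurable.comp (measurable_fst.comp measurable_snd)).prodMk
      ((TwInv.meas i).comp (measurable_snd.comp measurable_snd))))

lemma ext_eqS (f : ℂ → ℂ × Ω → ℝ) (y : ℂ) (ω : ℂ × Ω) :
    T.extS ς f y ω = T.table.indicator (fun y => f y ω) y +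
      (T.R 0 ⁻¹' T.table).indicator (fun y => f (T.R 0 y) (T.refl 0 ω.1, ς 0 ω.2)) y +
      (T.R 1 ⁻¹' T.table).indicator (fun y => f (T.R 1 y) (T.refl 1 ω.1, ς 1 ω.2)) y +
      (T.R 2 ⁻¹' T.table).indicator (fun y => f (T.R 2 y) (T.refl 2 ω.1, ς 2 ω.2)) y := by
  unfold extS
  rw [Fin.sum_univ_three]
  ring

lemma _root_.Vale.Agent.P099.Bdd.extS (T : Triangle) {f : ℂ → ℂ × Ω → ℝ} (hf : Bdd f) :
    BddSupp (T.extS ς f) := by
  have h0 := hf.bddSupp_indicator T.measurableSet_table T.isBounded_table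
  have hi : ∀ i, BddSupp (fun y (ω : ℂ × Ω) => (T.R i ⁻¹' T.table).indicator
      (fun y => f (T.R i y) (T.refl i ω.1, ς i ω.2)) y) := fun i =>
    (T.bdd_reflS hf i).bddSupp_indicator (T.measurableSet_R_table i) (T.isBounded_R_table i)
  have := ((h0.add (hi 0)).add (hi 1)).add (hi 2)
  have he : T.extS ς f = fun y ω => T.table.indicator (fun y => f y ω) y +
      (T.R 0 ⁻¹' T.table).indicator (fun y => f (T.R 0 y) (T.refl 0 ω.1, ς 0 ω.2)) y +
      (T.R 1 ⁻¹' T.table).indicator (fun y => f (T.R 1 y) (T.refl 1 ω.1, ς 1 ω.2)) y +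
      (T.R 2 ⁻¹' T.table).indicator (fun y => f (T.R 2 y) (T.refl 2 ω.1, ς 2 ω.2)) y := by
    funext y ω
    exact T.ext_eqS f y ω
  rw [he]
  exact this

lemma ext_of_mem_tableS (f : ℂ → ℂ × Ω → ℝ) {y : ℂ} (hy : y ∈ T.table) (ω : ℂ × Ω) :
    T.extS ς f y ω = f y ω := by
  have hi : ∀ i, y ∉ T.R i ⁻¹' T.table := fun i => T.disjoint_table_R i hy
  rw [T.ext_eqS, indicator_of_mem hy, indicator_of_notMem (hi 0), indicator_of_notMem (hi 1),
    indicator_of_notMem (hi 2)]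
  ring

lemma ext_subS (f g : ℂ → ℂ × Ω → ℝ) :
    T.extS ς (fun x ω => f x ω - g x ω) = fun x ω => T.extS ς f x ω - T.extS ς g x ω := by
  funext y ω
  rw [T.ext_eqS, T.ext_eqS, T.ext_eqS]
  have h : ∀ (S : Set ℂ) (a b : ℂ → ℝ), S.indicator (fun y => a y - b y) y =
      S.indicator a y - S.indicator b y := by
    intro S a b
    by_cases hy : y ∈ S
    · simp only [indicator_of_mem hy]
    · simp only [indicator_of_notMem hy, sub_zero]
  rw [h, h, h, h]
  ring

lemma ext_addS (f g : ℂ → ℂ × Ω → ℝ) :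
    T.extS ς (fun x ω => f x ω + g x ω) = fun x ω => T.extS ς f x ω + T.extS ς g x ω := by
  funext y ω
  rw [T.ext_eqS, T.ext_eqS, T.ext_eqS]
  have h : ∀ (S : Set ℂ) (a b : ℂ → ℝ), S.indicator (fun y => a y + b y) y =
      S.indicator a y + S.indicator b y := by
    intro S a b
    by_cases hy : y ∈ S
    · simp only [indicator_of_mem hy]
    · simp only [indicator_of_notMem hy, add_zero]
  rw [h, h, h, h]
  ring

end Triangle
end Vale.Agent.P099
end
end
section
section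
open MeasureTheory Set Filter Topology
namespace Vale.Agent.P099
variable {Ω : Type} [MeasurableSpace Ω] {ς : Fin 3 → Ω → Ω} [TwInv ς]
namespace Triangle
variable (T : Triangle)
/-- invariance of `H` under (billiard flow) x (`Ψ`), for motions with one collision -/
def BounceInvS (m : Measure Ω) (ς : Fin 3 → Ω → Ω) (Ψ : ℝ → Ω → Ω) (H : ℂ → ℂ × Ω → ℝ) : Prop :=
  ∀ t : ℝ, 0 < t → ∀ i, ∀ᵐ p ∂((volume.restrict T.table).prod (nu.prod m)),
    T.E i (p.1, p.2.1) → T.hitT i (p.1, p.2.1) < t → T.R i (p.1 + t • p.2.1) ∈ T.table →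
      H (T.R i (p.1 + t • p.2.1)) (T.refl i p.2.1, ς i (Ψ t p.2.2)) = H p.1 p.2

end Triangle
end Vale.Agent.P099
end
end
section
section
open MeasureTheory Set Filter Topology
namespace Vale.Agent.P099
variable {Ω : Type} [MeasurableSpace Ω] {ς : Fin 3 → Ω → Ω} [TwInv ς]
namespace Triangle
variable (T : Triangle)
lemma bounceInv_shiftS {m : Measure Ω} [TwMP m ς] [IsProbabilityMeasure m] {Ψ : ℝ → Ω → Ω}
    [TwCom Ψ ς] (hΨ : PFlow m Ψ)
    {H : ℂ → ℂ × Ω → ℝ} (hB : T.BounceInvS m ς Ψ H) {t : ℝ} (ht : 0 < t) (i : Fin 3) (r : ℝ) :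
    ∀ᵐ p ∂((volume.restrict T.table).prod (nu.prod m)),
      T.E i (p.1, p.2.1) → T.hitT i (p.1, p.2.1) < t → T.R i (p.1 + t • p.2.1) ∈ T.table →
        H (T.R i (p.1 + t • p.2.1)) (T.refl i p.2.1, Ψ r (ς i p.2.2)) =
          H p.1 (p.2.1, Ψ (r - t) p.2.2) := by
  have h1 := ae_param (hΨ.mp (r - t)) (hB t ht i)
  have h2 : ∀ᵐ q ∂m, Ψ r q = Ψ t (Ψ (r - t) q) := by
    have := hΨ.add t (r - t)
    simpa using this
  filter_upwards [h1, ae_of_param (T := T) h2] with p hp hq hE hlt hmem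
  rw [TwCom.com (Ψ := Ψ) (ς := ς), hq]
  exact hp hE hlt hmem

omit [TwInv ς] in
/-- the common computation for free flights and collisions -/
lemma der_commonS {m : Measure Ω} {Ψ : ℝ → Ω → Ω} (hΨ : PFlow m Ψ)
    {H : ℂ → ℂ × Ω → ℝ} (hH : Bdd H) {τ t : ℝ} (ht : 0 < t)
    {x u y v : ℂ} {q q' : Ω}
    {Z : ℝ → ℂ × (ℂ × Ω)}
    (h1 : ∀ᵐ s : ℝ, H y (v, Ψ s q') = H x (u, Ψ (s - t) q))
    (h2 : ∀ᵐ s : ℝ, s ∈ Ioo 0 t → H (Z s).1 (Z s).2 = H x (u, Ψ (- s) q))
    (h3 : ∀ᵐ s : ℝ, s ∈ Ioo 0 t → H (Z s).1 ((Z s).2.1, Ψ τ (Z s).2.2) = H x (u, Ψ (τ - s) q)) :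
    Uav Ψ τ H y (v, q') - Uav Ψ τ H x (u, q) =
      ∫ s in (0:ℝ)..t, Vav Ψ τ H (Z s).1 (Z s).2 := by
  obtain ⟨C, hC⟩ := hH.2
  set h : ℝ → ℝ := fun s => H x (u, Ψ s q) with hh
  have hm : Measurable h := by
    have h0 : Measurable (fun s : ℝ => (((x, (u, q)), s) : (ℂ × (ℂ × Ω)) × ℝ)) := by fun_prop
    exact (bdd_meas_comp hΨ hH).comp h0
  have hb : ∀ s, |h s| ≤ C := fun s => hC _ _
  have hi : ∀ a b : ℝ, IntervalIntegrable h volume a b := locInt_of_bdd hm hb
  have e1 : Uav Ψ τ H y (v, q') = τ⁻¹ * ∫ s in (0:ℝ)..τ, h (s - t) := by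
    simp only [Uav]
    congr 1
    apply intervalIntegral.integral_congr_ae
    filter_upwards [h1] with s hs _
    exact hs
  have e2 : Uav Ψ τ H x (u, q) = τ⁻¹ * ∫ s in (0:ℝ)..τ, h s := rfl
  have e3 : ∫ s in (0:ℝ)..t, Vav Ψ τ H (Z s).1 (Z s).2 =
      τ⁻¹ * ∫ s in (0:ℝ)..t, (h (- s) - h (τ - s)) := by
    rw [← intervalIntegral.integral_const_mul]
    apply intervalIntegral.integral_congr_ae
    have h4 : ∀ᵐ s : ℝ, s ≠ t := by
      rw [ae_iff]
      simp
    filter_upwards [h2, h3, h4] with s hs2 hs3 hs4 hs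
    rw [uIoc_of_le ht.le] at hs
    have hs' : s ∈ Ioo 0 t := ⟨hs.1, lt_of_le_of_ne hs.2 hs4⟩
    simp only [Vav, hh]
    rw [hs2 hs', hs3 hs']
  rw [e1, e2, e3, ← real_identity hi τ t]
  ring

open Classical in
lemma bounceDer_avS {m : Measure Ω} [TwMP m ς] [IsProbabilityMeasure m] {Ψ : ℝ → Ω → Ω}
    [TwCom Ψ ς] (hΨ : PFlow m Ψ)
    {H : ℂ → ℂ × Ω → ℝ} (hH : Bdd H) (hF : T.FreeInv m Ψ H) (hB : T.BounceInvS m ς Ψ H)
    {τ : ℝ} (hτ : 0 < τ) :
    T.BounceDerS m ς (Uav Ψ τ H) (Vav Ψ τ H) := by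
  intro t ht i
  have mE : MeasurableSet {z : (ℂ × (ℂ × Ω)) × ℝ | T.E i (z.1.1, z.1.2.1)} := by
    exact (T.wm_measurableSet_E i).preimage (by fun_prop)
  have mh : Measurable (fun z : (ℂ × (ℂ × Ω)) × ℝ => T.hitT i (z.1.1, z.1.2.1)) :=
    (T.wm_measurable_hitT i).comp (by fun_prop)
  have mR : ∀ g : (ℂ × (ℂ × Ω)) × ℝ → ℂ, Measurable g → Measurable (fun z => T.R i (g z)) :=
    fun g hg => (T.continuous_R i).measurable.comp hg
  have mr : Measurable (fun z : (ℂ × (ℂ × Ω)) × ℝ => T.refl i z.1.2.1) :=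
    (T.continuous_refl i).measurable.comp (by fun_prop)
  -- first relation
  have a1 : ∀ᵐ p ∂((volume.restrict T.table).prod (nu.prod m)), ∀ᵐ s : ℝ,
      (T.E i (p.1, p.2.1) ∧ T.hitT i (p.1, p.2.1) < t ∧ T.R i (p.1 + t • p.2.1) ∈ T.table) →
        H (T.R i (p.1 + t • p.2.1)) (T.refl i p.2.1, Ψ s (ς i p.2.2)) =
          H p.1 (p.2.1, Ψ (s - t) p.2.2) := by
    refine ae_ae_time T (B := {z | T.E i (z.1.1, z.1.2.1) ∧ T.hitT i (z.1.1, z.1.2.1) < t ∧
        T.R i (z.1.1 + t • z.1.2.1) ∈ T.table})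
      (f := fun z => H (T.R i (z.1.1 + t • z.1.2.1)) (T.refl i z.1.2.1, Ψ z.2 (ς i z.1.2.2)))
      (g := fun z => H z.1.1 (z.1.2.1, Ψ (z.2 - t) z.1.2.2)) ?_ ?_ ?_ ?_
    · refine mE.inter ((measurableSet_lt mh measurable_const).inter ?_)
      exact T.isOpen_table.measurableSet.preimage (mR _ (by (clear * -; fun_prop)))
    · have h0 : Measurable (fun z : (ℂ × (ℂ × Ω)) × ℝ =>
        (((T.R i (z.1.1 + t • z.1.2.1), (T.refl i z.1.2.1, ς i z.1.2.2)), z.2) :
          (ℂ × (ℂ × Ω)) × ℝ)) := by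
        refine Measurable.prodMk (Measurable.prodMk (mR _ (by fun_prop))
          (Measurable.prodMk mr ((TwInv.meas i).comp (by fun_prop)))) (by fun_prop)
      exact (bdd_meas_comp hΨ hH).comp h0
    · have h0 : Measurable (fun z : (ℂ × (ℂ × Ω)) × ℝ =>
        (((z.1.1, (z.1.2.1, z.1.2.2)), z.2 - t) : (ℂ × (ℂ × Ω)) × ℝ)) := by fun_prop
      exact (bdd_meas_comp hΨ hH).comp h0
    · intro s
      filter_upwards [T.bounceInv_shiftS hΨ hB ht i s] with p hp hmem
      exact hp hmem.1 hmem.2.1 hmem.2.2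
  have a2 : ∀ c : ℝ, ∀ᵐ p ∂((volume.restrict T.table).prod (nu.prod m)), ∀ᵐ s : ℝ,
      (0 < s ∧ p.1 + s • p.2.1 ∈ T.table) →
        H (p.1 + s • p.2.1) (p.2.1, Ψ c p.2.2) = H p.1 (p.2.1, Ψ (c - s) p.2.2) := by
    intro c
    refine ae_ae_time T (B := {z | 0 < z.2 ∧ z.1.1 + z.2 • z.1.2.1 ∈ T.table})
      (f := fun z => H (z.1.1 + z.2 • z.1.2.1) (z.1.2.1, Ψ c z.1.2.2))
      (g := fun z => H z.1.1 (z.1.2.1, Ψ (c - z.2) z.1.2.2)) ?_ ?_ ?_ ?_
    · refine (measurableSet_lt measurable_const measurable_snd).inter ?_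
      exact T.isOpen_table.measurableSet.preimage (by fun_prop)
    · have h0 : Measurable (fun z : (ℂ × (ℂ × Ω)) × ℝ =>
        (((z.1.1 + z.2 • z.1.2.1, (z.1.2.1, z.1.2.2)), c) : (ℂ × (ℂ × Ω)) × ℝ)) := by fun_prop
      exact (bdd_meas_comp hΨ hH).comp h0
    · have h0 : Measurable (fun z : (ℂ × (ℂ × Ω)) × ℝ =>
        (((z.1.1, (z.1.2.1, z.1.2.2)), c - z.2) : (ℂ × (ℂ × Ω)) × ℝ)) := by fun_prop
      exact (bdd_meas_comp hΨ hH).comp h0
    · intro s
      by_cases hs : 0 < s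
      · filter_upwards [T.freeInv_shift hΨ hF hs c] with p hp hmem
        exact hp hmem.2
      · refine Filter.Eventually.of_forall (fun p hmem => ?_)
        exact absurd hmem.1 hs
  have a3 : ∀ c : ℝ, ∀ᵐ p ∂((volume.restrict T.table).prod (nu.prod m)), ∀ᵐ s : ℝ,
      (0 < s ∧ T.E i (p.1, p.2.1) ∧ T.hitT i (p.1, p.2.1) < s ∧
        T.R i (p.1 + s • p.2.1) ∈ T.table) →
        H (T.R i (p.1 + s • p.2.1)) (T.refl i p.2.1, Ψ c (ς i p.2.2)) =
          H p.1 (p.2.1, Ψ (c - s) p.2.2) := by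
    intro c
    refine ae_ae_time T (B := {z | 0 < z.2 ∧ T.E i (z.1.1, z.1.2.1) ∧
        T.hitT i (z.1.1, z.1.2.1) < z.2 ∧ T.R i (z.1.1 + z.2 • z.1.2.1) ∈ T.table})
      (f := fun z => H (T.R i (z.1.1 + z.2 • z.1.2.1)) (T.refl i z.1.2.1, Ψ c (ς i z.1.2.2)))
      (g := fun z => H z.1.1 (z.1.2.1, Ψ (c - z.2) z.1.2.2)) ?_ ?_ ?_ ?_
    · refine (measurableSet_lt measurable_const measurable_snd).inter (mE.inter
        ((measurableSet_lt mh measurable_snd).inter ?_))
      exact T.isOpen_table.measurableSet.preimage (mR _ (by fun_prop))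
    · have h0 : Measurable (fun z : (ℂ × (ℂ × Ω)) × ℝ =>
        (((T.R i (z.1.1 + z.2 • z.1.2.1), (T.refl i z.1.2.1, ς i z.1.2.2)), c) :
          (ℂ × (ℂ × Ω)) × ℝ)) := by
        refine Measurable.prodMk (Measurable.prodMk (mR _ (by fun_prop))
          (Measurable.prodMk mr ((TwInv.meas i).comp (by fun_prop)))) (by fun_prop)
      exact (bdd_meas_comp hΨ hH).comp h0
    · have h0 : Measurable (fun z : (ℂ × (ℂ × Ω)) × ℝ =>
        (((z.1.1, (z.1.2.1, z.1.2.2)), c - z.2) : (ℂ × (ℂ × Ω)) × ℝ)) := by fun_prop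
      exact (bdd_meas_comp hΨ hH).comp h0
    · intro s
      by_cases hs : 0 < s
      · filter_upwards [T.bounceInv_shiftS hΨ hB hs i c] with p hp hmem
        exact hp hmem.2.1 hmem.2.2.1 hmem.2.2.2
      · refine Filter.Eventually.of_forall (fun p hmem => ?_)
        exact absurd hmem.1 hs
  have hin : ∀ᵐ p ∂((volume.restrict T.table).prod (nu.prod m)), p.1 ∈ T.table :=
    Measure.quasiMeasurePreserving_fst.ae (ae_restrict_mem T.isOpen_table.measurableSet)
  filter_upwards [a1, a2 0, a2 τ, a3 0, a3 τ, ae_of_param (T := T) hΨ.zero, hin,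
      ae_of_param (T := T) ((TwMP.mp (ς := ς) i).quasiMeasurePreserving.ae hΨ.zero)] with
    p h1 h2 h3 h2' h3' h4 h5 h4' hE hlt hmem
  set a := T.hitT i (p.1, p.2.1) with ha
  have ha0 : 0 < a := Triangle.E.hitT_pos T (T.adm_of_mem_table h5) hE
  have hseg : ∀ s : ℝ, 0 < s → s < a → p.1 + s • p.2.1 ∈ T.table := fun s hs hsa =>
    Triangle.E.mem_table T (T.adm_of_mem_table h5) hE hs hsa
  have hseg' : ∀ s : ℝ, a < s → s ≤ t → T.R i (p.1 + s • p.2.1) ∈ T.table := fun s hs hst =>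
    T.bounce_seg hE hs hst hmem
  set Z : ℝ → ℂ × (ℂ × Ω) := fun s => if s < a then (p.1 + s • p.2.1, (p.2.1, p.2.2)) else
    (T.R i (p.1 + s • p.2.1), (T.refl i p.2.1, ς i p.2.2)) with hZ
  have hna : ∀ᵐ s : ℝ, s ≠ a := by
    rw [ae_iff]
    simp
  have key := der_commonS (τ := τ) hΨ hH ht (Z := Z) (x := p.1) (u := p.2.1) (q := p.2.2)
    (q' := ς i p.2.2)
    (y := T.R i (p.1 + t • p.2.1)) (v := T.refl i p.2.1) ?_ ?_ ?_
  · have hbV := bdd_Vav hΨ hH hτ
    have mZ : Measurable (fun s => Vav Ψ τ H (Z s).1 (Z s).2) := by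
      have hZm : Measurable Z := by
        refine Measurable.ite (measurableSet_lt measurable_id measurable_const) ?_ ?_
        · fun_prop
        · exact Measurable.prodMk ((T.continuous_R i).measurable.comp (by fun_prop))
            measurable_const
      exact hbV.1.comp hZm
    obtain ⟨C, hC⟩ := hbV.2
    have hi : ∀ a b : ℝ, IntervalIntegrable (fun s => Vav Ψ τ H (Z s).1 (Z s).2)
        volume a b := locInt_of_bdd mZ (C := C) (fun s => hC _ _)
    rw [key, ← intervalIntegral.integral_add_adjacent_intervals (hi 0 a) (hi a t)]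
    congr 1
    · apply intervalIntegral.integral_congr_ae
      filter_upwards [hna] with s hs1 hs
      rw [uIoc_of_le ha0.le] at hs
      have : s < a := lt_of_le_of_ne hs.2 hs1
      simp only [hZ, this, if_true]
    · apply intervalIntegral.integral_congr_ae
      refine Filter.Eventually.of_forall (fun s hs => ?_)
      rw [uIoc_of_le hlt.le] at hs
      have : ¬ s < a := not_lt.mpr hs.1.le
      simp only [hZ, this, if_false]
  · filter_upwards [h1] with s hs
    exact hs ⟨hE, hlt, hmem⟩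
  · filter_upwards [h2, h2', hna] with s hs hs2 hsa hs'
    by_cases hlt' : s < a
    · simp only [hZ, hlt', if_true]
      have := hs ⟨hs'.1, hseg s hs'.1 hlt'⟩
      rw [h4, zero_sub] at this
      exact this
    · simp only [hZ, hlt', if_false]
      have hgt : a < s := lt_of_le_of_ne (not_lt.mp hlt') (Ne.symm hsa)
      have := hs2 ⟨hs'.1, hE, hgt, hseg' s hgt hs'.2.le⟩
      rw [h4', zero_sub] at this
      exact this
  · filter_upwards [h3, h3', hna] with s hs hs2 hsa hs'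
    by_cases hlt' : s < a
    · simp only [hZ, hlt', if_true]
      exact hs ⟨hs'.1, hseg s hs'.1 hlt'⟩
    · simp only [hZ, hlt', if_false]
      have hgt : a < s := lt_of_le_of_ne (not_lt.mp hlt') (Ne.symm hsa)
      exact hs2 ⟨hs'.1, hE, hgt, hseg' s hgt hs'.2.le⟩

end Triangle
end Vale.Agent.P099
end
end
section
section
open MeasureTheory Set Filter Topology
namespace Vale.Agent.P099
variable {Ω : Type} [MeasurableSpace Ω] {ς : Fin 3 → Ω → Ω} [TwInv ς]
namespace Triangle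
variable (T : Triangle)
/-- the oscillation of the extended regular part at scale `ε` -/
lemma osc_estS {Φ : ℂ → ℂ × Ω → ℝ} {CU L r : ℝ} (hΦ : ∀ x ω, |Φ x ω| ≤ CU)
    (hL : ∀ x y ω, |Φ x ω - Φ y ω| ≤ L * ‖x - y‖) (hL0 : 0 ≤ L)
    (hr : ∀ x ω, (∃ i, T.lam i x < r) → Φ x ω = 0)
    {N : ℕ} {δ η ε : ℝ} (hδ : 0 < δ) (hη : 0 < η) (hη1 : η ≤ 1) (hε : 0 < ε)
    (hε' : 4 * ε ≤ η * sj δ N) (hεr : T.Lp * ε < r) {x y : ℂ} (hx : x ∈ T.table)
    (hxy : ‖y - x‖ ≤ ε) {ω : ℂ × Ω} (hu : ‖ω.1‖ = 1) :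
    |T.extS ς (fun x ω => T.chi' N δ η (x, ω.1) * Φ x ω) y ω -
      T.extS ς (fun x ω => T.chi' N δ η (x, ω.1) * Φ x ω) x ω| ≤
      L * ε + CU * (2 * ε / η * T.wt N δ η (x, ω.1)) := by
  have hCU : 0 ≤ CU := (abs_nonneg _).trans (hΦ x ω)
  have hw := T.wt_nonneg N hδ η (x, ω.1)
  have hlam : ∀ i, |T.lam i y - T.lam i x| ≤ T.Lp * ε := fun i =>
    (T.abs_lam_sub_le i x y).trans (mul_le_mul_of_nonneg_left hxy T.Lp_pos.le)
  rw [T.ext_of_memS _ hx]
  by_cases hy : y ∈ T.table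
  · rw [T.ext_of_memS _ hy]
    have h1 := T.chi'_lip N hδ hη hη1 hu hx hy hxy hε'
    have h2 : T.chi' N δ η (y, ω.1) * Φ y ω - T.chi' N δ η (x, ω.1) * Φ x ω =
        T.chi' N δ η (y, ω.1) * (Φ y ω - Φ x ω) +
        (T.chi' N δ η (y, ω.1) - T.chi' N δ η (x, ω.1)) * Φ x ω := by ring
    rw [h2]
    apply (abs_add_le _ _).trans
    apply add_le_add
    · rw [abs_mul, abs_of_nonneg (T.chi'_nonneg _ _ _ _)]
      calc _ ≤ 1 * (L * ‖y - x‖) := mul_le_mul (T.chi'_le_one _ _ _ _) (hL _ _ _) (abs_nonneg _)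
            zero_le_one
        _ ≤ L * ε := by rw [one_mul]; exact mul_le_mul_of_nonneg_left hxy hL0
    · rw [abs_mul, mul_comm]
      exact mul_le_mul (hΦ _ _) h1 (abs_nonneg _) hCU
  · have h1 : Φ x ω = 0 := by
      apply hr
      rw [mem_table_iff] at hy
      push Not at hy
      obtain ⟨i, hi⟩ := hy
      refine ⟨i, ?_⟩
      have := abs_le.1 (hlam i)
      linarith only [hεr, hi, this]
    have h2 : T.extS ς (fun x ω => T.chi' N δ η (x, ω.1) * Φ x ω) y ω = 0 := by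
      unfold extS
      rw [indicator_of_notMem hy, zero_add]
      apply Finset.sum_eq_zero
      intro i _
      by_cases hi : y ∈ T.R i ⁻¹' T.table
      · rw [indicator_of_mem hi]
        have h3 : Φ (T.R i y) (T.refl i ω.1, ς i ω.2) = 0 := by
          apply hr
          refine ⟨i, ?_⟩
          rw [lam_R]
          have := abs_le.1 (hlam i)
          have h4 := (T.mem_table_iff x).1 hx i
          linarith only [hεr, this, h4]
        simp only [h3, mul_zero]
      · exact indicator_of_notMem hi _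
    rw [h1, h2]
    simp only [mul_zero, sub_zero, abs_zero]
    (clear * - hL0 hε hCU hη hw; positivity)

/-- pointwise gradient estimate for the regular part -/
lemma grd_reg_estS {K : ℝ} (hK : ∀ ε : ℝ, 0 < ε → ∫ z, ‖kap ε z‖ ≤ K / ε)
    {Φ : ℂ → ℂ × Ω → ℝ} (hΦb : Bdd Φ) {CU L r : ℝ} (hΦ : ∀ x ω, |Φ x ω| ≤ CU)
    (hL : ∀ x y ω, |Φ x ω - Φ y ω| ≤ L * ‖x - y‖) (hL0 : 0 ≤ L)
    (hr : ∀ x ω, (∃ i, T.lam i x < r) → Φ x ω = 0)
    {N : ℕ} {δ η ε : ℝ} (hδ : 0 < δ) (hη : 0 < η) (hη1 : η ≤ 1) (hε : 0 < ε)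
    (hε' : 4 * ε ≤ η * sj δ N) (hεr : T.Lp * ε < r) {x : ℂ} (hx : x ∈ T.table)
    {ω : ℂ × Ω} (hu : ‖ω.1‖ = 1) :
    ‖grd ε (T.extS ς (fun x ω => T.chi' N δ η (x, ω.1) * Φ x ω)) x ω‖ ≤
      K * L + 2 * K * CU / η * T.wt N δ η (x, ω.1) := by
  set f := T.extS ς (fun x ω => T.chi' N δ η (x, ω.1) * Φ x ω) with hf
  have hCU : 0 ≤ CU := (abs_nonneg _).trans (hΦ x ω)
  have hw := T.wt_nonneg N hδ η (x, ω.1)
  have hfb : BddSupp f := by
    apply T.bddSupp_extS
    apply Bdd.mul _ hΦb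
    refine ⟨(T.measurable_chi' N δ η).comp (f := fun p : ℂ × (ℂ × Ω) => (p.1, p.2.1))
        (by fun_prop), 1, ?_⟩
    intro y ω
    rw [abs_of_nonneg (T.chi'_nonneg _ _ _ _)]
    exact T.chi'_le_one _ _ _ _
  have hk : Integrable fun y => kap ε (x - y) := (integrable_kap hε).comp_sub_left x
  obtain ⟨C, hC⟩ := hfb.1.2
  have h1 : Integrable fun y => kap ε (x - y) * (f y ω : ℂ) :=
    hk.mul_bdd (c := C) (Complex.measurable_ofReal.comp (hfb.1.section ω)).aestronglyMeasurable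
      (Eventually.of_forall fun y => by
        simp only [Complex.norm_real, Real.norm_eq_abs]; exact hC y ω)
  have h0 : ∫ y, kap ε (x - y) = 0 := by
    rw [integral_sub_left_eq_self (fun z => kap ε z) volume x, integral_kap hε]
  have h2 : grd ε f x ω = ∫ y, kap ε (x - y) * ((f y ω - f x ω : ℝ) : ℂ) := by
    have : ∀ y, kap ε (x - y) * ((f y ω - f x ω : ℝ) : ℂ) =
        kap ε (x - y) * (f y ω : ℂ) - kap ε (x - y) * (f x ω : ℂ) := by
      intro y; push_cast; ring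
    simp only [this]
    rw [integral_sub h1 (hk.mul_const _), integral_mul_const, h0, zero_mul, sub_zero]
    rfl
  set B := L * ε + CU * (2 * ε / η * T.wt N δ η (x, ω.1)) with hB
  have hB0 : 0 ≤ B := by (clear * - hL0 hε hCU hη hw; (clear * - hL0 hε hCU hη hw; positivity))
  rw [h2]
  calc ‖∫ y, kap ε (x - y) * ((f y ω - f x ω : ℝ) : ℂ)‖
      ≤ ∫ y, ‖kap ε (x - y)‖ * B := by
        apply norm_integral_le_of_norm_le (hk.norm.mul_const B)
        refine Eventually.of_forall fun y => ?_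
        rw [norm_mul, Complex.norm_real, Real.norm_eq_abs]
        by_cases hy : ‖x - y‖ < ε
        · apply mul_le_mul_of_nonneg_left _ (norm_nonneg _)
          rw [norm_sub_rev] at hy
          exact T.osc_estS hΦ hL hL0 hr hδ hη hη1 hε hε' hεr hx hy.le hu
        · rw [kap_eq_zero hε (not_lt.1 hy)]
          simp
    _ = (∫ z, ‖kap ε z‖) * B := by
        rw [integral_mul_const, integral_sub_left_eq_self (fun z => ‖kap ε z‖) volume x]
    _ ≤ (K / ε) * B := mul_le_mul_of_nonneg_right (hK ε hε) hB0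
    _ = K * L + 2 * K * CU / η * T.wt N δ η (x, ω.1) := by
        rw [hB]; (clear * - hη hε; field_simp)

end Triangle
end Vale.Agent.P099
end
end
section
section
open MeasureTheory Set Filter Topology
set_option linter.unusedSectionVars false
namespace Vale.Agent.P099
variable {Ω : Type} [MeasurableSpace Ω] {ς : Fin 3 → Ω → Ω} [TwInv ς]
namespace Triangle
variable (T : Triangle) (m : Measure Ω) [TwMP m ς]
lemma measurePreserving_reflProdS [IsProbabilityMeasure m] (i : Fin 3) :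
    MeasurePreserving (fun ω : ℂ × Ω => (T.refl i ω.1, ς i ω.2)) (nu.prod m) (nu.prod m) :=
  (T.measurePreserving_refl i).prod (TwMP.mp i)

/-- the extension by reflections is bounded in `L²` -/
lemma int_ext_sq_leS [IsProbabilityMeasure m] {f : ℂ → ℂ × Ω → ℝ} (hf : Bdd f) :
    ∫ ω, (∫ y, T.extS ς f y ω ^ 2) ∂(nu.prod m) ≤ 16 * T.nrm m (fun x ω => (f x ω : ℂ)) := by
  have hfr : ∀ i, Bdd (fun y (ω : ℂ × Ω) => f y (T.refl i ω.1, ς i ω.2)) := by
    intro i
    obtain ⟨h1, C, hC⟩ := hf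
    refine ⟨?_, C, fun y ω => hC _ _⟩
    exact h1.comp (measurable_fst.prodMk
      (((T.continuous_refl i).measurable.comp (measurable_fst.comp measurable_snd)).prodMk
        ((TwInv.meas i).comp (measurable_snd.comp measurable_snd))))
  -- the four pieces
  have e0 : ∀ ω, ∫ y, T.table.indicator (fun y => f y ω) y ^ 2 = ∫ y in T.table, f y ω ^ 2 := by
    intro ω
    rw [← integral_indicator T.measurableSet_table]
    refine integral_congr_ae (Eventually.of_forall fun y => ?_)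
    by_cases hy : y ∈ T.table
    · simp only [indicator_of_mem hy]
    · simp only [indicator_of_notMem hy]
      simp
  have ei : ∀ (i : Fin 3) (ω : ℂ × Ω), ∫ y, (T.R i ⁻¹' T.table).indicator
      (fun y => f (T.R i y) (T.refl i ω.1, ς i ω.2)) y ^ 2 =
      ∫ y in T.table, f y (T.refl i ω.1, ς i ω.2) ^ 2 := by
    intro i ω
    rw [← e0 (T.refl i ω.1, ς i ω.2)]
    rw [← integral_comp_mp (T.measurePreserving_R i) (g := fun y =>
      T.table.indicator (fun y => f y (T.refl i ω.1, ς i ω.2)) y ^ 2)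
      (((hf.section _).indicator T.measurableSet_table).pow_const 2)]
    rfl
  have si : ∀ i : Fin 3, ∫ ω : ℂ × Ω, (∫ y in T.table, f y (T.refl i ω.1, ς i ω.2) ^ 2) ∂(nu.prod m) =
      T.nrm m (fun x ω => (f x ω : ℂ)) := by
    intro i
    rw [T.nrm_eq_swap m hf]
    exact integral_comp_mp (T.measurePreserving_reflProdS m i) (g := fun ω : ℂ × Ω =>
      ∫ x in T.table, f x ω ^ 2) (T.measurable_tabInt m hf)
  have s0 : ∫ ω, (∫ y in T.table, f y ω ^ 2) ∂(nu.prod m) =
      T.nrm m (fun x ω => (f x ω : ℂ)) := (T.nrm_eq_swap m hf).symm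
  -- integrability of the pieces
  have b0 := hf.bddSupp_indicator T.measurableSet_table T.isBounded_table
  have bi : ∀ i, BddSupp (fun y (ω : ℂ × Ω) => (T.R i ⁻¹' T.table).indicator
      (fun y => f (T.R i y) (T.refl i ω.1, ς i ω.2)) y) := fun i =>
    (T.bdd_reflS hf i).bddSupp_indicator (T.measurableSet_R_table i) (T.isBounded_R_table i)
  have q0 := fun ω => (b0.sq).integrable ω
  have qi := fun i ω => ((bi i).sq).integrable ω
  have hpt : ∀ ω : ℂ × Ω, ∫ y, T.extS ς f y ω ^ 2 ≤ 4 * ((∫ y in T.table, f y ω ^ 2) +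
      (∫ y in T.table, f y (T.refl 0 ω.1, ς 0 ω.2) ^ 2) +
      (∫ y in T.table, f y (T.refl 1 ω.1, ς 1 ω.2) ^ 2) +
      (∫ y in T.table, f y (T.refl 2 ω.1, ς 2 ω.2) ^ 2)) := by
    intro ω
    rw [← e0 ω, ← ei 0 ω, ← ei 1 ω, ← ei 2 ω]
    rw [← integral_add4 (q0 ω) (qi 0 ω) (qi 1 ω) (qi 2 ω), ← integral_const_mul]
    refine integral_mono ((hf.extS (ς := ς) T).sq.integrable ω)
      ((integrable_add4 (q0 ω) (qi 0 ω) (qi 1 ω) (qi 2 ω)).const_mul 4) fun y => ?_
    simp only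
    rw [T.ext_eqS]
    set a := T.table.indicator (fun y => f y ω) y
    set b := (T.R 0 ⁻¹' T.table).indicator (fun y => f (T.R 0 y) (T.refl 0 ω.1, ς 0 ω.2)) y
    set c := (T.R 1 ⁻¹' T.table).indicator (fun y => f (T.R 1 y) (T.refl 1 ω.1, ς 1 ω.2)) y
    set d := (T.R 2 ⁻¹' T.table).indicator (fun y => f (T.R 2 y) (T.refl 2 ω.1, ς 2 ω.2)) y
    linarith only [sq_nonneg (c - d), sq_nonneg (b - d), sq_nonneg (b - c), sq_nonneg (a - d), sq_nonneg (a - c), sq_nonneg (a - b)]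
  have r0 := T.integrable_tabInt m hf
  have ri := fun i => T.integrable_tabInt m (hfr i)
  calc ∫ ω, (∫ y, T.extS ς f y ω ^ 2) ∂(nu.prod m) ≤
      ∫ ω : ℂ × Ω, 4 * ((∫ y in T.table, f y ω ^ 2) +
      (∫ y in T.table, f y (T.refl 0 ω.1, ς 0 ω.2) ^ 2) +
      (∫ y in T.table, f y (T.refl 1 ω.1, ς 1 ω.2) ^ 2) +
      (∫ y in T.table, f y (T.refl 2 ω.1, ς 2 ω.2) ^ 2)) ∂(nu.prod m) := by
        refine integral_mono_of_nonneg (Eventually.of_forall fun ω =>
          integral_nonneg fun y => sq_nonneg _)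
          ((integrable_add4 r0 (ri 0) (ri 1) (ri 2)).const_mul 4)
          (Eventually.of_forall hpt)
    _ = 16 * T.nrm m (fun x ω => (f x ω : ℂ)) := by
        rw [integral_const_mul, integral_add4 r0 (ri 0) (ri 1) (ri 2), si 0, si 1, si 2, s0]
        ring

end Triangle
end Vale.Agent.P099
end
end
section
section
open MeasureTheory Set Filter Topology
set_option linter.unusedSectionVars false
namespace Vale.Agent.P099
variable {Ω : Type} [MeasurableSpace Ω] {ς : Fin 3 → Ω → Ω} [TwInv ς]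
namespace Triangle
variable (T : Triangle) (m : Measure Ω) [TwMP m ς]
/-- mollifications of the extension converge in `L²` over the table -/
lemma tendsto_nrm_mol_extS [IsProbabilityMeasure m] {f : ℂ → ℂ × Ω → ℝ} (hf : Bdd f) :
    Tendsto (fun ε : ℝ => T.nrm m (fun x ω => ((mol ε (T.extS ς f) x ω - f x ω : ℝ) : ℂ)))
      (𝓝[>] 0) (𝓝 0) := by
  refine (T.tendsto_nrm_mol m (hf.extS (ς := ς) T).1).congr fun ε => ?_
  refine T.nrm_congr m fun x hx ω => ?_
  rw [T.ext_of_mem_tableS f hx]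

end Triangle
end Vale.Agent.P099
end
end
section
section
open MeasureTheory Set Filter Topology
namespace Vale.Agent.P099
variable {Ω : Type} [MeasurableSpace Ω] {ς : Fin 3 → Ω → Ω} [TwInv ς]
namespace Triangle
variable (T : Triangle) (m : Measure Ω) [TwMP m ς]
/-- the regular part -/
lemma nrm_grd_regS [IsProbabilityMeasure m] {K : ℝ}
    (hK : ∀ ε : ℝ, 0 < ε → ∫ z, ‖kap ε z‖ ≤ K / ε)
    {Φ : ℂ → ℂ × Ω → ℝ} (hΦb : Bdd Φ) {CU L r : ℝ} (hΦ : ∀ x ω, |Φ x ω| ≤ CU)
    (hL : ∀ x y ω, |Φ x ω - Φ y ω| ≤ L * ‖x - y‖) (hL0 : 0 ≤ L)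
    (hr : ∀ x ω, (∃ i, T.lam i x < r) → Φ x ω = 0)
    {N : ℕ} {δ η ε B : ℝ} (hδ : 0 < δ) (hη : 0 < η) (hη1 : η ≤ 1) (hε : 0 < ε)
    (hε' : 4 * ε ≤ η * sj δ N) (hεr : T.Lp * ε < r)
    (hB : (∫ p, T.wt N δ η p ^ 2 ∂((volume.restrict T.table).prod nu)) ≤ B) :
    T.nrm m (grd ε (T.extS ς (fun x ω => T.chi' N δ η (x, ω.1) * Φ x ω))) ≤
      2 * (K * L) ^ 2 * volume.real T.table + 8 * K ^ 2 * CU ^ 2 / η ^ 2 * B := by
  have hfb := T.bdd_chi' N δ η hΦb
  have hfe := T.bddSupp_extS (ς := ς) hfb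
  obtain ⟨C, hC⟩ := exists_norm_grd_le hε hfe.1
  have hm := measurable_grd ε hfe.1
  have hw := T.bdd_wt (Ω := Ω) N hδ η
  obtain ⟨D, hD⟩ := hw.2
  have hmono : T.nrm m (grd ε (T.extS ς (fun x ω => T.chi' N δ η (x, ω.1) * Φ x ω))) ≤
      T.nrm m (fun x ω => ((K * L : ℝ) : ℂ) +
        ((2 * K * CU / η : ℝ) : ℂ) * ((T.wt N δ η (x, ω.1) : ℝ) : ℂ)) := by
    refine T.nrm_mono m hm ?_ hC (D := |K * L| + |2 * K * CU / η| * D) ?_ ?_
    · exact measurable_const.add (measurable_const.mul (Complex.measurable_ofReal.comp hw.1))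
    · intro x ω
      refine (norm_add_le _ _).trans ?_
      rw [norm_mul, Complex.norm_real, Complex.norm_real, Complex.norm_real, Real.norm_eq_abs,
        Real.norm_eq_abs, Real.norm_eq_abs]
      gcongr
      exact hD x ω
    · filter_upwards [T.ae_muT_norm m, T.ae_muT_table m] with p hp1 hp2
      refine (T.grd_reg_estS hK hΦb hΦ hL hL0 hr hδ hη hη1 hε hε' hεr hp2 hp1).trans ?_
      rw [← Complex.ofReal_mul, ← Complex.ofReal_add, Complex.norm_real, Real.norm_eq_abs]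
      exact le_abs_self _
  refine hmono.trans ?_
  refine (T.nrm_add_le m (F := fun _ _ => ((K * L : ℝ) : ℂ))
    (G := fun x ω => ((2 * K * CU / η : ℝ) : ℂ) * ((T.wt N δ η (x, ω.1) : ℝ) : ℂ))
    measurable_const (measurable_const.mul (Complex.measurable_ofReal.comp hw.1))
    (C := |K * L|) (D := |2 * K * CU / η| * D) (fun x ω => by
      rw [Complex.norm_real, Real.norm_eq_abs]) (fun x ω => by
      rw [norm_mul, Complex.norm_real, Complex.norm_real, Real.norm_eq_abs, Real.norm_eq_abs]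
      gcongr
      exact hD x ω)).trans ?_
  rw [T.nrm_const_mul m, T.nrm_const m, Complex.norm_real, Real.norm_eq_abs, sq_abs]
  have h1 := T.nrm_wt_le m N hδ η hB
  have h2 : (2 * K * CU / η) ^ 2 * T.nrm m (fun x ω => ((T.wt N δ η (x, ω.1) : ℝ) : ℂ)) ≤
      (2 * K * CU / η) ^ 2 * B := mul_le_mul_of_nonneg_left h1 (sq_nonneg _)
  have h3 : 2 * ((2 * K * CU / η) ^ 2 * B) = 8 * K ^ 2 * CU ^ 2 / η ^ 2 * B := by
    field_simp; ring
  linarith only [h2, h3]

/-- the gradient of the mollified cut-off function, in norm -/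
lemma nrm_grd_estS [IsProbabilityMeasure m] {K : ℝ}
    (hK : ∀ ε : ℝ, 0 < ε → ∫ z, ‖kap ε z‖ ≤ K / ε) {K2 : ℝ}
    (hK2 : ∀ (ε : ℝ), 0 < ε → ∀ f : ℂ → ℂ × Ω → ℝ, BddSupp f →
      T.nrm m (grd ε f) ≤ (K2 / ε) ^ 2 * ∫ ω, (∫ y, f y ω ^ 2) ∂(nu.prod m))
    {U : ℂ → ℂ × Ω → ℝ} (hU : Bdd U)
    {Φ : ℂ → ℂ × Ω → ℝ} (hΦb : Bdd Φ) {CU L r τ : ℝ} (hΦ : ∀ x ω, |Φ x ω| ≤ CU)
    (hL : ∀ x y ω, |Φ x ω - Φ y ω| ≤ L * ‖x - y‖) (hL0 : 0 ≤ L)
    (hr : ∀ x ω, (∃ i, T.lam i x < r) → Φ x ω = 0)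
    (hτ : T.nrm m (fun x ω => ((U x ω - Φ x ω : ℝ) : ℂ)) ≤ τ)
    {N : ℕ} {δ η ε B : ℝ} (hδ : 0 < δ) (hη : 0 < η) (hη1 : η ≤ 1) (hε : 0 < ε)
    (hε' : 4 * ε ≤ η * sj δ N) (hεr : T.Lp * ε < r)
    (hB : (∫ p, T.wt N δ η p ^ 2 ∂((volume.restrict T.table).prod nu)) ≤ B) :
    T.nrm m (grd ε (T.extS ς (fun x ω => T.chi' N δ η (x, ω.1) * U x ω))) ≤
      4 * (K * L) ^ 2 * volume.real T.table + 16 * K ^ 2 * CU ^ 2 / η ^ 2 * B +
        32 * (K2 / ε) ^ 2 * τ := by
  have hR : Bdd (fun x ω => U x ω - Φ x ω) := hU.sub hΦb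
  have f1 := T.bddSupp_extS (ς := ς) (T.bdd_chi' N δ η hU)
  have f2 := T.bddSupp_extS (ς := ς) (T.bdd_chi' N δ η hΦb)
  have f3 := T.bddSupp_extS (ς := ς) (T.bdd_chi' N δ η hR)
  have e1 : T.extS ς (fun x ω => T.chi' N δ η (x, ω.1) * (U x ω - Φ x ω)) =
      fun x ω => T.extS ς (fun x ω => T.chi' N δ η (x, ω.1) * U x ω) x ω -
        T.extS ς (fun x ω => T.chi' N δ η (x, ω.1) * Φ x ω) x ω := by
    have h := T.ext_subS (ς := ς) (fun x (ω : ℂ × Ω) => T.chi' N δ η (x, ω.1) * U x ω)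
      (fun x (ω : ℂ × Ω) => T.chi' N δ η (x, ω.1) * Φ x ω)
    rw [← h]
    congr 1
    funext x ω
    ring
  have e2 : grd ε (T.extS ς (fun x ω => T.chi' N δ η (x, ω.1) * U x ω)) =
      fun x ω => grd ε (T.extS ς (fun x ω => T.chi' N δ η (x, ω.1) * Φ x ω)) x ω +
        grd ε (T.extS ς (fun x ω => T.chi' N δ η (x, ω.1) * (U x ω - Φ x ω))) x ω := by
    funext x ω
    rw [e1, grd_sub hε f1.1 f2.1]
    ring
  rw [e2]
  obtain ⟨C2, hC2⟩ := exists_norm_grd_le hε f2.1
  obtain ⟨C3, hC3⟩ := exists_norm_grd_le hε f3.1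
  refine (T.nrm_add_le m (measurable_grd ε f2.1) (measurable_grd ε f3.1) hC2 hC3).trans ?_
  have b1 := T.nrm_grd_regS (ς := ς) m hK hΦb hΦ hL hL0 hr hδ hη hη1 hε hε' hεr hB
  have b2 : T.nrm m (grd ε (T.extS ς (fun x ω => T.chi' N δ η (x, ω.1) * (U x ω - Φ x ω)))) ≤
      (K2 / ε) ^ 2 * (16 * τ) := by
    refine (hK2 ε hε _ f3).trans ?_
    apply mul_le_mul_of_nonneg_left _ (sq_nonneg _)
    refine (T.int_ext_sq_leS m (T.bdd_chi' N δ η hR)).trans ?_
    apply mul_le_mul_of_nonneg_left _ (by norm_num)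
    refine le_trans ?_ hτ
    obtain ⟨C4, hC4⟩ := hR.2
    obtain ⟨C5, hC5⟩ := (T.bdd_chi' N δ η hR).2
    refine T.nrm_mono m (Complex.measurable_ofReal.comp (T.bdd_chi' N δ η hR).1)
      (Complex.measurable_ofReal.comp hR.1) (C := C5) (D := C4) ?_ ?_ ?_
    · intro x ω; rw [Complex.norm_real, Real.norm_eq_abs]; exact hC5 x ω
    · intro x ω; rw [Complex.norm_real, Real.norm_eq_abs]; exact hC4 x ω
    · refine Eventually.of_forall fun p => ?_
      rw [Complex.norm_real, Complex.norm_real, Real.norm_eq_abs, Real.norm_eq_abs, abs_mul,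
        abs_of_nonneg (T.chi'_nonneg _ _ _ _)]
      calc _ ≤ 1 * |U p.1 p.2 - Φ p.1 p.2| :=
            mul_le_mul_of_nonneg_right (T.chi'_le_one _ _ _ _) (abs_nonneg _)
        _ = _ := one_mul _
  have e3 : 2 * (8 * K ^ 2 * CU ^ 2 / η ^ 2 * B) = 16 * K ^ 2 * CU ^ 2 / η ^ 2 * B := by ring
  linarith

end Triangle
end Vale.Agent.P099
end
end
section
section
open MeasureTheory Set Filter Topology
namespace Vale.Agent.P099
variable {Ω : Type} [MeasurableSpace Ω] {ς : Fin 3 → Ω → Ω} [TwInv ς]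
namespace Triangle
variable (T : Triangle) (m : Measure Ω) [TwMP m ς]
/-- the mollified cut-off function is close to the function -/
lemma nrm_app_estS [IsProbabilityMeasure m] {U : ℂ → ℂ × Ω → ℝ} (hU : Bdd U) {CU : ℝ}
    (hCU : ∀ x ω, |U x ω| ≤ CU) {N : ℕ} {δ η ε B τ : ℝ} (hε : 0 < ε)
    (hB : (((volume.restrict T.table).prod nu) {p | T.chi N δ η p < 1}).toReal ≤ B)
    (hτ : T.nrm m (fun x ω => ((mol ε (T.extS ς U) x ω - U x ω : ℝ) : ℂ)) ≤ τ) :
    T.nrm m (fun x ω =>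
      ((mol ε (T.extS ς (fun x ω => T.chi' N δ η (x, ω.1) * U x ω)) x ω - U x ω : ℝ) : ℂ)) ≤
      32 * CU ^ 2 * B + 2 * τ := by
  have f1 := T.bdd_chi' N δ η hU
  have f2 : Bdd (fun x (ω : ℂ × Ω) => T.chi' N δ η (x, ω.1) * U x ω - U x ω) := f1.sub hU
  have g1 := T.bddSupp_extS (ς := ς) f1
  have g2 := T.bddSupp_extS (ς := ς) f2
  have g3 := T.bddSupp_extS (ς := ς) hU
  have m2 := g2.1.mol hε
  have m3 := (g3.1.mol hε).sub hU
  obtain ⟨C2, hC2⟩ := m2.2
  obtain ⟨C3, hC3⟩ := m3.2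
  have e1 : T.extS ς (fun x ω => T.chi' N δ η (x, ω.1) * U x ω - U x ω) =
      fun x ω => T.extS ς (fun x ω => T.chi' N δ η (x, ω.1) * U x ω) x ω - T.extS ς U x ω :=
    T.ext_subS (ς := ς) (fun x (ω : ℂ × Ω) => T.chi' N δ η (x, ω.1) * U x ω) U
  have e2 : (fun x ω =>
      ((mol ε (T.extS ς (fun x ω => T.chi' N δ η (x, ω.1) * U x ω)) x ω - U x ω : ℝ) : ℂ)) =
      fun x ω =>
        ((mol ε (T.extS ς (fun x ω => T.chi' N δ η (x, ω.1) * U x ω - U x ω)) x ω : ℝ) : ℂ) +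
        ((mol ε (T.extS ς U) x ω - U x ω : ℝ) : ℂ) := by
    funext x ω
    rw [e1, mol_sub hε g1.1 g3.1]
    push_cast
    ring
  rw [e2]
  refine (T.nrm_add_le m (Complex.measurable_ofReal.comp m2.1)
    (Complex.measurable_ofReal.comp m3.1) (C := C2) (D := C3) (fun x ω => by
      rw [Complex.norm_real, Real.norm_eq_abs]; exact hC2 x ω) (fun x ω => by
      rw [Complex.norm_real, Real.norm_eq_abs]; exact hC3 x ω)).trans ?_
  have b1 : T.nrm m (fun x ω =>
      ((mol ε (T.extS ς (fun x ω => T.chi' N δ η (x, ω.1) * U x ω - U x ω)) x ω : ℝ) : ℂ)) ≤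
      16 * (CU ^ 2 * B) := by
    refine (T.nrm_mol_le m hε g2).trans ?_
    refine (T.int_ext_sq_leS m f2).trans ?_
    apply mul_le_mul_of_nonneg_left _ (by norm_num)
    refine (T.nrm_cut_le m (T.measurable_chi' N δ η)
      (fun p => ⟨T.chi'_nonneg _ _ _ _, T.chi'_le_one _ _ _ _⟩) hU hCU
      (S := {p | T.chi' N δ η p < 1})
      (measurableSet_lt (T.measurable_chi' N δ η) measurable_const) ?_).trans ?_
    · intro p hp
      exact le_antisymm (T.chi'_le_one _ _ _ _) (not_lt.1 hp)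
    · apply mul_le_mul_of_nonneg_left _ (sq_nonneg _)
      refine le_trans ?_ hB
      rw [measureReal_def]
      apply ENNReal.toReal_mono (measure_ne_top _ _)
      apply measure_mono_ae
      have h1 : ∀ᵐ q ∂((volume.restrict T.table).prod nu), ‖q.2‖ = 1 :=
        Measure.quasiMeasurePreserving_snd.ae ae_norm
      filter_upwards [h1] with p hp hpS
      have : T.chi' N δ η p < 1 := hpS
      rw [show p = (p.1, p.2) from rfl, T.chi'_eq hp] at this
      exact this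
  linarith only [hτ, b1]

/-- from the pointwise estimate of the derivative along the motion to the norm -/
lemma nrm_Xd_estS [IsProbabilityMeasure m] {U V : ℂ → ℂ × Ω → ℝ} (hU : Bdd U) (hV : Bdd V)
    {CU : ℝ} {N : ℕ} {δ η ε B : ℝ} (hδ : 0 < δ) (hε : 0 < ε)
    (hB : (∫ p, T.wt N δ η p ^ 2 ∂((volume.restrict T.table).prod nu)) ≤ B)
    (h : ∀ᵐ ω ∂(nu.prod m), ∀ x ∈ T.table,
      |Xd ε (T.extS ς (fun x ω => T.chi' N δ η (x, ω.1) * U x ω)) x ω -
        mol ε (T.extS ς (fun x ω => T.chi' N δ η (x, ω.1) * V x ω)) x ω| ≤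
      η * CU * mol ε (T.extS ς (fun x ω => T.wt N δ η (x, ω.1))) x ω) :
    T.nrm m (fun x ω => ((Xd ε (T.extS ς (fun x ω => T.chi' N δ η (x, ω.1) * U x ω)) x ω -
          mol ε (T.extS ς (fun x ω => T.chi' N δ η (x, ω.1) * V x ω)) x ω : ℝ) : ℂ)) ≤
      16 * (η * CU) ^ 2 * B := by
  set f := T.extS ς (fun x (ω : ℂ × Ω) => T.chi' N δ η (x, ω.1) * U x ω) with hf
  set g := T.extS ς (fun x (ω : ℂ × Ω) => T.chi' N δ η (x, ω.1) * V x ω) with hg
  set w := T.extS ς (fun x (ω : ℂ × Ω) => T.wt N δ η (x, ω.1)) with hw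
  have f1 : BddSupp f := T.bddSupp_extS (ς := ς) (T.bdd_chi' N δ η hU)
  have g1 : BddSupp g := T.bddSupp_extS (ς := ς) (T.bdd_chi' N δ η hV)
  have w0 := T.bdd_wt (Ω := Ω) N hδ η
  have w1 : BddSupp w := T.bddSupp_extS (ς := ς) w0
  obtain ⟨C1, hC1⟩ := exists_norm_grd_le hε f1.1
  obtain ⟨C2, hC2⟩ := (g1.1.mol hε).2
  obtain ⟨C3, hC3⟩ := (w1.1.mol hε).2
  have hae : ∀ᵐ ω : ℂ × Ω ∂(nu.prod m), ‖ω.1‖ = 1 :=
    Measure.quasiMeasurePreserving_fst.ae ae_norm
  have hS : MeasurableSet {ω : ℂ × Ω | ‖ω.1‖ = 1} :=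
    measurableSet_eq_fun (measurable_fst.norm) measurable_const
  set F : ℂ → ℂ × Ω → ℂ := fun x ω => ((Xd ε f x ω - mol ε g x ω : ℝ) : ℂ) with hF
  set F' : ℂ → ℂ × Ω → ℂ := fun x ω => {ω : ℂ × Ω | ‖ω.1‖ = 1}.indicator (F x) ω with hF'
  have e1 : T.nrm m F = T.nrm m F' := by
    unfold nrm
    congr 1
    funext x
    apply integral_congr_ae
    filter_upwards [hae] with ω hω
    rw [hF']
    simp only
    rw [indicator_of_mem (by exact hω)]
  have hFm : Measurable fun p : ℂ × (ℂ × Ω) => F p.1 p.2 := by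
    rw [hF]
    apply Complex.measurable_ofReal.comp
    apply Measurable.sub _ (g1.1.mol hε).1
    unfold Xd
    exact (Complex.measurable_re.comp ((measurable_fst.comp measurable_snd).mul
      (measurable_grd ε f1.1))).const_mul 2
  have hFm' : Measurable fun p : ℂ × (ℂ × Ω) => F' p.1 p.2 := by
    have : (fun p : ℂ × (ℂ × Ω) => F' p.1 p.2) =
        (Prod.snd ⁻¹' {ω : ℂ × Ω | ‖ω.1‖ = 1}).indicator (fun p : ℂ × (ℂ × Ω) => F p.1 p.2) := by
      funext p
      simp only [hF', indicator, mem_preimage]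
    rw [this]
    exact hFm.indicator (measurable_snd hS)
  have e2 : T.nrm m F' ≤ T.nrm m (fun x ω => ((η * CU : ℝ) : ℂ) * ((mol ε w x ω : ℝ) : ℂ)) := by
    refine T.nrm_mono m hFm' (measurable_const.mul
      (Complex.measurable_ofReal.comp (w1.1.mol hε).1)) (C := 2 * |C1| + |C2|)
      (D := |η * CU| * |C3|) ?_ ?_ ?_
    · intro x ω
      by_cases hω : ‖ω.1‖ = 1
      · simp only [hF']
        rw [indicator_of_mem (by exact hω)]
        simp only [hF]
        rw [Complex.norm_real, Real.norm_eq_abs]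
        refine (abs_sub _ _).trans ?_
        apply add_le_add
        · unfold Xd
          rw [abs_mul, abs_two]
          apply mul_le_mul_of_nonneg_left _ (by norm_num)
          refine (Complex.abs_re_le_norm _).trans ?_
          rw [norm_mul, hω, one_mul]
          exact (hC1 x ω).trans (le_abs_self _)
        · exact (hC2 x ω).trans (le_abs_self _)
      · simp only [hF']
        rw [indicator_of_notMem (by exact hω), norm_zero]
        (clear * -; positivity)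
    · intro x ω
      rw [norm_mul, Complex.norm_real, Complex.norm_real, Real.norm_eq_abs, Real.norm_eq_abs]
      apply mul_le_mul_of_nonneg_left _ (abs_nonneg _)
      exact (hC3 x ω).trans (le_abs_self _)
    · have h2 : ∀ᵐ p ∂(T.muT m), ∀ x ∈ T.table, |Xd ε f x p.2 - mol ε g x p.2| ≤
          η * CU * mol ε w x p.2 := by
        unfold muT
        exact Measure.quasiMeasurePreserving_snd.ae h
      filter_upwards [h2, T.ae_muT_table m, T.ae_muT_norm m] with p hp hp2 hp3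
      simp only [hF']
      rw [indicator_of_mem (by exact hp3)]
      simp only [hF]
      rw [Complex.norm_real, Real.norm_eq_abs, ← Complex.ofReal_mul, Complex.norm_real,
        Real.norm_eq_abs]
      exact (hp p.1 hp2).trans (le_abs_self _)
  rw [e1]
  refine e2.trans ?_
  rw [T.nrm_const_mul m, Complex.norm_real, Real.norm_eq_abs, sq_abs]
  have e3 : T.nrm m (fun x ω => ((mol ε w x ω : ℝ) : ℂ)) ≤ 16 * B := by
    refine (T.nrm_mol_le m hε w1).trans ?_
    refine (T.int_ext_sq_leS m w0).trans ?_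
    apply mul_le_mul_of_nonneg_left _ (by norm_num)
    exact T.nrm_wt_le m N hδ η hB
  calc (η * CU) ^ 2 * T.nrm m (fun x ω => ((mol ε w x ω : ℝ) : ℂ))
      ≤ (η * CU) ^ 2 * (16 * B) := mul_le_mul_of_nonneg_left e3 (sq_nonneg _)
    _ = 16 * (η * CU) ^ 2 * B := by ring

end Triangle
end Vale.Agent.P099
end
end
section
section
open MeasureTheory Set Filter Topology
namespace Vale.Agent.P099
set_option linter.unusedSectionVars false
variable {Ω : Type} [MeasurableSpace Ω] {ς : Fin 3 → Ω → Ω} [TwInv ς]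
namespace Triangle
variable (T : Triangle) (m : Measure Ω) [TwMP m ς]
variable {T} {m}
lemma LocAt.ext_mulS {f g : ℂ → ℂ × Ω → ℝ} {i : Fin 3} {y : ℂ} (h : T.LocAt i y) (ω : ℂ × Ω) :
    T.extS ς (fun x ω => f x ω * g x ω) y ω = T.extS ς f y ω * T.extS ς g y ω := by
  rcases lt_trichotomy (T.lam i y) 0 with h0 | h0 | h0
  · rw [h.ext_of_negS h0, h.ext_of_negS h0, h.ext_of_negS h0]
  · rw [h.ext_of_zeroS h0, h.ext_of_zeroS h0, zero_mul]
  · rw [ext_of_posS (h.mem_table h0), ext_of_posS (h.mem_table h0), ext_of_posS (h.mem_table h0)]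

variable (T)
/-- one-collision identity at the state `p` -/
def BounceAtS (ς : Fin 3 → Ω → Ω) (U V : ℂ → ℂ × Ω → ℝ) (t : ℝ) (i : Fin 3) (p : ℂ × (ℂ × Ω)) : Prop :=
  T.E i (p.1, p.2.1) → T.hitT i (p.1, p.2.1) < t → T.R i (p.1 + t • p.2.1) ∈ T.table →
      U (T.R i (p.1 + t • p.2.1)) (T.refl i p.2.1, ς i p.2.2) - U p.1 p.2 =
        (∫ s in (0:ℝ)..(T.hitT i (p.1, p.2.1)), V (p.1 + s • p.2.1) p.2) +
        ∫ s in (T.hitT i (p.1, p.2.1))..t, V (T.R i (p.1 + s • p.2.1)) (T.refl i p.2.1, ς i p.2.2)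

variable {T}
/-- the derivative of the extension along straight segments near one side -/
lemma ext_der_ofS {U V : ℂ → ℂ × Ω → ℝ} (hV : Bdd V) {t : ℝ} (ht : 0 < t) {y : ℂ} {ω : ℂ × Ω}
    {i : Fin 3}
    (hF : y ∈ T.table → T.FreeAt U V t (y, ω) ∧ T.BounceAtS ς U V t i (y, ω))
    (hR : T.R i y ∈ T.table → T.FreeAt U V t (T.R i y, (T.refl i ω.1, ς i ω.2)) ∧
      T.BounceAtS ς U V t i (T.R i y, (T.refl i ω.1, ς i ω.2)))
    (h0 : T.lam i y ≠ 0) (h1 : T.lam i (y + t • ω.1) ≠ 0)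
    (hloc : ∀ s ∈ Icc (0:ℝ) t, T.LocAt i (y + s • ω.1)) :
    T.extS ς U (y + t • ω.1) ω - T.extS ς U y ω = ∫ s in (0:ℝ)..t, T.extS ς V (y + s • ω.1) ω := by
  obtain ⟨u, q⟩ := ω
  simp only at *
  have hl0 : T.LocAt i y := by simpa only [zero_smul, add_zero] using hloc 0 ⟨le_rfl, ht.le⟩
  have hlt : T.LocAt i (y + t • u) := hloc t ⟨ht.le, le_rfl⟩
  have hVe : ∀ a b, IntervalIntegrable (fun s : ℝ => T.extS ς V (y + s • u) (u, q)) volume a b :=
    fun a b => Bdd.intervalIntegrable (T.bddSupp_extS (ς := ς) hV).1 y u (u, q) a b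
  rcases lt_or_gt_of_ne h0 with h0 | h0
  · -- starts outside
    have hy' := hl0.R_mem_table h0
    obtain ⟨hF', hB'⟩ := hR hy'
    rw [hl0.ext_of_negS h0]
    rcases lt_or_gt_of_ne h1 with h1 | h1
    · -- stays outside
      rw [hlt.ext_of_negS h1]
      have h2 := hF' (by
        show T.R i y + t • T.refl i u ∈ T.table
        rw [← R_add_smul]
        exact hlt.R_mem_table h1)
      simp only at h2 ⊢
      rw [R_add_smul, h2]
      apply intervalIntegral.integral_congr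
      intro s hs
      rw [uIcc_of_le ht.le] at hs
      simp only
      rw [(hloc s hs).ext_of_negS (lam_neg_of_ends hs h0 h1)]
      simp only
      rw [R_add_smul]
    · -- enters
      rw [ext_of_posS (hlt.mem_table h1)]
      have he : 0 < T.ell i u := by
        rw [T.lam_add_smul] at h1
        by_contra hcon
        push Not at hcon
        have := mul_nonneg ht.le (neg_nonneg.mpr hcon)
        linarith
      set h := T.hitT i (y, u) with hh
      have hpos : 0 < h := by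
        rw [hh]; unfold hitT
        simp only
        apply div_pos (by linarith) he
      have hlth : h < t := by
        rw [lam_add_smul_eq he.ne'] at h1
        by_contra hcon
        push Not at hcon
        have : (t - h) * T.ell i u ≤ 0 :=
          mul_nonpos_of_nonpos_of_nonneg (by linarith) he.le
        linarith
      have hh' : T.hitT i (T.R i y, T.refl i u) = h := by
        rw [hh]
        unfold hitT
        simp only
        rw [T.lam_R, T.ell_refl, neg_div_neg_eq]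
      have hz : T.lam i (y + h • u) = 0 := by
        rw [lam_add_smul_eq he.ne', sub_self, zero_mul]
      have hR2 : ∀ s : ℝ, T.R i (T.R i y + s • T.refl i u) = y + s • u := by
        intro s
        rw [← R_add_smul, T.R_R]
      have hE : T.E i (T.R i y, T.refl i u) := by
        refine ⟨by simp only; rw [T.ell_refl]; linarith, fun j hj => ?_⟩
        rw [hh']
        simp only
        rw [← R_add_smul, T.R_of_lam_eq_zero hz]
        exact (hloc h ⟨hpos.le, hlth.le⟩).1 j hj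
      have h2 := hB' hE (by simpa only [hh'] using hlth) (by
        simp only
        rw [hR2]
        exact hlt.mem_table h1)
      simp only [hR2, T.refl_refl, hh', TwInv.inv] at h2
      rw [h2, ← intervalIntegral.integral_add_adjacent_intervals (hVe 0 h) (hVe h t)]
      congr 1
      · apply intervalIntegral.integral_congr_ae
        have h3 : ∀ᵐ s : ℝ, s ≠ h := by
          rw [ae_iff]; simp
        filter_upwards [h3] with s hs hs2
        rw [uIoc_of_le hpos.le] at hs2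
        have hs3 : s < h := lt_of_le_of_ne hs2.2 hs
        have h4 : T.lam i (y + s • u) < 0 := by
          rw [lam_add_smul_eq he.ne']
          exact mul_neg_of_neg_of_pos (by linarith only [hs3]) he
        rw [(hloc s ⟨hs2.1.le, by linarith⟩).ext_of_negS h4]
        simp only
        rw [R_add_smul]
      · apply intervalIntegral.integral_congr_ae
        refine ae_of_all _ fun s hs => ?_
        rw [uIoc_of_le hlth.le] at hs
        have h4 : 0 < T.lam i (y + s • u) := by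
          rw [lam_add_smul_eq he.ne']
          exact mul_pos (by linarith [hs.1]) he
        rw [ext_of_posS ((hloc s ⟨by linarith only [hpos, hs.1], hs.2⟩).mem_table h4)]
  · -- starts inside
    have hy := hl0.mem_table h0
    obtain ⟨hF', hB'⟩ := hF hy
    rw [ext_of_posS hy]
    rcases lt_or_gt_of_ne h1 with h1 | h1
    · -- leaves
      obtain ⟨he, hpos, hlth, hE⟩ := cross_facts ht hloc h0 h1
      rw [hlt.ext_of_negS h1]
      have h2 := hB' hE hlth (hlt.R_mem_table h1)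
      simp only at h2 ⊢
      set h := T.hitT i (y, u) with hh
      rw [h2, ← intervalIntegral.integral_add_adjacent_intervals (hVe 0 h) (hVe h t)]
      congr 1
      · apply intervalIntegral.integral_congr_ae
        have h3 : ∀ᵐ s : ℝ, s ≠ h := by
          rw [ae_iff]; simp
        filter_upwards [h3] with s hs hs2
        rw [uIoc_of_le hpos.le] at hs2
        have hs3 : s < h := lt_of_le_of_ne hs2.2 hs
        have h4 : 0 < T.lam i (y + s • u) := by
          rw [lam_add_smul_eq he.ne]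
          exact mul_pos_of_neg_of_neg (by linarith only [hs3]) he
        rw [ext_of_posS ((hloc s ⟨hs2.1.le, by linarith⟩).mem_table h4)]
      · apply intervalIntegral.integral_congr_ae
        refine ae_of_all _ fun s hs => ?_
        rw [uIoc_of_le hlth.le] at hs
        have h4 : T.lam i (y + s • u) < 0 := by
          rw [lam_add_smul_eq he.ne]
          exact mul_neg_of_pos_of_neg (by linarith [hs.1]) he
        rw [(hloc s ⟨by linarith [hs.1], hs.2⟩).ext_of_negS h4]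
    · -- stays inside
      rw [ext_of_posS (hlt.mem_table h1)]
      have h2 := hF' (hlt.mem_table h1)
      simp only at h2
      rw [h2]
      apply intervalIntegral.integral_congr
      intro s hs
      rw [uIcc_of_le ht.le] at hs
      simp only
      rw [ext_of_posS ((hloc s hs).mem_table (lam_pos_of_ends hs h0 h1))]

/-- the extended cut-off is Lipschitz along straight segments near one side -/
lemma IsCut.ext_lipS {η σ r0 : ℝ} {χ M : ℂ × ℂ → ℝ} (h : T.IsCut η σ r0 χ M) {t : ℝ}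
    (ht : 0 < t) (hts : η * t ≤ σ) {y : ℂ} {ω : ℂ × Ω} (hω : ‖ω.1‖ = 1) {i : Fin 3}
    (h0 : T.lam i y ≠ 0) (h1 : T.lam i (y + t • ω.1) ≠ 0)
    (hloc : ∀ s ∈ Icc (0:ℝ) t, T.LocAt i (y + s • ω.1)) :
    |T.extS ς (fun x (ω : ℂ × Ω) => χ (x, ω.1)) (y + t • ω.1) ω -
        T.extS ς (fun x (ω : ℂ × Ω) => χ (x, ω.1)) y ω| ≤
      η * t * T.extS ς (fun x (ω : ℂ × Ω) => M (x, ω.1)) y ω := by
  obtain ⟨u, q⟩ := ω
  simp only at *
  have hl0 : T.LocAt i y := by simpa using hloc 0 ⟨le_rfl, ht.le⟩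
  have hlt : T.LocAt i (y + t • u) := hloc t ⟨ht.le, le_rfl⟩
  have hu' : ‖T.refl i u‖ = 1 := by rw [T.norm_refl]; exact hω
  have ha1 : an η u (t • u) = η * t := by rw [an_self hω, abs_of_pos ht]
  have ha2 : an η (T.refl i u) (t • T.refl i u) = η * t := by rw [an_self hu', abs_of_pos ht]
  rcases lt_or_gt_of_ne h0 with h0 | h0
  · have hy' := hl0.R_mem_table h0
    rw [hl0.ext_of_negS h0, hl0.ext_of_negS h0]
    simp only
    rcases lt_or_gt_of_ne h1 with h1 | h1
    · -- stays outside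
      have hz := hlt.R_mem_table h1
      rw [hlt.ext_of_negS h1]
      simp only
      have h2 := h.lip (T.R i y) hy' (T.R i (y + t • u)) hz (T.refl i u) hu'
      rw [R_add_smul, add_sub_cancel_left, ha2] at h2
      rw [R_add_smul]
      exact h2 hts
    · -- enters
      obtain ⟨he, hpos, hlth, hh', hE⟩ := enter_facts ht hloc h0 h1
      have hz := hlt.mem_table h1
      rw [ext_of_posS hz]
      simp only
      have hRz : T.R i (y + t • u) = T.R i y + t • T.refl i u := R_add_smul i y u t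
      have hc : T.Cross i (T.R i y) (T.R i (y + t • u)) := by
        rw [hRz]
        exact cross_of_exit hE ht (by rw [hh']; exact hlth)
      have h2 := h.cross i (T.R i y) hy' (y + t • u) hz (T.refl i u) hu' hc
      rw [hRz, add_sub_cancel_left, ha2, T.refl_refl] at h2
      exact h2 hts
  · have hy := hl0.mem_table h0
    rw [ext_of_posS hy, ext_of_posS hy]
    simp only
    rcases lt_or_gt_of_ne h1 with h1 | h1
    · -- leaves
      obtain ⟨he, hpos, hlth, hE⟩ := cross_facts ht hloc h0 h1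
      have hz := hlt.R_mem_table h1
      rw [hlt.ext_of_negS h1]
      simp only
      have hc : T.Cross i y (T.R i (T.R i (y + t • u))) := by
        rw [T.R_R]
        exact cross_of_exit hE ht hlth
      have h2 := h.cross i y hy (T.R i (y + t • u)) hz u hω hc
      rw [T.R_R, add_sub_cancel_left, ha1] at h2
      exact h2 hts
    · -- stays inside
      have hz := hlt.mem_table h1
      rw [ext_of_posS hz]
      simp only
      have h2 := h.lip y hy (y + t • u) hz u hω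
      rw [add_sub_cancel_left, ha1] at h2
      exact h2 hts

lemma IsCut.nonneg_extMS {η σ r0 : ℝ} {χ M : ℂ × ℂ → ℝ} (h : T.IsCut η σ r0 χ M) (y : ℂ)
    (ω : ℂ × Ω) : 0 ≤ T.extS ς (fun x (ω : ℂ × Ω) => M (x, ω.1)) y ω := by
  unfold extS
  apply add_nonneg
  · exact indicator_nonneg (fun z _ => h.nonnegM _) y
  · exact Finset.sum_nonneg fun i _ => indicator_nonneg (fun z _ => h.nonnegM _) y

/-- pointwise estimate -/
lemma IsCut.ext_incrS {η σ r0 : ℝ} {χ M : ℂ × ℂ → ℝ} (h : T.IsCut η σ r0 χ M) (hη : 0 < η)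
    {U V : ℂ → ℂ × Ω → ℝ} (hV : Bdd V) {CU CV : ℝ}
    (hCU : ∀ y ω, |T.extS ς U y ω| ≤ CU) (hCV : ∀ y ω, |T.extS ς V y ω| ≤ CV) {t : ℝ} (ht : 0 < t)
    (hts : η * t ≤ σ) {y : ℂ} {ω : ℂ × Ω} (hω : ‖ω.1‖ = 1) {i : Fin 3}
    (hF : y ∈ T.table → T.FreeAt U V t (y, ω) ∧ T.BounceAtS ς U V t i (y, ω))
    (hR : T.R i y ∈ T.table → T.FreeAt U V t (T.R i y, (T.refl i ω.1, ς i ω.2)) ∧
      T.BounceAtS ς U V t i (T.R i y, (T.refl i ω.1, ς i ω.2)))
    (h0 : T.lam i y ≠ 0) (h1 : T.lam i (y + t • ω.1) ≠ 0)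
    (hloc : ∀ s ∈ Icc (0:ℝ) t, T.LocAt i (y + s • ω.1)) :
    |T.extS ς (fun x ω => χ (x, ω.1) * U x ω) (y + t • ω.1) ω -
        T.extS ς (fun x ω => χ (x, ω.1) * U x ω) y ω -
        ∫ s in (0:ℝ)..t, T.extS ς (fun x ω => χ (x, ω.1) * V x ω) (y + s • ω.1) ω| ≤
      η * t * (CU + CV * t) * T.extS ς (fun x (ω : ℂ × Ω) => M (x, ω.1)) y ω := by
  set cc : ℝ → ℝ := fun s => T.extS ς (fun x (ω : ℂ × Ω) => χ (x, ω.1)) (y + s • ω.1) ω with hcc
  set w : ℝ → ℝ := fun s => T.extS ς V (y + s • ω.1) ω with hw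
  have hl0 : T.LocAt i y := by simpa using hloc 0 ⟨le_rfl, ht.le⟩
  have hlt : T.LocAt i (y + t • ω.1) := hloc t ⟨ht.le, le_rfl⟩
  have e1 : T.extS ς (fun x ω => χ (x, ω.1) * U x ω) (y + t • ω.1) ω =
      cc t * T.extS ς U (y + t • ω.1) ω := hlt.ext_mulS ω
  have e2 : T.extS ς (fun x ω => χ (x, ω.1) * U x ω) y ω = cc 0 * T.extS ς U y ω := by
    rw [hl0.ext_mulS ω, hcc]
    simp
  have e3 : ∫ s in (0:ℝ)..t, T.extS ς (fun x ω => χ (x, ω.1) * V x ω) (y + s • ω.1) ω =
      ∫ s in (0:ℝ)..t, cc s * w s := by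
    apply intervalIntegral.integral_congr
    intro s hs
    rw [uIcc_of_le ht.le] at hs
    exact (hloc s hs).ext_mulS ω
  have hder := ext_der_ofS hV ht hF hR h0 h1 hloc
  have hbχ : Bdd (fun x (ω : ℂ × Ω) => χ (x, ω.1)) := h.bdd_chi
  have hMnn := h.nonneg_extMS (ς := ς) y ω
  have hA : 0 ≤ η * t * T.extS ς (fun x (ω : ℂ × Ω) => M (x, ω.1)) y ω := by (clear * - hη ht hMnn; positivity)
  have key := prod_increment (c := cc) (w := w) (U0 := T.extS ς U y ω)
    (U1 := T.extS ς U (y + t • ω.1) ω)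
    (A := η * t * T.extS ς (fun x (ω : ℂ × Ω) => M (x, ω.1)) y ω) (CU := CU) (CV := CV) ht hA
    (Bdd.intervalIntegrable (T.bddSupp_extS (ς := ς) hV).1 y ω.1 ω 0 t)
    (by
      have h5 : Bdd (fun x ω => T.extS ς (fun x (ω : ℂ × Ω) => χ (x, ω.1)) x ω * T.extS ς V x ω) :=
        (T.bddSupp_extS (ς := ς) hbχ).1.mul (T.bddSupp_extS (ς := ς) hV).1
      exact Bdd.intervalIntegrable h5 y ω.1 ω 0 t)
    hder ?_ ?_ (fun s => hCV _ _) (hCU _ _)
  · rw [e1, e2, e3]
    refine key.trans (le_of_eq (by ring))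
  · -- a.e. bound
    have h6 : ∀ᵐ s : ℝ, T.lam i (y + s • ω.1) ≠ 0 := by
      by_cases he : T.ell i ω.1 = 0
      · refine ae_of_all _ fun s => ?_
        rw [T.lam_add_smul, he, mul_zero, add_zero]
        exact h0
      · have h7 : ∀ᵐ s : ℝ, s ≠ T.hitT i (y, ω.1) := by
          rw [ae_iff]; simp
        filter_upwards [h7] with s hs
        rw [lam_add_smul_eq he]
        exact mul_ne_zero (sub_ne_zero.mpr hs) he
    filter_upwards [h6] with s hs hs2
    have h8 := h.ext_lipS (ς := ς) hs2.1 (le_trans (by gcongr; exact hs2.2) hts) hω h0 hs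
      (fun s' hs' => hloc s' ⟨hs'.1, hs'.2.trans hs2.2⟩)
    rw [hcc]
    simp only [zero_smul, add_zero]
    refine h8.trans ?_
    gcongr
    exact hs2.2
  · have h8 := h.ext_lipS (ς := ς) ht hts hω h0 h1 hloc
    rw [hcc]
    simp only [zero_smul, add_zero]
    exact h8

variable (T)
variable {T}
/-- for almost every parameter the pointwise estimate holds at almost all positions near the
table -/
lemma IsCut.ae_incrS [SFinite m] {η σ r0 : ℝ} {χ M : ℂ × ℂ → ℝ} (h : T.IsCut η σ r0 χ M)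
    (hη : 0 < η) {U V : ℂ → ℂ × Ω → ℝ} (hV : Bdd V) {CU CV : ℝ}
    (hCU : ∀ y ω, |T.extS ς U y ω| ≤ CU) (hCV : ∀ y ω, |T.extS ς V y ω| ≤ CV)
    (hF : T.FreeDer m U V) (hB : T.BounceDerS m ς U V) {ε t : ℝ} (ht : 0 < t)
    (htε : t ≤ ε) (hts : η * t ≤ σ) (hr : T.Lp * r0 ≤ 1) (hloc : T.LocScale ε r0) :
    ∀ᵐ ω ∂(nu.prod m), ∀ᵐ y ∂(volume : Measure ℂ), (∃ x ∈ T.table, ‖y - x‖ < ε) →
      |T.extS ς (fun x ω => χ (x, ω.1) * U x ω) (y + t • ω.1) ω -
        T.extS ς (fun x ω => χ (x, ω.1) * U x ω) y ω -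
        ∫ s in (0:ℝ)..t, T.extS ς (fun x ω => χ (x, ω.1) * V x ω) (y + s • ω.1) ω| ≤
      η * t * (CU + CV * t) * T.extS ς (fun x (ω : ℂ × Ω) => M (x, ω.1)) y ω := by
  have a1 : ∀ᵐ p ∂((volume : Measure ℂ).prod (nu.prod m)), p.1 ∈ T.table → T.FreeAt U V t p :=
    T.ae_table_to_global m (hF t ht)
  have a2 : ∀ i, ∀ᵐ p ∂((volume : Measure ℂ).prod (nu.prod m)),
      p.1 ∈ T.table → T.BounceAtS ς U V t i p := fun i => T.ae_table_to_global m (hB t ht i)
  have b1 := ae_fiber m a1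
  have b2 := fun i => ae_fiber m (a2 i)
  have b3 := fun i => ae_fiber m (T.ae_reflectS (ς := ς) m i a1)
  have b4 := fun i => ae_fiber m (T.ae_reflectS (ς := ς) m i (a2 i))
  rw [← ae_all_iff] at b2 b3 b4
  have b5 : ∀ᵐ ω ∂(nu.prod m), ‖ω.1‖ = 1 :=
    Measure.quasiMeasurePreserving_fst.ae ae_norm
  filter_upwards [b1, b2, b3, b4, b5] with ω c1 c2 c3 c4 c5
  rw [← ae_all_iff] at c2 c3 c4
  have c6 : ∀ᵐ y ∂(volume : Measure ℂ), ∀ i, T.lam i (y + (0:ℝ) • ω.1) ≠ 0 :=
    ae_all_iff.mpr fun i => T.ae_lam_ne i _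
  have c7 : ∀ᵐ y ∂(volume : Measure ℂ), ∀ i, T.lam i (y + t • ω.1) ≠ 0 :=
    ae_all_iff.mpr fun i => T.ae_lam_ne i _
  filter_upwards [c1, c2, c3, c4, c6, c7] with y d1 d2 d3 d4 d6 d7
  rintro ⟨x, hx, hyx⟩
  have hM := h.nonneg_extMS (ς := ς) y ω
  have hCU0 : 0 ≤ CU := (abs_nonneg _).trans (hCU y ω)
  have hCV0 : 0 ≤ CV := (abs_nonneg _).trans (hCV y ω)
  have hseg : ∀ s ∈ Icc (0:ℝ) t, ‖y + s • ω.1 - x‖ < 2 * ε := by
    intro s hs
    calc ‖y + s • ω.1 - x‖ = ‖(y - x) + s • ω.1‖ := by congr 1; ring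
      _ ≤ ‖y - x‖ + ‖s • ω.1‖ := norm_add_le _ _
      _ = ‖y - x‖ + s := by rw [norm_smul, c5, mul_one, Real.norm_of_nonneg hs.1]
      _ < 2 * ε := by linarith only [htε, hyx, hs.2]
  rcases hloc x (fun i => ((T.mem_table_iff x).mp hx i).le) with ⟨k, hk⟩ | ⟨i, hi⟩
  · have hz : ∀ (W : ℂ → ℂ × Ω → ℝ), ∀ s ∈ Icc (0:ℝ) t,
        T.extS ς (fun x ω => χ (x, ω.1) * W x ω) (y + s • ω.1) ω = 0 := by
      intro W s hs
      apply T.ext_eq_zero_nearS hr _ (hk _ (hseg s hs))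
      intro k' z hz hzk ω'
      rw [h.near k' z hz hzk, zero_mul]
    have e0 := hz U 0 ⟨le_rfl, ht.le⟩
    rw [zero_smul, add_zero] at e0
    rw [hz U t ⟨ht.le, le_rfl⟩, e0]
    have e1 : ∫ s in (0:ℝ)..t, T.extS ς (fun x ω => χ (x, ω.1) * V x ω) (y + s • ω.1) ω = 0 := by
      rw [intervalIntegral.integral_congr (g := fun _ => (0:ℝ))]
      · simp
      · intro s hs
        rw [uIcc_of_le ht.le] at hs
        exact hz V s hs
    rw [e1]
    simp only [sub_self, abs_zero]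
    (clear * - hη ht hCU0 hCV0 hM; positivity)
  · apply h.ext_incrS hη hV hCU hCV ht hts c5 (i := i)
    · intro hy
      exact ⟨d1 hy, d2 i hy⟩
    · intro hy
      exact ⟨d3 i hy, d4 i hy⟩
    · simpa using d6 i
    · exact d7 i
    · intro s hs
      exact hi _ (hseg s hs)

/-- The estimate for the derivative of the mollification along the direction of motion. -/
theorem IsCut.Xd_estS [SFinite m] {η σ r0 : ℝ} {χ M : ℂ × ℂ → ℝ} (h : T.IsCut η σ r0 χ M)
    (hη : 0 < η) (hσ : 0 < σ) {U V : ℂ → ℂ × Ω → ℝ} (hU : Bdd U) (hV : Bdd V) {CU : ℝ}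
    (hCU : ∀ y ω, |T.extS ς U y ω| ≤ CU) (hF : T.FreeDer m U V) (hB : T.BounceDerS m ς U V) {ε : ℝ}
    (hε : 0 < ε) (hr : T.Lp * r0 ≤ 1) (hloc : T.LocScale ε r0) :
    ∀ᵐ ω ∂(nu.prod m), ∀ x ∈ T.table,
      |Xd ε (T.extS ς (fun x ω => χ (x, ω.1) * U x ω)) x ω -
        mol ε (T.extS ς (fun x ω => χ (x, ω.1) * V x ω)) x ω| ≤
      η * CU * mol ε (T.extS ς (fun x (ω : ℂ × Ω) => M (x, ω.1))) x ω := by
  obtain ⟨CV, hCV⟩ := (T.bddSupp_extS (ς := ς) hV).1.2
  set t0 : ℝ := min ε (σ / η) with ht0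
  have ht0p : 0 < t0 := by (clear * - hε hσ hη; positivity)
  set tn : ℕ → ℝ := fun n => t0 / (n + 1) with htn
  have htnp : ∀ n, 0 < tn n := fun n => by rw [htn]; (clear * - hε hσ hη; positivity)
  have htn0 : ∀ n, tn n ≤ t0 := fun n => by
    rw [htn]
    apply div_le_self ht0p.le
    have : (0:ℝ) ≤ n := Nat.cast_nonneg n
    linarith only []
  have htnlim : Tendsto tn atTop (𝓝 0) := by
    rw [htn]
    have := tendsto_one_div_add_atTop_nhds_zero_nat (𝕜 := ℝ)
    have h2 := this.const_mul t0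
    rw [mul_zero] at h2
    refine h2.congr fun n => ?_
    ring
  have hae : ∀ᵐ ω ∂(nu.prod m), ∀ n : ℕ, ∀ᵐ y ∂(volume : Measure ℂ),
      (∃ x ∈ T.table, ‖y - x‖ < ε) →
      |T.extS ς (fun x ω => χ (x, ω.1) * U x ω) (y + tn n • ω.1) ω -
        T.extS ς (fun x ω => χ (x, ω.1) * U x ω) y ω -
        ∫ s in (0:ℝ)..(tn n), T.extS ς (fun x ω => χ (x, ω.1) * V x ω) (y + s • ω.1) ω| ≤
      η * tn n * (CU + CV * tn n) * T.extS ς (fun x (ω : ℂ × Ω) => M (x, ω.1)) y ω := by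
    rw [ae_all_iff]
    intro n
    apply h.ae_incrS hη hV hCU hCV hF hB (htnp n) ((htn0 n).trans (min_le_left _ _)) _ hr hloc
    have h1 : tn n ≤ σ / η := (htn0 n).trans (min_le_right _ _)
    rw [le_div_iff₀ hη] at h1
    linarith only [h1]
  filter_upwards [hae] with ω hω x hx
  have hχ : Bdd (fun x (ω : ℂ × Ω) => χ (x, ω.1)) := h.bdd_chi
  have hH : Bdd (T.extS ς (fun x ω => χ (x, ω.1) * U x ω)) := (T.bddSupp_extS (ς := ς) (hχ.mul hU)).1
  have hK : Bdd (T.extS ς (fun x ω => χ (x, ω.1) * V x ω)) := (T.bddSupp_extS (ς := ς) (hχ.mul hV)).1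
  have hE : Bdd (T.extS ς (fun x (ω : ℂ × Ω) => M (x, ω.1))) := (T.bddSupp_extS (ς := ς) h.bdd_M).1
  set H := T.extS ς (fun x ω => χ (x, ω.1) * U x ω) with hHdef
  set K := T.extS ς (fun x ω => χ (x, ω.1) * V x ω) with hKdef
  set E := T.extS ς (fun x (ω : ℂ × Ω) => M (x, ω.1)) with hEdef
  -- finite differences
  have step1 : ∀ n, |mol ε H (x + tn n • ω.1) ω - mol ε H x ω -
      ∫ s in (0:ℝ)..(tn n), mol ε K (x + s • ω.1) ω| ≤
        η * tn n * (CU + CV * tn n) * mol ε E x ω := by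
    intro n
    set t := tn n with ht
    have htp : 0 < t := htnp n
    have i1 : Integrable fun y => rho ε (x - y) * H (y + t • ω.1) ω :=
      integrable_rho_mul hε hH x _ ω
    have i2 : Integrable fun y => rho ε (x - y) * H y ω := by
      simpa only [add_zero] using integrable_rho_mul hε hH x 0 ω
    have hIK : Bdd (fun y ω => ∫ s in (0:ℝ)..t, K (y + s • ω.1) ω) := by
      obtain ⟨hKm, CK, hCK⟩ := id hK
      refine ⟨?_, CK * t, fun y ω => ?_⟩
      · have h1 : StronglyMeasurable (Function.uncurry fun (p : ℂ × (ℂ × Ω)) (s : ℝ) =>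
            K (p.1 + s • p.2.1) p.2) := by
          apply Measurable.stronglyMeasurable
          have h2 : Measurable fun q : (ℂ × (ℂ × Ω)) × ℝ =>
              ((q.1.1 + q.2 • q.1.2.1, q.1.2) : ℂ × (ℂ × Ω)) := by
            apply Measurable.prodMk
            · fun_prop
            · fun_prop
          exact (hKm.comp h2 :)
        have h3 := (h1.integral_prod_right (ν := volume.restrict (Ioc 0 t))).measurable
        simp only [intervalIntegral.integral_of_le htp.le]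
        exact h3
      · have := intervalIntegral.norm_integral_le_of_norm_le_const (a := 0) (b := t) (C := CK)
          (f := fun s => K (y + s • ω.1) ω) (fun s _ => by simpa only [Complex.real_smul, Real.norm_eq_abs] using hCK _ _)
        rw [sub_zero, abs_of_pos htp] at this
        exact this
    have i12 : Integrable fun y => rho ε (x - y) * H (y + t • ω.1) ω - rho ε (x - y) * H y ω :=
      i1.sub i2
    have i3 : Integrable fun y => rho ε (x - y) * ∫ s in (0:ℝ)..t, K (y + s • ω.1) ω := by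
      simpa only [Complex.real_smul, add_zero] using integrable_rho_mul hε hIK x 0 ω
    have i4 : Integrable fun y => rho ε (x - y) * E y ω := by
      simpa only [add_zero] using integrable_rho_mul hε hE x 0 ω
    rw [mol_shift, integral_mol_segment hε hK x ω.1 ω htp]
    have e1 : mol ε H x ω = ∫ y, rho ε (x - y) * H y ω := rfl
    have e2 : mol ε E x ω = ∫ y, rho ε (x - y) * E y ω := rfl
    rw [e1, e2, ← integral_sub i1 i2, ← integral_sub i12 i3, ← integral_const_mul]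
    rw [← Real.norm_eq_abs]
    apply norm_integral_le_of_norm_le (i4.const_mul _)
    filter_upwards [hω n] with y hy
    by_cases hyx : ‖y - x‖ < ε
    · have h2 := hy ⟨x, hx, hyx⟩
      have h3 : rho ε (x - y) * H (y + t • ω.1) ω - rho ε (x - y) * H y ω -
          rho ε (x - y) * ∫ s in (0:ℝ)..t, K (y + s • ω.1) ω =
          rho ε (x - y) * (H (y + t • ω.1) ω - H y ω - ∫ s in (0:ℝ)..t, K (y + s • ω.1) ω) := by
        ring
      rw [h3, norm_mul, Real.norm_eq_abs, Real.norm_eq_abs, abs_of_nonneg (rho_nonneg _ _)]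
      calc rho ε (x - y) * |H (y + t • ω.1) ω - H y ω - ∫ s in (0:ℝ)..t, K (y + s • ω.1) ω|
          ≤ rho ε (x - y) * (η * t * (CU + CV * t) * E y ω) := by
            apply mul_le_mul_of_nonneg_left h2 (rho_nonneg _ _)
        _ = η * t * (CU + CV * t) * (rho ε (x - y) * E y ω) := by ring
    · push Not at hyx
      rw [norm_sub_rev] at hyx
      rw [rho_eq_zero hε hyx]
      simp
  -- the limit
  set F : ℝ → ℝ := fun s => mol ε H (x + s • ω.1) ω - mol ε H x ω -
      ∫ r in (0:ℝ)..s, mol ε K (x + r • ω.1) ω with hFdef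
  have hF0 : F 0 = 0 := by
    rw [hFdef]
    simp
  have hcont : Continuous (fun r : ℝ => mol ε K (x + r • ω.1) ω) :=
    (continuous_mol hε hK ω).comp (by fun_prop)
  have hFd : HasDerivAt F (Xd ε H x ω - mol ε K x ω) 0 := by
    have h1 := (hasDerivAt_mol hε hH x ω).sub_const (mol ε H x ω)
    have h2 := (hcont.integral_hasStrictDerivAt 0 0).hasDerivAt
    rw [zero_smul, add_zero] at h2
    exact h1.sub h2
  have hlim : Tendsto (fun n => (tn n)⁻¹ • (F (0 + tn n) - F 0)) atTop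
      (𝓝 (Xd ε H x ω - mol ε K x ω)) := by
    have h1 := hasDerivAt_iff_tendsto_slope_zero.mp hFd
    apply h1.comp
    rw [tendsto_nhdsWithin_iff]
    exact ⟨htnlim, Eventually.of_forall fun n => (htnp n).ne'⟩
  have hlim2 : Tendsto (fun n => η * (CU + CV * tn n) * mol ε E x ω) atTop
      (𝓝 (η * CU * mol ε E x ω)) := by
    have h1 : Tendsto (fun n => η * (CU + CV * tn n) * mol ε E x ω) atTop
        (𝓝 (η * (CU + CV * 0) * mol ε E x ω)) :=
      ((htnlim.const_mul CV).const_add CU |>.const_mul η).mul_const _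
    simpa only [mul_zero, add_zero] using h1
  refine le_of_tendsto_of_tendsto' hlim.abs hlim2 fun n => ?_
  rw [hF0, zero_add, sub_zero, smul_eq_mul, abs_mul, abs_of_pos (inv_pos.mpr (htnp n)),
    inv_mul_le_iff₀ (htnp n)]
  refine (step1 n).trans (le_of_eq (by ring))

end Triangle
end Vale.Agent.P099
end
end
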