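import Vale.Agent.P099.H172.TwB
attribute [-instance] ProperSMul.toContinuousSMul IsTopologicalTorsor.toContinuousSMul IdemSemiring.toCanonicallyOrderedAdd IdemSemiring.toMulLeftMono IdemSemiring.toMulRightMono AddQuantale.instAddLeftMono AddQuantale.instAddRightMono Quantale.instMulLeftMono Quantale.instMulRightMono FiniteDimensional.rclike_to_real IsScalarTower.complexToReal FiniteDimensional.complexToReal
set_option linter.all false

section
section
open MeasureTheory Set Filter Topology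
namespace Vale.Agent.P099
variable {Ω : Type} [MeasurableSpace Ω] {ς : Fin 3 → Ω → Ω} [TwInv ς]
namespace Triangle
variable (T : Triangle) (m : Measure Ω) [TwMP m ς]
/-- The approximation theorem. -/
theorem approxS [IsProbabilityMeasure m] (U V : ℂ → ℂ × Ω → ℝ) (hU : Bdd U) (hV : Bdd V)
    (h1 : T.FreeDer m U V) (h2 : T.BounceDerS m ς U V) (tol : ℝ) (htol : 0 < tol) :
    ∃ ε : ℝ, 0 < ε ∧ ∃ χ : ℂ × ℂ → ℝ, Measurable χ ∧ (∀ p, 0 ≤ χ p ∧ χ p ≤ 1) ∧
      BddSupp (T.extS ς (fun x ω => χ (x, ω.1) * U x ω)) ∧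
      BddSupp (T.extS ς (fun x ω => χ (x, ω.1) * V x ω)) ∧
      T.SymS ς ε (T.extS ς (fun x ω => χ (x, ω.1) * U x ω)) ∧
      T.SymS ς ε (T.extS ς (fun x ω => χ (x, ω.1) * V x ω)) ∧
      T.nrm m (fun x ω =>
        ((mol ε (T.extS ς (fun x ω => χ (x, ω.1) * U x ω)) x ω - U x ω : ℝ) : ℂ)) ≤ tol ∧
      T.nrm m (fun x ω =>
        ((mol ε (T.extS ς (fun x ω => χ (x, ω.1) * V x ω)) x ω - V x ω : ℝ) : ℂ)) ≤ tol ∧
      ∃ a e : ℝ, 0 ≤ a ∧ 0 ≤ e ∧ e ≤ tol ∧ e * a ≤ tol ∧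
        T.nrm m (grd ε (T.extS ς (fun x ω => χ (x, ω.1) * U x ω))) ≤ a ^ 2 ∧
        T.nrm m (fun x ω => ((Xd ε (T.extS ς (fun x ω => χ (x, ω.1) * U x ω)) x ω -
          mol ε (T.extS ς (fun x ω => χ (x, ω.1) * V x ω)) x ω : ℝ) : ℂ)) ≤ e ^ 2 := by
  obtain ⟨CU0, hCU0⟩ := hU.2
  obtain ⟨CV0, hCV0⟩ := hV.2
  obtain ⟨CE0, hCE0⟩ := (T.bddSupp_extS (ς := ς) hU).1.2
  obtain ⟨M, hM0, hMU, hMV, hME⟩ : ∃ M : ℝ, 0 < M ∧ (∀ x ω, |U x ω| ≤ M) ∧
      (∀ x ω, |V x ω| ≤ M) ∧ (∀ x ω, |T.extS ς U x ω| ≤ M) := by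
    refine ⟨|CU0| + |CV0| + |CE0| + 1, by (clear * -; positivity), fun x ω => ?_, fun x ω => ?_,
      fun x ω => ?_⟩
    · have := (hCU0 x ω).trans (le_abs_self CU0)
      linarith [abs_nonneg CV0, abs_nonneg CE0]
    · have := (hCV0 x ω).trans (le_abs_self CV0)
      linarith [abs_nonneg CU0, abs_nonneg CE0]
    · have := (hCE0 x ω).trans (le_abs_self CE0)
      linarith [abs_nonneg CU0, abs_nonneg CV0]
  obtain ⟨κ, r1, hκ, hκ4, hr1, hl1, hsym, hloc⟩ := T.exists_locS (Ω := Ω) (ς := ς)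
  obtain ⟨K1, hK1, hK1'⟩ := exists_kap_bound
  obtain ⟨K2, hK2, hK2'⟩ := T.nrm_grd_le (Ω := Ω)
  obtain ⟨C, hC, hCC⟩ := T.exists_chi_const
  have hA : 0 ≤ volume.real T.table := measureReal_nonneg
  set A := volume.real T.table with hAdef
  -- choice of N
  obtain ⟨N, hN, hN2⟩ : ∃ N : ℕ, 0 < N ∧
      16 * M ^ 2 * (C / N) * (16 * K1 ^ 2 * M ^ 2 * (C / N)) ≤ tol ^ 2 / 3 := by
    obtain ⟨n, hn⟩ := exists_nat_gt (768 * M ^ 4 * K1 ^ 2 * C ^ 2 / tol ^ 2)
    have hn0 : (0:ℝ) < n := lt_of_le_of_lt (by (clear * - hM0 hK1 hC htol; positivity)) hn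
    have hn1 : 0 < n := by exact_mod_cast hn0
    have hn2 : (1:ℝ) ≤ n := by exact_mod_cast hn1
    refine ⟨n, hn1, ?_⟩
    rw [div_lt_iff₀ (by positivity)] at hn
    have e : 16 * M ^ 2 * (C / n) * (16 * K1 ^ 2 * M ^ 2 * (C / n)) =
        256 * M ^ 4 * K1 ^ 2 * C ^ 2 / (n * n) := by
      field_simp; ring
    rw [e, div_le_iff₀ (by (clear * - hn1; positivity))]
    have : (n:ℝ) * tol ^ 2 ≤ n * n * tol ^ 2 := by
      apply mul_le_mul_of_nonneg_right _ (by positivity)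
      nlinarith only [hn2]
    linarith only [this, hn]
  have hN' : (0:ℝ) < N := by exact_mod_cast hN
  -- choice of δ
  obtain ⟨δ, hδ, hδ2⟩ : ∃ δ : ℝ, 0 < δ ∧ 32 * M ^ 2 * (C * δ ^ 2) ≤ tol / 2 := by
    refine ⟨min 1 (tol / (64 * M ^ 2 * C)), by (clear * - htol hM0 hC; positivity), ?_⟩
    set δ := min 1 (tol / (64 * M ^ 2 * C)) with hδ
    have h0 : 0 < δ := by positivity
    have h1 : δ ≤ 1 := min_le_left _ _
    have h2 : δ ≤ tol / (64 * M ^ 2 * C) := min_le_right _ _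
    rw [le_div_iff₀ (by (clear * - hM0 hC; positivity))] at h2
    have h3 : δ ^ 2 ≤ δ := by nlinarith only [h0, h1]
    have h4 : 32 * M ^ 2 * (C * δ ^ 2) ≤ 32 * M ^ 2 * (C * δ) := by (clear * - h3 hC hM0; gcongr)
    linarith only [h4, h2]
  have hσ := sj_pos hδ N
  set σ := sj δ N with hσdef
  -- choice of τ
  set c3 : ℝ := 16 * M ^ 2 * (C / N) * (32 * K2 ^ 2 * (2 / (κ * σ)) ^ 2) with hc3
  have hc3' : 0 ≤ c3 := by (clear * - hM0 hC hN hK2 hκ hσ; positivity)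
  obtain ⟨τ, hτ, hτ2⟩ : ∃ τ : ℝ, 0 < τ ∧ c3 * τ ≤ tol ^ 2 / 3 := by
    refine ⟨tol ^ 2 / 3 / (c3 + 1), by (clear * - htol hM0 hC hN hK2 hκ hσ; positivity), ?_⟩
    rw [mul_div_assoc', div_le_iff₀ (by (clear * - hM0 hC hN hK2 hκ hσ; positivity))]
    nlinarith only []
  obtain ⟨Φ, hΦs, hΦM, ⟨L, hL, hL'⟩, ⟨r, hr, hr'⟩, hΦτ⟩ := T.exists_lip m hU hMU hτ
  -- choice of η
  have hη_ev : ∀ᶠ η in 𝓝[>] (0:ℝ), (0 < η ∧ η ≤ 1 ∧ σ * η / 2 < r1 ∧
      T.Lp * (κ * (σ * η / 2)) < r ∧ T.Lp * (σ * η / 2) < 1 ∧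
      16 * M ^ 2 * (C / N) * (4 * (K1 * L) ^ 2 * A) * η ^ 2 ≤ tol ^ 2 / 3 ∧
      16 * (η * M) ^ 2 * (C / N) ≤ tol ^ 2) ∧
      T.nrm m (fun x ω => ((mol (κ * (σ * η / 2)) (T.extS ς U) x ω - U x ω : ℝ) : ℂ)) ≤ tol / 4 ∧
      T.nrm m (fun x ω => ((mol (κ * (σ * η / 2)) (T.extS ς V) x ω - V x ω : ℝ) : ℂ)) ≤ tol / 4 := by
    have small : ∀ (φ : ℝ → ℝ), Continuous φ → φ 0 = 0 → ∀ b : ℝ, 0 < b →
        ∀ᶠ η in 𝓝[>] (0:ℝ), φ η < b := by
      intro φ hφ h0 b hb
      have : Tendsto φ (𝓝[>] 0) (𝓝 (φ 0)) :=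
        (hφ.continuousAt (x := 0)).tendsto.mono_left nhdsWithin_le_nhds
      rw [h0] at this
      exact this.eventually_lt_const hb
    have hlim : Tendsto (fun η : ℝ => κ * (σ * η / 2)) (𝓝[>] 0) (𝓝[>] 0) := by
      apply tendsto_nhdsWithin_of_tendsto_nhds_of_eventually_within
      · have : Continuous fun η : ℝ => κ * (σ * η / 2) := by fun_prop
        have h0 := this.continuousAt (x := 0).tendsto
        simp only [mul_zero, zero_div] at h0
        exact h0.mono_left nhdsWithin_le_nhds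
      · filter_upwards [self_mem_nhdsWithin] with η hη
        have hη' : 0 < η := hη
        simp only [mem_Ioi]
        (clear * - hκ hσ hη'; positivity)
    have t1 := ((T.tendsto_nrm_mol_extS (ς := ς) m hU).comp hlim).eventually_lt_const
      (show (0:ℝ) < tol / 4 by positivity)
    have t2 := ((T.tendsto_nrm_mol_extS (ς := ς) m hV).comp hlim).eventually_lt_const
      (show (0:ℝ) < tol / 4 by positivity)
    filter_upwards [self_mem_nhdsWithin, small (fun η => η) (by fun_prop) rfl 1 one_pos,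
      small (fun η => σ * η / 2) (by fun_prop) (by simp) r1 hr1,
      small (fun η => T.Lp * (κ * (σ * η / 2))) (by fun_prop) (by simp) r hr,
      small (fun η => T.Lp * (σ * η / 2)) (by fun_prop) (by simp) 1 one_pos,
      small (fun η => 16 * M ^ 2 * (C / N) * (4 * (K1 * L) ^ 2 * A) * η ^ 2) (by fun_prop)
        (by simp) (tol ^ 2 / 3) (by positivity),
      small (fun η => 16 * (η * M) ^ 2 * (C / N)) (by fun_prop) (by simp) (tol ^ 2)
        (by positivity), t1, t2] with η h1 h2 h3 h4 h4' h5 h6 h7 h8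
    exact ⟨⟨h1, h2.le, h3, h4, h4', h5.le, h6.le⟩, h7.le, h8.le⟩
  obtain ⟨η, ⟨hη, hη1, hηr1, hηr, hηL, hη5, hη6⟩, hη7, hη8⟩ := hη_ev.exists
  set ε := κ * (σ * η / 2) with hε
  have hε0 : 0 < ε := by (clear * - hκ hσ hη; positivity)
  have hr0 : 0 < σ * η / 2 := by (clear * - hσ hη; positivity)
  have hε4 : 4 * ε ≤ η * σ := by
    rw [hε]
    have : κ * (σ * η / 2) ≤ 1 / 4 * (σ * η / 2) := by (clear * - hκ4 hσ hη; gcongr)
    have : 0 < σ * η := by (clear * - hσ hη; positivity)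
    nlinarith
  obtain ⟨hB1, hB2⟩ := hCC N hN δ hδ η hη
  have hzero : ∀ W : ℂ → ℂ × Ω → ℝ, ∀ x (ω : ℂ × Ω), x ∈ T.table →
      (∃ k, ‖x - T.P k‖ < σ * η / 2) → T.chi' N δ η (x, ω.1) * W x ω = 0 := by
    intro W x ω _ ⟨k, hk⟩
    rw [T.chi'_eq_zero N hδ hη hη1 k hk, zero_mul]
  have hcut := isCut_chi1 T N hδ hη hη1
  rw [T.chi1_eq_chi'] at hcut
  have hXd := hcut.Xd_estS (m := m) hη (by (clear * - hσ; positivity)) hU hV hME h1 h2 hε0 hηL.le
    (fun x hx => hloc _ ε hr0 hηr1 hε0 le_rfl x hx)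
  refine ⟨ε, hε0, T.chi' N δ η, T.measurable_chi' N δ η,
    fun p => ⟨T.chi'_nonneg _ _ _ _, T.chi'_le_one _ _ _ _⟩,
    T.bddSupp_extS (ς := ς) (T.bdd_chi' N δ η hU), T.bddSupp_extS (ς := ς) (T.bdd_chi' N δ η hV),
    hsym _ _ ε hr0 hηr1 hε0 le_rfl (hzero U), hsym _ _ ε hr0 hηr1 hε0 le_rfl (hzero V),
    ?_, ?_, ?_⟩
  · have := T.nrm_app_estS m hU hMU hε0 hB2 hη7
    linarith only [this, hδ2]
  · have := T.nrm_app_estS m hV hMV hε0 hB2 hη8
    linarith only [hδ2, this]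
  · set A2 := 4 * (K1 * L) ^ 2 * A + 16 * K1 ^ 2 * M ^ 2 / η ^ 2 * (C / N) +
        32 * (K2 / ε) ^ 2 * τ with hA2
    set E2 := 16 * (η * M) ^ 2 * (C / N) with hE2
    have hA20 : 0 ≤ A2 := by (clear * - hK1 hL hM0 hη hC hN hK2 hκ hσ hτ; (clear * - hK1 hL hM0 hη hC hN hK2 hκ hσ hτ; positivity))
    have hE20 : 0 ≤ E2 := by (clear * - hη hM0 hC hN; positivity)
    refine ⟨√A2, √E2, Real.sqrt_nonneg _, Real.sqrt_nonneg _, ?_, ?_, ?_, ?_⟩
    · exact (Real.sqrt_le_sqrt hη6).trans (by rw [Real.sqrt_sq htol.le])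
    · rw [← Real.sqrt_mul hE20]
      refine (Real.sqrt_le_sqrt (y := tol ^ 2) ?_).trans (by rw [Real.sqrt_sq htol.le])
      have e : E2 * A2 = 16 * M ^ 2 * (C / N) * (4 * (K1 * L) ^ 2 * A) * η ^ 2 +
          16 * M ^ 2 * (C / N) * (16 * K1 ^ 2 * M ^ 2 * (C / N)) + c3 * τ := by
        rw [hE2, hA2, hc3, hε]
        (clear * - hN hη hσ hκ hK1 hL hA hM0 hC hK2 hτ; field_simp)
      rw [e]
      linarith only [hN2, hτ2, hη5]
    · rw [Real.sq_sqrt hA20]
      exact T.nrm_grd_estS m hK1' (fun ε hε f hf => hK2' m ε hε f hf) hU hΦs.1 hΦM hL' hL.le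
        (fun x ω ⟨i, hi⟩ => hr' x ω i hi.le) hΦτ hδ hη hη1 hε0 hε4 hηr hB1
    · rw [Real.sq_sqrt hE20]
      exact T.nrm_Xd_estS m hU hV hδ hε0 hB1 hXd

end Triangle
end Vale.Agent.P099
end
end
section
section
open MeasureTheory Set Filter Topology
namespace Vale.Agent.P099
variable {Ω : Type} [MeasurableSpace Ω] {ς : Fin 3 → Ω → Ω} [TwInv ς]
namespace Rig
variable {A : Set ℂ} {m : Measure Ω} [TwMP m ς]
section skew
set_option linter.unusedSectionVars false
variable (T : Triangle)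
lemma ext_eq_sumS (χ : ℂ × ℂ → ℝ) (F : ℂ → ℂ × Ω → ℝ) (y u : ℂ) (q : Ω) :
    T.extS ς (fun x ω => χ (x, ω.1) * F x ω) y (u, q) =
      ∑ j, cc T χ j y u * F (yy T j y) (ww T j u, os ς j q) := by
  classical
  rw [Fintype.sum_option]
  unfold Triangle.extS
  congr 1
  · unfold cc yy ww os
    by_cases h : y ∈ T.table
    · simp [h]
    · simp [h]
  · refine Finset.sum_congr rfl fun i _ => ?_
    unfold cc yy ww os
    by_cases h : T.R i y ∈ T.table
    · have h' : y ∈ T.R i ⁻¹' T.table := h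
      simp [h, h']
    · have h' : y ∉ T.R i ⁻¹' T.table := h
      simp [h, h']

omit [TwMP m ς] in
lemma int_secS [IsProbabilityMeasure m] {F G : ℂ → ℂ × Ω → ℝ} (hF : Bdd F) (hG : Bdd G)
    (a b c d : ℂ) (j l : Option (Fin 3)) :
    Integrable (fun q => F a (b, os ς j q) * G c (d, os ς l q)) m := by
  obtain ⟨C, hC⟩ := hF.2
  obtain ⟨D, hD⟩ := hG.2
  have h1 : Measurable fun q : Ω => F a (b, os ς j q) := (bdd_meas_snd hF a b).comp (os_meas ς j)
  have h2 : Measurable fun q : Ω => G c (d, os ς l q) := (bdd_meas_snd hG c d).comp (os_meas ς l)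
  refine Integrable.of_bound (C := C * D) (h1.mul h2).aestronglyMeasurable ?_
  refine Filter.Eventually.of_forall fun q => ?_
  rw [Real.norm_eq_abs, abs_mul]
  exact mul_le_mul (hC _ _) (hD _ _) (abs_nonneg _) ((abs_nonneg _).trans (hC a (b, q)))

omit [TwMP m ς] in
lemma int_ext_mulS [IsProbabilityMeasure m] (χ : ℂ × ℂ → ℝ) {F G : ℂ → ℂ × Ω → ℝ} (hF : Bdd F)
    (hG : Bdd G) (y y' u u' : ℂ) :
    ∫ q, T.extS ς (fun x ω => χ (x, ω.1) * F x ω) y (u, q) *
        T.extS ς (fun x ω => χ (x, ω.1) * G x ω) y' (u', q) ∂m =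
      ∑ j, ∑ l, cc T χ j y u * cc T χ l y' u' *
        ∫ q, F (yy T j y) (ww T j u, os ς j q) * G (yy T l y') (ww T l u', os ς l q) ∂m := by
  simp only [ext_eq_sumS, Finset.sum_mul_sum]
  rw [integral_finsetSum]
  · refine Finset.sum_congr rfl fun j _ => ?_
    rw [integral_finsetSum]
    · refine Finset.sum_congr rfl fun l _ => ?_
      rw [← integral_const_mul]
      congr 1
      funext q
      ring
    · intro l _
      have := (int_secS (m := m) (ς := ς) hF hG (yy T j y) (ww T j u) (yy T l y')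
        (ww T l u') j l).const_mul (cc T χ j y u * cc T χ l y' u')
      refine this.congr (Eventually.of_forall fun q => ?_)
      show _ = _
      ring
  · intro j _
    refine integrable_finsetSum _ fun l _ => ?_
    have := (int_secS (m := m) (ς := ς) hF hG (yy T j y) (ww T j u) (yy T l y')
      (ww T l u') j l).const_mul (cc T χ j y u * cc T χ l y' u')
    refine this.congr (Eventually.of_forall fun q => ?_)
    show _ = _
    ring

omit [TwMP m ς] in
lemma ext_skewS [IsProbabilityMeasure m] (χ : ℂ × ℂ → ℝ) {U V : ℂ → ℂ × Ω → ℝ} (hU : Bdd U)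
    (hV : Bdd V) (hskew : ∀ y y' u u', ∀ j l : Option (Fin 3),
      ∫ q, V y (u, os ς j q) * U y' (u', os ς l q) ∂m =
      - ∫ q, U y (u, os ς j q) * V y' (u', os ς l q) ∂m) (y y' u u' : ℂ) :
    ∫ q, T.extS ς (fun x ω => χ (x, ω.1) * V x ω) y (u, q) *
        T.extS ς (fun x ω => χ (x, ω.1) * U x ω) y' (u', q) ∂m =
    - ∫ q, T.extS ς (fun x ω => χ (x, ω.1) * U x ω) y (u, q) *
        T.extS ς (fun x ω => χ (x, ω.1) * V x ω) y' (u', q) ∂m := by
  rw [int_ext_mulS T χ hV hU, int_ext_mulS T χ hU hV, ← Finset.sum_neg_distrib]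
  refine Finset.sum_congr rfl fun j _ => ?_
  rw [← Finset.sum_neg_distrib]
  refine Finset.sum_congr rfl fun l _ => ?_
  rw [hskew]
  ring

end skew
end Rig
open Rig
namespace Triangle
variable (T : Triangle) (m : Measure Ω) [TwMP m ς]
/-- The rigidity theorem: `U` does not vary in the direction orthogonal to the motion. -/
theorem rigidS [IsProbabilityMeasure m] (U V : ℂ → ℂ × Ω → ℝ) (hU : Bdd U) (hV : Bdd V)
    (h1 : T.FreeDer m U V) (h2 : T.BounceDerS m ς U V)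
    (hskew : ∀ y y' u u', ∀ j l : Option (Fin 3),
      ∫ q, V y (u, os ς j q) * U y' (u', os ς l q) ∂m =
      - ∫ q, U y (u, os ς j q) * V y' (u', os ς l q) ∂m)
    (φ : ℂ → ℝ) (hφ : ContDiff ℝ (⊤ : ℕ∞) φ) (hφc : HasCompactSupport φ) (hφs : tsupport φ ⊆ T.table) :
    ∀ᵐ ω ∂(nu.prod m), ∫ x in T.table, U x ω * fderiv ℝ φ x (Complex.I * ω.1) = 0 := by
  have hfin : IsFiniteMeasure (volume.restrict T.table) :=
    ⟨by rw [Measure.restrict_apply_univ]; exact T.volume_table_lt_top⟩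
  obtain ⟨K, hK⟩ := (hφc.fderiv (𝕜 := ℝ)).exists_bound_of_continuous
    (hφ.continuous_fderiv (by simp))
  obtain ⟨CU, hCU⟩ := hU.2
  obtain ⟨CV, hCV⟩ := hV.2
  have hcU : BC (fun x ω => (U x ω : ℂ)) := BC.of_real hU.1 hCU
  have hcV : BC (fun x ω => (V x ω : ℂ)) := BC.of_real hV.1 hCV
  obtain ⟨c1, hc1⟩ : ∃ c1, c1 = K ^ 2 * (volume T.table).toReal := ⟨_, rfl⟩
  have hc10 : 0 ≤ c1 := by rw [hc1]; (clear * -; positivity)
  obtain ⟨c2, hc2⟩ : ∃ c2, c2 = ∫ x in T.table, ‖(φ x : ℂ)‖ ^ 2 := ⟨_, rfl⟩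
  have hc20 : 0 ≤ c2 := by rw [hc2]; exact integral_nonneg fun x => by (clear * -; positivity)
  obtain ⟨v, hv⟩ : ∃ v, v = Real.sqrt (2 * N2 T.table (nu.prod m) (fun x ω => (V x ω : ℂ)) + 2) :=
    ⟨_, rfl⟩
  have hv0 : 0 ≤ v := by rw [hv]; exact Real.sqrt_nonneg _
  have hv2 : v ^ 2 = 2 * N2 T.table (nu.prod m) (fun x ω => (V x ω : ℂ)) + 2 := by
    rw [hv]
    exact Real.sq_sqrt (by have := N2_nonneg T.table (nu.prod m) (fun x ω => (V x ω : ℂ)); linarith only [this])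
  have main : ∀ (k : ℤ) (n : ℕ), |k| ≤ n → ∀ tol : ℝ, 0 < tol → tol ≤ 1 →
      ∫ q, ‖mL T.table φ k (fun x ω => (U x ω : ℂ)) q‖ ^ 2 ∂m ≤
        4 * c2 * (N2 T.table m (md (n + 1) (fun x ω => (V x ω : ℂ))) +
          N2 T.table m (md (-n - 1) (fun x ω => (V x ω : ℂ)))) +
        (2 * c1 + 2 * c2 * (4 + 100 * (n + 1) * (2 + v))) * tol := by
    intro k n hkn tol htol htol1
    obtain ⟨ε, hε, χ, hχm, hχ, hf, hh, hfs, hhs, hnU, hnV, a, e, ha, he, het, hea, hA, hE⟩ :=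
      T.approxS m U V hU hV h1 h2 tol htol
    obtain ⟨f, hfdef⟩ : ∃ f, f = T.extS ς (fun x ω => χ (x, ω.1) * U x ω) := ⟨_, rfl⟩
    obtain ⟨h, hhdef⟩ : ∃ h, h = T.extS ς (fun x ω => χ (x, ω.1) * V x ω) := ⟨_, rfl⟩
    have hsk := ext_skewS (m := m) T χ hU hV hskew
    rw [← hfdef, ← hhdef] at hsk
    rw [← hfdef] at hf hfs hnU hA hE
    rw [← hhdef] at hh hhs hnV hE
    have hG : BC (fun x ω => ((mol ε f x ω : ℝ) : ℂ)) := BC_mol hε hf.1
    have hH : BC (fun x ω => ((mol ε h x ω : ℝ) : ℂ)) := BC_mol hε hh.1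
    -- the approximation of `V`
    have eV : (fun x ω => ((mol ε h x ω : ℝ) : ℂ)) =
        fun x ω => (((mol ε h x ω : ℝ) : ℂ) - (V x ω : ℂ)) + (V x ω : ℂ) := by
      funext x ω; ring
    have nV : N2 T.table (nu.prod m) (fun x ω => ((mol ε h x ω : ℝ) : ℂ) - (V x ω : ℂ)) ≤ tol := by
      refine le_trans (le_of_eq ?_) hnV
      unfold N2 nrm
      simp only [Complex.ofReal_sub]
    have nH : T.nrm m (fun x ω => (mol ε h x ω : ℂ)) ≤ v ^ 2 := by
      have h3 := N2_add_le (A := T.table) (κ := nu.prod m) (hH.sub hcV) hcV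
      rw [hv2]
      calc T.nrm m (fun x ω => (mol ε h x ω : ℂ)) =
          N2 T.table (nu.prod m) (fun x ω =>
            (((mol ε h x ω : ℝ) : ℂ) - (V x ω : ℂ)) + (V x ω : ℂ)) := by
            rw [← eV]; rfl
        _ ≤ _ := by linarith only [htol1, nV, h3]
    have hen := T.energyS m (Inv3.mk' m ς) hε f h hf hh hfs hhs hsk a v e ha hv0 he hA nH hE k n hkn
    have mdV : ∀ j : ℤ, T.nrmq m (md j (fun x ω => (mol ε h x ω : ℂ))) ≤
        2 * tol + 2 * N2 T.table m (md j (fun x ω => (V x ω : ℂ))) := by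
      intro j
      have h3 := N2_md_add_le (A := T.table) (m := m) (hH.sub hcV) hcV j
      calc T.nrmq m (md j (fun x ω => (mol ε h x ω : ℂ))) =
          N2 T.table m (md j (fun x ω =>
            (((mol ε h x ω : ℝ) : ℂ) - (V x ω : ℂ)) + (V x ω : ℂ))) := by
            rw [← eV]; rfl
        _ ≤ _ := by linarith only [nV, h3]
    -- the two parts of `U`
    have eU : (fun x ω => (U x ω : ℂ)) =
        fun x ω => ((U x ω : ℂ) - ((mol ε f x ω : ℝ) : ℂ)) + ((mol ε f x ω : ℝ) : ℂ) := by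
      funext x ω; ring
    have nU : N2 T.table (nu.prod m) (fun x ω => (U x ω : ℂ) - ((mol ε f x ω : ℝ) : ℂ)) ≤ tol := by
      refine le_trans (le_of_eq ?_) hnU
      unfold N2 nrm
      simp only [Complex.ofReal_sub]
      congr 1
      funext x
      congr 1
      funext ω
      rw [norm_sub_rev]
    have s1 := S_add_le (A := T.table) (m := m) hφ hK (hcU.sub hG) hG k
    have s2 := S_le (A := T.table) (m := m) hφ hK (hcU.sub hG) k
    have s3 := S_mol_le (A := T.table) (m := m) hε hf.1 hφ hφc hφs k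
    rw [← hc1] at s2
    rw [← hc2] at s3
    have s4 : N2 T.table m (Ek ε f k) ≤
        T.nrmq m (md (n + 1) (fun x ω => (mol ε h x ω : ℂ))) +
        T.nrmq m (md (-n - 1) (fun x ω => (mol ε h x ω : ℂ))) +
        100 * (n + 1) * (e * a + e * v + e ^ 2) := hen
    have m1 := mdV (n + 1)
    have m2 := mdV (-n - 1)
    have s5 : e * a + e * v + e ^ 2 ≤ tol * (2 + v) := by nlinarith only [hea, hv0, het, htol1, he]
    have s6 : N2 T.table m (Ek ε f k) ≤
        2 * N2 T.table m (md (n + 1) (fun x ω => (V x ω : ℂ))) +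
        2 * N2 T.table m (md (-n - 1) (fun x ω => (V x ω : ℂ))) +
        (4 + 100 * (n + 1) * (2 + v)) * tol := by
      have h7 : 100 * ((n : ℝ) + 1) * (e * a + e * v + e ^ 2) ≤
          100 * ((n : ℝ) + 1) * (tol * (2 + v)) := by
        (clear * - s5; gcongr)
      linarith only [s4, m1, m2, h7]
    rw [← eU] at s1
    have s7 : N2 T.table (nu.prod m) (fun x ω => (U x ω : ℂ) - ((mol ε f x ω : ℝ) : ℂ)) * c1 ≤
        tol * c1 := mul_le_mul_of_nonneg_right nU hc10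
    have s8 : c2 * N2 T.table m (Ek ε f k) ≤ c2 * (2 * N2 T.table m (md (n + 1) (fun x ω => (V x ω : ℂ))) +
        2 * N2 T.table m (md (-n - 1) (fun x ω => (V x ω : ℂ))) +
        (4 + 100 * (n + 1) * (2 + v)) * tol) := mul_le_mul_of_nonneg_left s6 hc20
    linarith only [s1, s2, s3, s7, s8]
  -- the limit `tol → 0`
  have main2 : ∀ (k : ℤ) (n : ℕ), |k| ≤ n →
      ∫ q, ‖mL T.table φ k (fun x ω => (U x ω : ℂ)) q‖ ^ 2 ∂m ≤
        4 * c2 * (N2 T.table m (md (n + 1) (fun x ω => (V x ω : ℂ))) +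
          N2 T.table m (md (-n - 1) (fun x ω => (V x ω : ℂ)))) := fun k n hkn =>
    le_of_affine (by (clear * - hc10 hc20 hv0; positivity)) (main k n hkn)
  have hS : ∀ k : ℤ, ∫ q, ‖mL T.table φ k (fun x ω => (U x ω : ℂ)) q‖ ^ 2 ∂m = 0 := by
    intro k
    refine le_antisymm ?_ (integral_nonneg fun q => by (clear * -; positivity))
    have t0 := tendsto_N2_md (A := T.table) (m := m) hcV
    have t1 : Tendsto (fun n : ℕ => N2 T.table m (md ((n : ℤ) + 1) (fun x ω => (V x ω : ℂ))))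
        atTop (𝓝 0) := by
      rw [← Nat.cofinite_eq_atTop]
      exact t0.comp (Function.Injective.tendsto_cofinite (f := fun n : ℕ => (n : ℤ) + 1)
        (fun a b hab => by simpa using hab))
    have t2 : Tendsto (fun n : ℕ => N2 T.table m (md (-(n : ℤ) - 1) (fun x ω => (V x ω : ℂ))))
        atTop (𝓝 0) := by
      rw [← Nat.cofinite_eq_atTop]
      exact t0.comp (Function.Injective.tendsto_cofinite (f := fun n : ℕ => -(n : ℤ) - 1)
        (fun a b hab => by simpa using hab))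
    have t3 := (t1.add t2).const_mul (4 * c2)
    rw [add_zero, mul_zero] at t3
    refine ge_of_tendsto t3 ?_
    filter_upwards [eventually_ge_atTop k.natAbs] with n hn
    exact main2 k n (by rw [Int.abs_eq_natAbs]; exact_mod_cast hn)
  have hall : ∀ᵐ q ∂m, ∀ k : ℤ, mL T.table φ k (fun x ω => (U x ω : ℂ)) q = 0 := by
    rw [ae_all_iff]
    intro k
    have h3 := (integral_eq_zero_iff_of_nonneg (fun q => by (clear * -; positivity))
      (mL_int_sq (A := T.table) (m := m) hφ hK hcU k)).mp (hS k)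
    filter_upwards [h3] with q hq
    have hq' : ‖mL T.table φ k (fun x ω => (U x ω : ℂ)) q‖ ^ 2 = 0 := hq
    exact norm_eq_zero.mp (pow_eq_zero_iff (by norm_num) |>.mp hq')
  obtain ⟨B, hB⟩ := Lam_bdd (A := T.table) hφ hK hcU
  have hLm := Lam_meas (A := T.table) hφ hcU
  have hae : ∀ᵐ q ∂m, ∀ᵐ u ∂nu, Lam T.table φ (fun x ω => (U x ω : ℂ)) (u, q) = 0 := by
    filter_upwards [hall] with q hq
    exact ae_zero_of_mode _ (memLp_of_bdd (slice_meas hLm q) (C := B)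
      (by filter_upwards [ae_norm] with u hu; exact hB (u, q) hu)) hq
  have hms : MeasurableSet {z : Ω × ℂ | Lam T.table φ (fun x ω => (U x ω : ℂ)) (z.2, z.1) = 0} :=
    (hLm.comp measurable_swap) (measurableSet_singleton 0)
  have hprod : ∀ᵐ z ∂(m.prod nu), Lam T.table φ (fun x ω => (U x ω : ℂ)) (z.2, z.1) = 0 :=
    (Measure.ae_prod_iff_ae_ae hms).mpr hae
  have hfinal : ∀ᵐ z ∂(nu.prod m), Lam T.table φ (fun x ω => (U x ω : ℂ)) z = 0 := by
    have hsw : MeasurePreserving Prod.swap (nu.prod m) (m.prod nu) := Measure.measurePreserving_swap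
    have := hsw.quasiMeasurePreserving.ae hprod
    simpa only [Prod.snd_swap, Prod.fst_swap, Prod.mk.eta] using this
  filter_upwards [hfinal] with ω hω
  have h3 : Lam T.table φ (fun x ω => (U x ω : ℂ)) ω =
      ((∫ x in T.table, U x ω * fderiv ℝ φ x (Complex.I * ω.1) : ℝ) : ℂ) := by
    unfold Lam
    rw [← integral_complex_ofReal]
    push_cast
    rfl
  rw [h3] at hω
  exact_mod_cast hω

end Triangle
end Vale.Agent.P099
end
end
section
section
open MeasureTheory Set Filter Topology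
namespace Vale.Agent.P099
variable {Ω : Type} [MeasurableSpace Ω] {ς : Fin 3 → Ω → Ω} [TwInv ς]
namespace Triangle
variable (T : Triangle)
/-- twisted skew symmetry of the averages -/
lemma skew_avS {m : Measure Ω} [IsProbabilityMeasure m] {Ψ : ℝ → Ω → Ω}
    [TwCom Ψ ς] (hΨ : PFlow m Ψ)
    {H : ℂ → ℂ × Ω → ℝ} (hH : Bdd H) {τ : ℝ} (hτ : 0 < τ) :
    ∀ y y' u u', ∀ j l : Option (Fin 3),
      ∫ q, Vav Ψ τ H y (u, os ς j q) * Uav Ψ τ H y' (u', os ς l q) ∂m =
      - ∫ q, Uav Ψ τ H y (u, os ς j q) * Vav Ψ τ H y' (u', os ς l q) ∂m := by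
  classical
  intro y y' u u' j l
  set K : ℂ → ℂ × Ω → ℝ := fun z ω =>
    if z = 0 then H y (u, os ς j ω.2) else H y' (u', os ς l ω.2) with hK
  have hKb : Bdd K := by
    obtain ⟨hm, C, hC⟩ := hH
    refine ⟨?_, C, fun z ω => ?_⟩
    · refine Measurable.ite (measurable_fst (measurableSet_singleton 0)) ?_ ?_
      · exact hm.comp (measurable_const.prodMk (measurable_const.prodMk
          ((os_meas ς j).comp (measurable_snd.comp measurable_snd))))
      · exact hm.comp (measurable_const.prodMk (measurable_const.prodMk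
          ((os_meas ς l).comp (measurable_snd.comp measurable_snd))))
    · simp only [hK]
      split_ifs
      · exact hC _ _
      · exact hC _ _
  have hcom : ∀ (i : Option (Fin 3)) (t : ℝ) (q : Ω), os ς i (Ψ t q) = Ψ t (os ς i q) := by
    intro i t q
    cases i with
    | none => rfl
    | some i => exact (TwCom.com t i q).symm
  have h := skew_av hΨ hKb hτ 0 1 0 0
  simp only [Uav, Vav, hK, if_true, one_ne_zero, if_false, hcom] at h
  simp only [Uav, Vav]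
  exact h

/-- the derivative of `H` orthogonally to the motion vanishes -/
theorem weakYS {m : Measure Ω} [TwMP m ς] [IsProbabilityMeasure m] {Ψ : ℝ → Ω → Ω}
    [TwCom Ψ ς] (hΨ : PFlow m Ψ)
    {H : ℂ → ℂ × Ω → ℝ} (hH : Bdd H) (hF : T.FreeInv m Ψ H) (hB : T.BounceInvS m ς Ψ H)
    (φ : ℂ → ℝ) (hφ : ContDiff ℝ (⊤ : ℕ∞) φ) (hφc : HasCompactSupport φ)
    (hφs : tsupport φ ⊆ T.table) :
    ∀ᵐ ω ∂(nu.prod m), ∫ x in T.table, H x ω * fderiv ℝ φ x (Complex.I * ω.1) = 0 := by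
  obtain ⟨C, hC⟩ := hH.2
  obtain ⟨D, hD0, hD⟩ := wm_bound_K hφ hφc
  have hfin : Fact (volume T.table < ⊤) := ⟨T.volume_table_lt_top⟩
  set g : ℂ × Ω → ℝ := fun ω => ∫ x in T.table, H x ω * fderiv ℝ φ x (Complex.I * ω.1) with hg
  have mg : Measurable g := by
    have h1 : Measurable (fun z : (ℂ × Ω) × ℂ => H z.2 z.1 * fderiv ℝ φ z.2 (Complex.I * z.1.1)) := by
      have h0 : Measurable (fun z : (ℂ × Ω) × ℂ => ((z.2, z.1) : ℂ × (ℂ × Ω))) := by fun_prop
      have h0' : Measurable (fun z : (ℂ × Ω) × ℂ => ((z.2, z.1.1) : ℂ × ℂ)) := by fun_prop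
      exact (hH.1.comp h0).mul ((wm_measurable_K hφ).comp h0')
    exact (h1.stronglyMeasurable.integral_prod_right'
      (ν := (volume : Measure ℂ).restrict T.table)).measurable
  have key : ∀ ω : ℂ × Ω, ∀ τ : ℝ, 0 < τ →
      ∫ x in T.table, Uav Ψ τ H x ω * fderiv ℝ φ x (Complex.I * ω.1) =
        τ⁻¹ * ∫ s in (0:ℝ)..τ, g (ω.1, Ψ s ω.2) := by
    intro ω τ hτ
    rw [intervalIntegral.integral_of_le hτ.le]
    simp only [hg]
    have hsw : ∫ s in Ioc 0 τ, ∫ x in T.table,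
        H x (ω.1, Ψ s ω.2) * fderiv ℝ φ x (Complex.I * ω.1) =
        ∫ x in T.table, ∫ s in Ioc 0 τ,
        H x (ω.1, Ψ s ω.2) * fderiv ℝ φ x (Complex.I * ω.1) := by
      apply integral_integral_swap
      have h1 : Measurable (fun z : ℝ × ℂ => H z.2 (ω.1, Ψ z.1 ω.2) *
          fderiv ℝ φ z.2 (Complex.I * ω.1)) := by
        have h0 : Measurable (fun z : ℝ × ℂ => (((z.2, (ω.1, ω.2)), z.1) :
          (ℂ × (ℂ × Ω)) × ℝ)) := by fun_prop
        have h0' : Measurable (fun z : ℝ × ℂ => ((z.2, ω.1) : ℂ × ℂ)) := by fun_prop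
        exact ((bdd_meas_comp hΨ hH).comp h0).mul ((wm_measurable_K hφ).comp h0')
      refine Integrable.of_bound (C := C * (D * ‖ω.1‖)) h1.aestronglyMeasurable ?_
      refine Filter.Eventually.of_forall (fun z => ?_)
      simp only [Function.uncurry, Real.norm_eq_abs, abs_mul]
      exact mul_le_mul (hC _ _) (hD _ _) (abs_nonneg _) (le_trans (abs_nonneg _) (hC z.2 ω))
    rw [hsw, ← integral_const_mul]
    apply integral_congr_ae
    refine Filter.Eventually.of_forall (fun x => ?_)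
    simp only [Uav, intervalIntegral.integral_of_le hτ.le]
    rw [integral_mul_const]
    ring
  -- vanishing of the averages for all times
  have h1 : ∀ᵐ ω ∂(nu.prod m), ∀ τ : ℚ, 0 < (τ : ℝ) → ∫ s in (0:ℝ)..τ, g (ω.1, Ψ s ω.2) = 0 := by
    rw [ae_all_iff]
    intro τ
    by_cases hτ : 0 < (τ : ℝ)
    · have hr := T.rigidS m (Uav Ψ τ H) (Vav Ψ τ H) (bdd_Uav hΨ hH hτ) (bdd_Vav hΨ hH hτ)
        (T.freeDer_av hΨ hH hF) (T.bounceDer_avS hΨ hH hF hB hτ) (skew_avS (ς := ς) hΨ hH hτ) φ hφ hφc hφs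
      filter_upwards [hr] with ω hω _
      rw [key ω τ hτ] at hω
      rcases mul_eq_zero.mp hω with h | h
      · exact absurd h (inv_ne_zero hτ.ne')
      · exact h
    · exact Filter.Eventually.of_forall (fun ω h => absurd h hτ)
  have mgΨ : Measurable (fun z : (ℂ × Ω) × ℝ => g (z.1.1, Ψ z.2 z.1.2)) := by
    refine mg.comp (Measurable.prodMk (by fun_prop) ?_)
    exact hΨ.meas.comp (Measurable.prodMk measurable_snd (measurable_snd.comp measurable_fst))
  have gb : ∀ ω, |g ω| ≤ C * (D * ‖ω.1‖) * (volume.real T.table) := by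
    intro ω
    have := norm_setIntegral_le_of_norm_le_const (μ := volume) (s := T.table)
      (f := fun x => H x ω * fderiv ℝ φ x (Complex.I * ω.1)) (C := C * (D * ‖ω.1‖))
      T.volume_table_lt_top (fun x _ => by
        rw [Real.norm_eq_abs, abs_mul]
        exact mul_le_mul (hC _ _) (hD _ _) (abs_nonneg _) (le_trans (abs_nonneg _) (hC x ω)))
    exact this
  have h2 : ∀ᵐ ω ∂(nu.prod m), ∀ᵐ s : ℝ, 0 < s → g (ω.1, Ψ s ω.2) = 0 := by
    filter_upwards [h1] with ω hω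
    set f : ℝ → ℝ := fun s => g (ω.1, Ψ s ω.2) with hf
    have mf : Measurable f := by
      have h0 : Measurable (fun s : ℝ => ((ω, s) : (ℂ × Ω) × ℝ)) := by fun_prop
      exact mgΨ.comp h0
    have bf : ∀ s, |f s| ≤ C * (D * ‖ω.1‖) * (volume.real T.table) := fun s => gb _
    have hi : ∀ a b : ℝ, IntervalIntegrable f volume a b := locInt_of_bdd mf bf
    have hcont : Continuous (fun τ : ℝ => ∫ s in (0:ℝ)..τ, f s) :=
      intervalIntegral.continuous_primitive hi 0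
    have hzero : ∀ τ : ℝ, 0 < τ → ∫ s in (0:ℝ)..τ, f s = 0 := by
      intro τ hτ
      have hcl : IsClosed {τ : ℝ | ∫ s in (0:ℝ)..τ, f s = 0} :=
        isClosed_eq hcont continuous_const
      have hmem : τ ∈ closure {τ : ℝ | 0 < τ ∧ ∃ r : ℚ, (r : ℝ) = τ} := by
        rw [Metric.mem_closure_iff]
        intro ε hε
        obtain ⟨r, hr1, hr2⟩ := exists_rat_btwn (show τ < τ + ε by linarith only [hε])
        refine ⟨r, ⟨lt_trans hτ hr1, r, rfl⟩, ?_⟩
        rw [Real.dist_eq, abs_sub_comm, abs_of_pos (by linarith)]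
        linarith
      have hsub : {τ : ℝ | 0 < τ ∧ ∃ r : ℚ, (r : ℝ) = τ} ⊆ {τ : ℝ | ∫ s in (0:ℝ)..τ, f s = 0} := by
        rintro _ ⟨h0, r, rfl⟩
        exact hω r h0
      exact (closure_minimal hsub hcl) hmem
    have hloc : LocallyIntegrable f volume := by
      intro x
      refine ⟨Ioo (x - 1) (x + 1), Ioo_mem_nhds (by linarith) (by linarith), ?_⟩
      have : Fact (volume (Ioo (x - 1) (x + 1)) < ⊤) := ⟨measure_Ioo_lt_top⟩
      exact Integrable.of_bound mf.aestronglyMeasurable _ (Filter.Eventually.of_forall bf)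
    filter_upwards [LocallyIntegrable.ae_hasDerivAt_integral hloc] with s hs hpos
    have hd := hs 0
    have hd0 : HasDerivAt (fun τ : ℝ => ∫ t in (0:ℝ)..τ, f t) 0 s := by
      have heq : (fun τ : ℝ => ∫ t in (0:ℝ)..τ, f t) =ᶠ[𝓝 s] fun _ => 0 := by
        filter_upwards [lt_mem_nhds hpos] with τ hτ
        exact hzero τ hτ
      exact (hasDerivAt_const s (0:ℝ)).congr_of_eventuallyEq heq
    exact hd.unique hd0
  have hS : MeasurableSet {z : (ℂ × Ω) × ℝ | 0 < z.2 → g (z.1.1, Ψ z.2 z.1.2) = 0} := by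
    have e : {z : (ℂ × Ω) × ℝ | 0 < z.2 → g (z.1.1, Ψ z.2 z.1.2) = 0} =
        {z | 0 < z.2}ᶜ ∪ {z | g (z.1.1, Ψ z.2 z.1.2) = 0} := by
      ext z
      simp only [mem_ofPred_eq, mem_union, mem_compl_iff]
      (clear * -; tauto)
    rw [e]
    exact (measurableSet_lt measurable_const measurable_snd).compl.union
      (measurableSet_eq_fun mgΨ measurable_const)
  have h3 : ∀ᵐ s : ℝ, ∀ᵐ ω ∂(nu.prod m), 0 < s → g (ω.1, Ψ s ω.2) = 0 :=
    (Measure.ae_ae_comm (p := fun (ω : ℂ × Ω) (s : ℝ) => 0 < s → g (ω.1, Ψ s ω.2) = 0) hS).mp h2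
  obtain ⟨s, hs0, hs⟩ : ∃ s : ℝ, 0 < s ∧ ∀ᵐ ω ∂(nu.prod m), g (ω.1, Ψ s ω.2) = 0 := by
    by_contra hcon
    rw [not_exists] at hcon
    have hsub : Ioi (0:ℝ) ⊆ {s : ℝ | ¬ ∀ᵐ ω ∂(nu.prod m), 0 < s → g (ω.1, Ψ s ω.2) = 0} := by
      intro s hs hh
      apply hcon s
      refine ⟨hs, ?_⟩
      filter_upwards [hh] with ω hω
      exact hω hs
    have := measure_mono_null hsub (ae_iff.mp h3)
    simp at this
  have hmp : MeasurePreserving (Prod.map id (Ψ s)) (nu.prod m) (nu.prod m) :=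
    (MeasurePreserving.id _).prod (hΨ.mp s)
  have h4 : ∀ᵐ ω ∂((nu.prod m).map (Prod.map id (Ψ s))), g ω = 0 := by
    rw [ae_map_iff hmp.measurable.aemeasurable (measurableSet_eq_fun mg measurable_const)]
    exact hs
  rwa [hmp.map_eq] at h4

end Triangle
end Vale.Agent.P099
end
end
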