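import Vale.Agent.P099.H172.TwC
attribute [-instance] ProperSMul.toContinuousSMul IsTopologicalTorsor.toContinuousSMul IdemSemiring.toCanonicallyOrderedAdd IdemSemiring.toMulLeftMono IdemSemiring.toMulRightMono AddQuantale.instAddLeftMono AddQuantale.instAddRightMono Quantale.instMulLeftMono Quantale.instMulRightMono FiniteDimensional.rclike_to_real IsScalarTower.complexToReal FiniteDimensional.complexToReal
set_option linter.all false

section
section
open MeasureTheory Set Filter Topology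
namespace Vale.Agent.P099
variable {Ω : Type} [MeasurableSpace Ω] {ς : Fin 3 → Ω → Ω} [TwInv ς]
open WM4
namespace Triangle
variable (T : Triangle)
/-- the reflection relation for directions pointing to the side -/
theorem F_refl_negS {m : Measure Ω} [TwMP m ς] [IsProbabilityMeasure m] {Ψ : ℝ → Ω → Ω}
    [TwCom Ψ ς] (hΨ : PFlow m Ψ)
    {H : ℂ → ℂ × Ω → ℝ} (hH : Bdd H) (hB : T.BounceInvS m ς Ψ H) (O : ℂ)
    {F : ℂ × Ω → ℝ}
    (hF : ∀ᵐ p ∂((volume.restrict T.table).prod (nu.prod m)),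
        H p.1 (p.2.1, Ψ (dt (p.1 - O) p.2.1) p.2.2) = F p.2) (i : Fin 3) :
    ∀ᵐ ω ∂(nu.prod m), T.ell i ω.1 < 0 →
      F (T.refl i ω.1, ς i (Ψ (dt (T.R i O - O) ω.1) ω.2)) = F ω := by
  obtain ⟨t, ht0, ht⟩ := T.exists_time i
  have hHm := hH.1
  -- measurability of shifts
  have mdt : ∀ w : ℂ, Measurable fun u : ℂ => dt w u := fun w =>
    measurable_dt.comp (measurable_const.prodMk measurable_id)
  have hJ : MeasurePreserving (fun ω : ℂ × Ω => (T.refl i ω.1, ς i (Ψ (dt (T.R i O - O) ω.1) ω.2)))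
      (nu.prod m) (nu.prod m) :=
    ((MeasurePreserving.id nu).prod (TwMP.mp (ς := ς) i)).comp
      (mp_shear hΨ (T.measurePreserving_refl i) (mdt _))
  -- (a)
  have a1 := hJ.quasiMeasurePreserving.ae (ae_swap hF)
  have a2 : ∀ᵐ ω ∂(nu.prod m), ∀ᵐ y ∂(volume : Measure ℂ), T.R i (y + t • ω.1) ∈ T.table →
      H (T.R i (y + t • ω.1)) (T.refl i ω.1,
        Ψ (dt (T.R i (y + t • ω.1) - O) (T.refl i ω.1)) (ς i (Ψ (dt (T.R i O - O) ω.1) ω.2))) =
        F (T.refl i ω.1, ς i (Ψ (dt (T.R i O - O) ω.1) ω.2)) := by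
    filter_upwards [a1] with ω h1
    rw [ae_restrict_iff' T.isOpen_table.measurableSet] at h1
    have hq : MeasurePreserving (fun y : ℂ => T.R i (y + t • ω.1)) volume volume :=
      (T.measurePreserving_R i).comp (measurePreserving_add_right volume _)
    exact hq.quasiMeasurePreserving.ae h1
  -- (b), (c)
  have hSh : MeasurePreserving (fun p : ℂ × (ℂ × Ω) =>
      (p.1, (p.2.1, Ψ (dt (p.1 - O) p.2.1) p.2.2)))
      ((volume.restrict T.table).prod (nu.prod m)) ((volume.restrict T.table).prod (nu.prod m)) := by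
    refine MeasurePreserving.skew_product
      (g := fun x (ω : ℂ × Ω) => (ω.1, Ψ (dt (x - O) ω.1) ω.2)) (MeasurePreserving.id _) ?_ ?_
    · have h1 : Measurable fun p : ℂ × (ℂ × Ω) => dt (p.1 - O) p.2.1 :=
        measurable_dt.comp ((measurable_fst.sub_const O).prodMk (measurable_fst.comp measurable_snd))
      exact (measurable_fst.comp measurable_snd).prodMk
        (hΨ.meas.comp (h1.prodMk (measurable_snd.comp measurable_snd)))
    · exact ae_of_all _ fun x => (mp_shear hΨ (MeasurePreserving.id nu) (mdt (x - O))).map_eq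
  have b1 := hSh.quasiMeasurePreserving.ae (hB t ht0 i)
  have c1 : ∀ᵐ ω ∂(nu.prod m), ∀ᵐ x ∂(volume.restrict T.table),
      T.E i (x, ω.1) → T.hitT i (x, ω.1) < t → T.R i (x + t • ω.1) ∈ T.table →
      H (T.R i (x + t • ω.1)) (T.refl i ω.1, ς i (Ψ t (Ψ (dt (x - O) ω.1) ω.2))) = F ω := by
    have h := ae_swap (hF.and b1)
    filter_upwards [h] with ω h1
    filter_upwards [h1] with x h2 h3 h4 h5
    have h6 := h2.2 h3 h4 h5
    rw [← h2.1]
    exact h6
  -- (d)
  have d1 : ∀ᵐ ω ∂(nu.prod m), ∀ᵐ x ∂(volume.restrict T.table),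
      H (T.R i (x + t • ω.1)) (T.refl i ω.1, ς i (Ψ t (Ψ (dt (x - O) ω.1) ω.2))) =
      H (T.R i (x + t • ω.1)) (T.refl i ω.1,
        Ψ (dt (T.R i (x + t • ω.1) - O) (T.refl i ω.1)) (ς i (Ψ (dt (T.R i O - O) ω.1) ω.2))) := by
    have hmR : Measurable fun p : ℂ × (ℂ × Ω) => T.R i (p.1 + t • p.2.1) :=
      (T.continuous_R i).measurable.comp
        (measurable_fst.add ((measurable_fst.comp measurable_snd).const_smul t))
    have hmr : Measurable fun p : ℂ × (ℂ × Ω) => T.refl i p.2.1 :=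
      (T.continuous_refl i).measurable.comp (measurable_fst.comp measurable_snd)
    have hmd : Measurable fun p : ℂ × (ℂ × Ω) => dt (p.1 - O) p.2.1 :=
      measurable_dt.comp ((measurable_fst.sub_const O).prodMk (measurable_fst.comp measurable_snd))
    have hme : Measurable fun p : ℂ × (ℂ × Ω) => dt (T.R i (p.1 + t • p.2.1) - O) (T.refl i p.2.1) :=
      measurable_dt.comp ((hmR.sub_const O).prodMk hmr)
    have hmf : Measurable fun p : ℂ × (ℂ × Ω) => dt (T.R i O - O) p.2.1 :=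
      (mdt _).comp (measurable_fst.comp measurable_snd)
    have hm1 : Measurable fun p : ℂ × (ℂ × Ω) => H (T.R i (p.1 + t • p.2.1))
        (T.refl i p.2.1, ς i (Ψ t (Ψ (dt (p.1 - O) p.2.1) p.2.2))) :=
      hHm.comp (hmR.prodMk (hmr.prodMk ((TwInv.meas i).comp (hΨ.meas.comp (measurable_const.prodMk
        (hΨ.meas.comp (hmd.prodMk (measurable_snd.comp measurable_snd))))))))
    have hm2 : Measurable fun p : ℂ × (ℂ × Ω) => H (T.R i (p.1 + t • p.2.1))
        (T.refl i p.2.1, Ψ (dt (T.R i (p.1 + t • p.2.1) - O) (T.refl i p.2.1))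
          (ς i (Ψ (dt (T.R i O - O) p.2.1) p.2.2))) :=
      hHm.comp (hmR.prodMk (hmr.prodMk (hΨ.meas.comp (hme.prodMk ((TwInv.meas i).comp
        (hΨ.meas.comp (hmf.prodMk (measurable_snd.comp measurable_snd))))))))
    have hms := measurableSet_eq_fun hm1 hm2
    have hall : ∀ᵐ p ∂((volume.restrict T.table).prod (nu.prod m)),
        p ∈ {p : ℂ × (ℂ × Ω) | H (T.R i (p.1 + t • p.2.1))
        (T.refl i p.2.1, ς i (Ψ t (Ψ (dt (p.1 - O) p.2.1) p.2.2))) =
        H (T.R i (p.1 + t • p.2.1))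
        (T.refl i p.2.1, Ψ (dt (T.R i (p.1 + t • p.2.1) - O) (T.refl i p.2.1))
          (ς i (Ψ (dt (T.R i O - O) p.2.1) p.2.2)))} := by
      rw [Measure.ae_prod_mem_iff_ae_ae_mem hms]
      refine ae_of_all _ fun x => ?_
      have hms' : MeasurableSet {ω : ℂ × Ω | (x, ω) ∈ {p : ℂ × (ℂ × Ω) | H (T.R i (p.1 + t • p.2.1))
        (T.refl i p.2.1, ς i (Ψ t (Ψ (dt (p.1 - O) p.2.1) p.2.2))) =
        H (T.R i (p.1 + t • p.2.1))
        (T.refl i p.2.1, Ψ (dt (T.R i (p.1 + t • p.2.1) - O) (T.refl i p.2.1))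
          (ς i (Ψ (dt (T.R i O - O) p.2.1) p.2.2)))}} := measurable_prodMk_left hms
      refine (Measure.ae_prod_mem_iff_ae_ae_mem hms').2 ?_
      filter_upwards [ae_norm] with u hu
      filter_upwards [hΨ.add t (dt (x - O) u), hΨ.add (dt (T.R i (x + t • u) - O) (T.refl i u))
        (dt (T.R i O - O) u)] with q h1 h2
      show H (T.R i (x + t • u)) (T.refl i u, ς i (Ψ t (Ψ (dt (x - O) u) q))) =
        H (T.R i (x + t • u)) (T.refl i u, Ψ (dt (T.R i (x + t • u) - O) (T.refl i u))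
          (ς i (Ψ (dt (T.R i O - O) u) q)))
      rw [TwCom.com (Ψ := Ψ) (ς := ς), ← h1, ← h2, T.time_eq i O x u hu t]
    exact (ae_swap hall :)
  -- conclusion
  have hn : ∀ᵐ ω ∂(nu.prod m), ‖ω.1‖ = 1 := Measure.quasiMeasurePreserving_fst.ae ae_norm
  filter_upwards [a2, c1, d1, hn] with ω ha hc hd hω hell
  obtain ⟨U, hUo, hUne, hUT, hU⟩ := ht ω.1 hω hell
  have hpos : volume U ≠ 0 := (hUo.measure_pos _ hUne).ne'
  have hne : (ae (volume.restrict U)).NeBot := by
    rw [ae_neBot]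
    intro h
    exact hpos (Measure.restrict_eq_zero.1 h)
  have ha' : ∀ᵐ y ∂(volume.restrict U), T.R i (y + t • ω.1) ∈ T.table →
      H (T.R i (y + t • ω.1)) (T.refl i ω.1,
        Ψ (dt (T.R i (y + t • ω.1) - O) (T.refl i ω.1)) (ς i (Ψ (dt (T.R i O - O) ω.1) ω.2))) =
        F (T.refl i ω.1, ς i (Ψ (dt (T.R i O - O) ω.1) ω.2)) := ae_restrict_of_ae ha
  have hc' := ae_restrict_of_ae_restrict_of_subset hUT hc
  have hd' := ae_restrict_of_ae_restrict_of_subset hUT hd
  obtain ⟨x, h1, h2, h3, h4⟩ := (ha'.and (hc'.and (hd'.and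
    (ae_restrict_mem hUo.measurableSet)))).exists
  obtain ⟨g1, g2, g3⟩ := hU x h4
  rw [← h1 g3, ← h3, h2 g1 g2 g3]

/-- the reflection relations -/
theorem F_reflS {m : Measure Ω} [TwMP m ς] [IsProbabilityMeasure m] {Ψ : ℝ → Ω → Ω}
    [TwCom Ψ ς] (hΨ : PFlow m Ψ)
    {H : ℂ → ℂ × Ω → ℝ} (hH : Bdd H) (hB : T.BounceInvS m ς Ψ H) (O : ℂ)
    {F : ℂ × Ω → ℝ} (hFm : Measurable F)
    (hF : ∀ᵐ p ∂((volume.restrict T.table).prod (nu.prod m)),
        H p.1 (p.2.1, Ψ (dt (p.1 - O) p.2.1) p.2.2) = F p.2) (i : Fin 3) :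
    ∀ᵐ ω ∂(nu.prod m), F (T.refl i ω.1, ς i (Ψ (dt (T.R i O - O) ω.1) ω.2)) = F ω := by
  have mdt : ∀ w : ℂ, Measurable fun u : ℂ => dt w u := fun w =>
    measurable_dt.comp (measurable_const.prodMk measurable_id)
  have hJ : MeasurePreserving (fun ω : ℂ × Ω => (T.refl i ω.1, ς i (Ψ (dt (T.R i O - O) ω.1) ω.2)))
      (nu.prod m) (nu.prod m) :=
    ((MeasurePreserving.id nu).prod (TwMP.mp (ς := ς) i)).comp
      (mp_shear hΨ (T.measurePreserving_refl i) (mdt _))
  have h1 := T.F_refl_negS hΨ hH hB O hF i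
  have h2 := hJ.quasiMeasurePreserving.ae h1
  have h3 : ∀ᵐ ω ∂(nu.prod m), T.ell i ω.1 ≠ 0 :=
    Measure.quasiMeasurePreserving_fst.ae (ae_ell_ne T i)
  -- going back
  have h4 : ∀ᵐ ω ∂(nu.prod m),
      F (ω.1, Ψ (-dt (T.R i O - O) ω.1) (Ψ (dt (T.R i O - O) ω.1) ω.2)) = F ω := by
    have hmf : Measurable fun p : ℂ × Ω => dt (T.R i O - O) p.1 := (mdt _).comp measurable_fst
    have hm1 : Measurable fun ω : ℂ × Ω =>
        F (ω.1, Ψ (-dt (T.R i O - O) ω.1) (Ψ (dt (T.R i O - O) ω.1) ω.2)) :=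
      hFm.comp (measurable_fst.prodMk (hΨ.meas.comp (hmf.neg.prodMk
        (hΨ.meas.comp (hmf.prodMk measurable_snd)))))
    have hms := measurableSet_eq_fun hm1 hFm
    refine (Measure.ae_prod_mem_iff_ae_ae_mem hms).2 ?_
    refine ae_of_all _ fun u => ?_
    filter_upwards [hΨ.add (-dt (T.R i O - O) u) (dt (T.R i O - O) u), hΨ.zero] with q h5 h6
    show F (u, Ψ (-dt (T.R i O - O) u) (Ψ (dt (T.R i O - O) u) q)) = F (u, q)
    rw [← h5, neg_add_cancel, h6]
  filter_upwards [h1, h2, h3, h4] with ω g1 g2 g3 g4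
  rcases lt_or_gt_of_ne g3 with h | h
  · exact g1 h
  · have g5 := g2 (by
      show T.ell i (T.refl i ω.1) < 0
      rw [T.ell_refl]; linarith)
    simp only [T.refl_refl, T.shift_refl, TwCom.com (Ψ := Ψ) (ς := ς), TwInv.inv] at g5
    rw [g4] at g5
    exact g5.symm

end Triangle
end Vale.Agent.P099
end
end
section
section
open MeasureTheory Set Filter Topology
namespace Vale.Agent.P099
variable {Ω : Type} [MeasurableSpace Ω] {ς : Fin 3 → Ω → Ω} [TwInv ς]
open WM4
namespace Triangle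
variable (T : Triangle)
/-- from almost all pairs to almost all parameters -/
lemma ae_of_nu {m : Measure Ω} [IsProbabilityMeasure m] {P : Ω → Prop}
    (h : ∀ᵐ ω ∂(nu.prod m), P ω.2) : ∀ᵐ q ∂m, P q := by
  have h1 : ∀ᵐ u ∂nu, ∀ᵐ q ∂m, P q := (Measure.ae_ae_of_ae_prod h :)
  obtain ⟨u, hu⟩ := h1.exists
  exact hu

/-- Invariant functions of the product of the twisted billiard flow with any measure preserving flow
depend only on the parameter, and are invariant under the involutions and under the flow. -/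
theorem relativeS {m : Measure Ω} [TwMP m ς] [IsProbabilityMeasure m] {Ψ : ℝ → Ω → Ω}
    [TwCom Ψ ς] (hΨ : PFlow m Ψ)
    (hfin : ∀ i j : Fin 3, ∃ N : ℕ, 0 < N ∧ ∀ q, (fun q => ς i (ς j q))^[N] q = q)
    (hT : T.IsIrrational)
    {H : ℂ → ℂ × Ω → ℝ} (hH : Bdd H) (hF : T.FreeInv m Ψ H) (hB : T.BounceInvS m ς Ψ H) :
    ∃ f : Ω → ℝ, Measurable f ∧ (∃ C, ∀ q, |f q| ≤ C) ∧ (∀ s, ∀ᵐ q ∂m, f (Ψ s q) = f q) ∧
      (∀ i, ∀ᵐ q ∂m, f (ς i q) = f q) ∧
      ∀ᵐ p ∂((volume.restrict T.table).prod (nu.prod m)), H p.1 p.2 = f p.2.2 := by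
  obtain ⟨k, hk⟩ := hT
  obtain ⟨F, hFm, hFb, hFH⟩ := T.exists_F hΨ hH hF
    (fun φ h1 h2 h3 => T.weakYS hΨ hH hF hB φ h1 h2 h3) (T.P k)
  have mdt : ∀ w : ℂ, Measurable fun u : ℂ => dt w u := fun w =>
    measurable_dt.comp (measurable_const.prodMk measurable_id)
  -- the two sides through the vertex
  have hside : ∀ i : Fin 3, i ≠ k → ∀ᵐ ω ∂(nu.prod m), F (T.refl i ω.1, ς i ω.2) = F ω := by
    intro i hi
    have h1 := T.F_reflS hΨ hH hB (T.P k) hFm hFH i
    rw [T.R_P_other i k hi, sub_self] at h1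
    have hz : ∀ u, dt 0 u = 0 := by intro u; simp [dt]
    simp only [hz] at h1
    have h2 : ∀ᵐ ω ∂(nu.prod m), F (T.refl i ω.1, ς i (Ψ 0 ω.2)) = F (T.refl i ω.1, ς i ω.2) := by
      have hm1 : Measurable fun ω : ℂ × Ω => F (T.refl i ω.1, ς i (Ψ 0 ω.2)) :=
        hFm.comp (((T.continuous_refl i).measurable.comp measurable_fst).prodMk
          ((TwInv.meas i).comp (hΨ.meas.comp (measurable_const.prodMk measurable_snd))))
      have hm2 : Measurable fun ω : ℂ × Ω => F (T.refl i ω.1, ς i ω.2) :=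
        hFm.comp (((T.continuous_refl i).measurable.comp measurable_fst).prodMk
          ((TwInv.meas i).comp measurable_snd))
      refine (Measure.ae_prod_mem_iff_ae_ae_mem (measurableSet_eq_fun hm1 hm2)).2 ?_
      refine ae_of_all _ fun u => ?_
      filter_upwards [hΨ.zero] with q hq
      show F (T.refl i u, ς i (Ψ 0 q)) = F (T.refl i u, ς i q)
      rw [hq]
    filter_upwards [h1, h2] with ω h3 h4
    rw [← h4, h3]
  obtain ⟨ζ, hζ1, hζ2, hζ3⟩ := T.exists_rot k hk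
  have hf1 : ∀ i : Fin 3, i + 1 ≠ i := by decide
  have hf2 : ∀ i : Fin 3, i + 2 ≠ i := by decide
  set J : ℂ × Ω → ℂ × Ω := fun ω => (ζ * ω.1, ς (k + 1) (ς (k + 2) ω.2)) with hJdef
  have hpair : ∀ i : Fin 3, MeasurePreserving (fun ω : ℂ × Ω => (T.refl i ω.1, ς i ω.2))
        (nu.prod m) (nu.prod m) := fun i =>
    (T.measurePreserving_refl i).prod (TwMP.mp i)
  have hJ : MeasurePreserving J (nu.prod m) (nu.prod m) := by
    have h := (hpair (k + 1)).comp (hpair (k + 2))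
    have e : ((fun ω : ℂ × Ω => (T.refl (k + 1) ω.1, ς (k + 1) ω.2)) ∘
        fun ω : ℂ × Ω => (T.refl (k + 2) ω.1, ς (k + 2) ω.2)) = J := by
      funext ω
      simp only [Function.comp_apply, hJdef, hζ3]
    rwa [e] at h
  have hrot1 : ∀ᵐ ω ∂(nu.prod m), F (J ω) = F ω := by
    have h1 := hside (k + 1) (hf1 k)
    have h2 := hside (k + 2) (hf2 k)
    filter_upwards [(hpair (k + 2)).quasiMeasurePreserving.ae h1, h2] with ω h3 h4
    simp only [hJdef]
    rw [← hζ3, h3, h4]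
  have hrotn : ∀ n : ℕ, ∀ᵐ ω ∂(nu.prod m), F (J^[n] ω) = F ω := by
    intro n
    induction n with
    | zero => exact ae_of_all _ fun ω => rfl
    | succ n ih =>
      filter_upwards [hJ.quasiMeasurePreserving.ae ih, hrot1] with ω h1 h2
      rw [Function.iterate_succ_apply, h1, h2]
  obtain ⟨N, hN, hNid⟩ := hfin (k + 1) (k + 2)
  have hJn : ∀ (n : ℕ) (ω : ℂ × Ω),
      J^[n] ω = (ζ ^ n * ω.1, (fun q => ς (k + 1) (ς (k + 2) q))^[n] ω.2) := by
    intro n
    induction n with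
    | zero => intro ω; simp
    | succ n ih =>
      intro ω
      rw [Function.iterate_succ_apply, ih, Function.iterate_succ_apply]
      simp only [hJdef]
      rw [pow_succ, mul_assoc]
  have hrot : ∀ᵐ ω ∂(nu.prod m), F (ζ ^ N * ω.1, ω.2) = F ω := by
    filter_upwards [hrotn N] with ω h1
    rw [hJn, hNid] at h1
    exact h1
  have hζN1 : ‖ζ ^ N‖ = 1 := by rw [norm_pow, hζ1, one_pow]
  have hζN2 : ∀ n : ℤ, n ≠ 0 → (ζ ^ N) ^ n ≠ 1 := by
    intro n hn
    rw [← zpow_natCast, ← zpow_mul]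
    apply hζ2
    exact mul_ne_zero (by exact_mod_cast hN.ne') hn
  obtain ⟨f, hfm, hfb, hff⟩ := const_of_rot' hζN1 hζN2 F hFm hFb hrot
  -- the third side
  set v : ℂ := T.R k (T.P k) - T.P k with hv
  have hthird : ∀ᵐ ω ∂(nu.prod m), f (ς k (Ψ (dt v ω.1) ω.2)) = f ω.2 := by
    have h1 := T.F_reflS hΨ hH hB (T.P k) hFm hFH k
    have hJ' : MeasurePreserving
        (fun ω : ℂ × Ω => (T.refl k ω.1, ς k (Ψ (dt v ω.1) ω.2)))
        (nu.prod m) (nu.prod m) :=
      ((MeasurePreserving.id nu).prod (TwMP.mp (ς := ς) k)).comp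
        (mp_shear hΨ (T.measurePreserving_refl k) (mdt _))
    filter_upwards [h1, hJ'.quasiMeasurePreserving.ae hff, hff] with ω h2 h3 h4
    rw [← h3, h2, h4]
  have hthird' : ∀ᵐ ω ∂(nu.prod m), f (ς k (Ψ (-dt v ω.1) ω.2)) = f ω.2 := by
    have hmp : MeasurePreserving (Prod.map (fun u : ℂ => -u) id) (nu.prod m) (nu.prod m) :=
      measurePreserving_neg'.prod (MeasurePreserving.id m)
    filter_upwards [hmp.quasiMeasurePreserving.ae hthird] with ω h1
    have e : dt v (-ω.1) = - dt v ω.1 := by simp only [dt, Complex.neg_re, Complex.neg_im]; ring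
    simp only [Prod.map_fst, Prod.map_snd, id_eq, e] at h1
    exact h1
  have hdbl : ∀ᵐ ω ∂(nu.prod m), f (Ψ (dt (2 * v) ω.1) ω.2) = f ω.2 := by
    have e2 : ∀ u, dt (2 * v) u = 2 * dt v u := by
      intro u
      simp only [dt, Complex.mul_re, Complex.mul_im, Complex.re_ofNat, Complex.im_ofNat]
      ring
    have hsh := mp_shear hΨ (MeasurePreserving.id nu) (mdt (2 * v))
    have h1 := hsh.quasiMeasurePreserving.ae hthird'
    have h2 : ∀ᵐ ω ∂(nu.prod m), f (ς k (Ψ (-dt v ω.1) (Ψ (dt (2 * v) ω.1) ω.2))) =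
        f (ς k (Ψ (dt v ω.1) ω.2)) := by
      have hmf : Measurable fun p : ℂ × Ω => dt v p.1 := (mdt _).comp measurable_fst
      have hmg : Measurable fun p : ℂ × Ω => dt (2 * v) p.1 := (mdt _).comp measurable_fst
      have hm1 : Measurable fun ω : ℂ × Ω =>
          f (ς k (Ψ (-dt v ω.1) (Ψ (dt (2 * v) ω.1) ω.2))) :=
        hfm.comp ((TwInv.meas k).comp (hΨ.meas.comp (hmf.neg.prodMk
          (hΨ.meas.comp (hmg.prodMk measurable_snd)))))
      have hm2 : Measurable fun ω : ℂ × Ω => f (ς k (Ψ (dt v ω.1) ω.2)) :=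
        hfm.comp ((TwInv.meas k).comp (hΨ.meas.comp (hmf.prodMk measurable_snd)))
      refine (Measure.ae_prod_mem_iff_ae_ae_mem (measurableSet_eq_fun hm1 hm2)).2 ?_
      refine ae_of_all _ fun u => ?_
      filter_upwards [hΨ.add (-dt v u) (dt (2 * v) u)] with q hq
      show f (ς k (Ψ (-dt v u) (Ψ (dt (2 * v) u) q))) = f (ς k (Ψ (dt v u) q))
      rw [← hq, e2]
      have : -dt v u + 2 * dt v u = dt v u := by ring
      rw [this]
    filter_upwards [h1, h2, hthird] with ω h3 h4 h5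
    have h3' : f (ς k (Ψ (-dt v ω.1) (Ψ (dt (2 * v) ω.1) ω.2))) = f (Ψ (dt (2 * v) ω.1) ω.2) := h3
    rw [← h3', h4, h5]
  have hinv := inv_all hΨ hfm (mul_ne_zero two_ne_zero (T.R_P_ne k)) hdbl
  have hςinv : ∀ i, ∀ᵐ q ∂m, f (ς i q) = f q := by
    intro i
    by_cases hi : i = k
    · subst hi
      have h1 : ∀ᵐ u ∂nu, ∀ᵐ q ∂m, f (ς i (Ψ (dt v u) q)) = f q :=
        (Measure.ae_ae_of_ae_prod hthird :)
      obtain ⟨u, hu⟩ := h1.exists
      have h2 := (hΨ.mp (-dt v u)).quasiMeasurePreserving.ae hu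
      filter_upwards [h2, hΨ.add (dt v u) (-dt v u), hΨ.zero, hinv (-dt v u)] with q g1 g2 g3 g4
      rw [add_neg_cancel, g3] at g2
      rw [← g2, g4] at g1
      exact g1
    · apply ae_of_nu
      filter_upwards [hside i hi, (hpair i).quasiMeasurePreserving.ae hff, hff] with ω g1 g2 g3
      rw [← g2, g1, g3]
  refine ⟨f, hfm, hfb, hinv, hςinv, ?_⟩
  -- straightening back
  have hSh : MeasurePreserving (fun p : ℂ × (ℂ × Ω) =>
      (p.1, (p.2.1, Ψ (-dt (p.1 - T.P k) p.2.1) p.2.2)))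
      ((volume.restrict T.table).prod (nu.prod m)) ((volume.restrict T.table).prod (nu.prod m)) := by
    refine MeasurePreserving.skew_product
      (g := fun x (ω : ℂ × Ω) => (ω.1, Ψ (-dt (x - T.P k) ω.1) ω.2)) (MeasurePreserving.id _) ?_ ?_
    · have h1 : Measurable fun p : ℂ × (ℂ × Ω) => dt (p.1 - T.P k) p.2.1 :=
        measurable_dt.comp ((measurable_fst.sub_const _).prodMk
          (measurable_fst.comp measurable_snd))
      exact (measurable_fst.comp measurable_snd).prodMk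
        (hΨ.meas.comp (h1.neg.prodMk (measurable_snd.comp measurable_snd)))
    · exact ae_of_all _ fun x =>
        (mp_shear hΨ (MeasurePreserving.id nu) (mdt (x - T.P k)).neg).map_eq
  have hff' : ∀ᵐ p ∂((volume.restrict T.table).prod (nu.prod m)), F p.2 = f p.2.2 :=
    Measure.quasiMeasurePreserving_snd.ae hff
  have h1 := hSh.quasiMeasurePreserving.ae (hFH.and hff')
  have hmd : Measurable fun p : ℂ × (ℂ × Ω) => dt (p.1 - T.P k) p.2.1 :=
    measurable_dt.comp ((measurable_fst.sub_const _).prodMk (measurable_fst.comp measurable_snd))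
  have hmP : Measurable fun p : ℂ × (ℂ × Ω) => Ψ (-dt (p.1 - T.P k) p.2.1) p.2.2 :=
    hΨ.meas.comp (hmd.neg.prodMk (measurable_snd.comp measurable_snd))
  have h2 : ∀ᵐ p ∂((volume.restrict T.table).prod (nu.prod m)),
      H p.1 (p.2.1, Ψ (dt (p.1 - T.P k) p.2.1) (Ψ (-dt (p.1 - T.P k) p.2.1) p.2.2)) =
        H p.1 p.2 := by
    have hm1 : Measurable fun p : ℂ × (ℂ × Ω) =>
        H p.1 (p.2.1, Ψ (dt (p.1 - T.P k) p.2.1) (Ψ (-dt (p.1 - T.P k) p.2.1) p.2.2)) :=
      hH.1.comp (measurable_fst.prodMk ((measurable_fst.comp measurable_snd).prodMk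
        (hΨ.meas.comp (hmd.prodMk hmP))))
    have hms := measurableSet_eq_fun hm1 hH.1
    refine (Measure.ae_prod_mem_iff_ae_ae_mem hms).2 (ae_of_all _ fun x => ?_)
    refine (Measure.ae_prod_mem_iff_ae_ae_mem (measurable_prodMk_left hms)).2
      (ae_of_all _ fun u => ?_)
    filter_upwards [hΨ.add (dt (x - T.P k) u) (-dt (x - T.P k) u), hΨ.zero] with q h3 h4
    show H x (u, Ψ (dt (x - T.P k) u) (Ψ (-dt (x - T.P k) u) q)) = H x (u, q)
    rw [← h3, add_neg_cancel, h4]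
  have h3 : ∀ᵐ p ∂((volume.restrict T.table).prod (nu.prod m)),
      f (Ψ (-dt (p.1 - T.P k) p.2.1) p.2.2) = f p.2.2 := by
    have hms := measurableSet_eq_fun (hfm.comp hmP) (hfm.comp (measurable_snd.comp
      (measurable_snd (α := ℂ) (β := ℂ × Ω))))
    refine (Measure.ae_prod_mem_iff_ae_ae_mem hms).2 (ae_of_all _ fun x => ?_)
    refine (Measure.ae_prod_mem_iff_ae_ae_mem (measurable_prodMk_left hms)).2
      (ae_of_all _ fun u => ?_)
    exact hinv (-dt (x - T.P k) u)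
  filter_upwards [h1, h2, h3] with p g1 g2 g3
  rw [← g2, g1.1, g1.2, g3]

end Triangle
end Vale.Agent.P099
end
end
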