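import Vale.Agent.P099.H172.TwE
attribute [-instance] ProperSMul.toContinuousSMul IsTopologicalTorsor.toContinuousSMul IdemSemiring.toCanonicallyOrderedAdd IdemSemiring.toMulLeftMono IdemSemiring.toMulRightMono AddQuantale.instAddLeftMono AddQuantale.instAddRightMono Quantale.instMulLeftMono Quantale.instMulRightMono FiniteDimensional.rclike_to_real IsScalarTower.complexToReal FiniteDimensional.complexToReal
set_option linter.all false

section
open MeasureTheory Set Filter Topology
namespace Vale.Agent.P099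

/-- the uniform distribution on a finite set -/
lemma isProb_unif (S : Type) [Finite S] [Nonempty S] [MeasurableSpace S]
    [DiscreteMeasurableSpace S] :
    IsProbabilityMeasure (ProbabilityTheory.uniformOn (univ : Set S)) :=
  ProbabilityTheory.isProbabilityMeasure_uniformOn finite_univ univ_nonempty

lemma unif_ae {S : Type} [Finite S] [Nonempty S] [MeasurableSpace S]
    [DiscreteMeasurableSpace S] {P : S → Prop}
    (h : ∀ᵐ a ∂(ProbabilityTheory.uniformOn (univ : Set S)), P a) (a : S) : P a := by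
  have h1 : (ProbabilityTheory.uniformOn (univ : Set S)) =
      (Measure.count (univ : Set S))⁻¹ • Measure.count := by
    rw [ProbabilityTheory.uniformOn, ProbabilityTheory.cond, Measure.restrict_univ]
  rw [h1, Measure.ae_ennreal_smul_measure_iff (ENNReal.inv_ne_zero.2
    (Measure.count_apply_lt_top.2 finite_univ).ne)] at h
  exact Measure.ae_count_iff.1 h a

lemma unif_mp {S : Type} [Finite S] [Nonempty S] [MeasurableSpace S]
    [DiscreteMeasurableSpace S] {e : S → S} (he : Function.Injective e) :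
    MeasurePreserving e (ProbabilityTheory.uniformOn (univ : Set S))
      (ProbabilityTheory.uniformOn (univ : Set S)) := by
  have hb : Function.Bijective e := Finite.injective_iff_bijective.1 he
  have h1 : (ProbabilityTheory.uniformOn (univ : Set S)) =
      (Measure.count (univ : Set S))⁻¹ • Measure.count := by
    rw [ProbabilityTheory.uniformOn, ProbabilityTheory.cond, Measure.restrict_univ]
  have h2 : MeasurePreserving e (Measure.count : Measure S) Measure.count := by
    refine ⟨Measurable.of_discrete, ?_⟩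
    ext A hA
    rw [Measure.map_apply Measurable.of_discrete hA]
    have h3 : A = e '' (e ⁻¹' A) := (image_preimage_eq A hb.2).symm
    conv_rhs => rw [h3, Measure.count_injective_image he]
  rw [h1]
  exact h2.smul_measure _

namespace Triangle

variable {T : Triangle} {S : Type} {G : Gluing S}

lemma pm_injective (s : ℂ × ℂ) (n : ℕ) : Function.Injective (T.pm G s n) := by
  induction n with
  | zero => exact Function.injective_id
  | succ n ih => exact (G.inj _).comp ih

lemma trajT_snd_injective (t : ℝ) (p : ℂ × ℂ) :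
    Function.Injective (fun a : S => (T.trajT G t (p, a)).2) := by
  intro a b h
  simp only [trajT] at h
  split_ifs at h
  · exact pm_injective _ _ h
  · exact pm_injective _ _ h

open Classical in
/-- measurable version of the exit side -/
noncomputable def exm (T : Triangle) (s : ℂ × ℂ) : Fin 3 :=
  if T.E 0 s then 0 else if T.E 1 s then 1 else 2

lemma measurable_exm : Measurable T.exm := by
  classical
  exact Measurable.ite (measurableSet_E 0) measurable_const
    (Measurable.ite (measurableSet_E 1) measurable_const measurable_const)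

lemma Good.exm_eq {s : ℂ × ℂ} (h : T.Good s) : T.exm s = T.ex s := by
  have h1 := h.E
  unfold Triangle.exm
  generalize T.ex s = i at h1
  split_ifs with h2 h3
  · rw [Triangle.E.unique T h.adm h1 h2]
  · rw [Triangle.E.unique T h.adm h1 h3]
  · fin_cases i
    · exact absurd h1 h2
    · exact absurd h1 h3
    · rfl

/-- measurable version of the copy after `n` collisions -/
noncomputable def pmm (T : Triangle) (G : Gluing S) : ℕ → (ℂ × ℂ) × S → S
  | 0, z => z.2
  | n + 1, z => G.σ (T.exm (T.hm^[n] z.1)) (pmm T G n z)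

lemma Good.pmm_eq {s : ℂ × ℂ} (h : T.Good s) (a : S) (n : ℕ) :
    T.pmm G n (s, a) = T.pm G s n a := by
  induction n with
  | zero => rfl
  | succ n ih =>
    change G.σ (T.exm (T.hm^[n] s)) (T.pmm G n (s, a)) = G.σ (T.ex (T.sq s n)) (T.pm G s n a)
    rw [ih, h.sq_eq_iterate, (h.sq n).exm_eq]

variable [Finite S] [Nonempty S] [MeasurableSpace S] [DiscreteMeasurableSpace S]

lemma measurable_pmm (n : ℕ) : Measurable (T.pmm G n) := by
  induction n with
  | zero => exact measurable_snd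
  | succ n ih =>
    have h1 : Measurable (fun w : Fin 3 × S => G.σ w.1 w.2) := by
      exact measurable_from_prod_countable_right fun i => Measurable.of_discrete
    have h2 : Measurable (fun z : (ℂ × ℂ) × S => T.exm (T.hm^[n] z.1)) :=
      measurable_exm.comp ((measurable_hm.iterate n).comp measurable_fst)
    exact h1.comp (h2.prodMk ih)

lemma exists_measurable_fwT (T : Triangle) (G : Gluing S) :
    ∃ F : ℝ × ((ℂ × ℂ) × S) → (ℂ × ℂ) × S, Measurable F ∧
      ∀ s a t, T.Good s → 0 ≤ t → F (t, (s, a)) = T.fwT G s a t := by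
  classical
  let p : ℕ → ℝ × ((ℂ × ℂ) × S) → Prop := fun n z =>
    z.1 < T.tm' (n + 1) z.2.1 ∨ ∀ m, T.tm' (m + 1) z.2.1 ≤ z.1
  let f : ℕ → ℝ × ((ℂ × ℂ) × S) → (ℂ × ℂ) × S := fun n z =>
    (((T.hm^[n] z.2.1).1 + (z.1 - T.tm' n z.2.1) • (T.hm^[n] z.2.1).2, (T.hm^[n] z.2.1).2),
      T.pmm G n z.2)
  have m21 : Measurable (fun z : ℝ × ((ℂ × ℂ) × S) => z.2.1) := measurable_fst.comp measurable_snd
  have hp : ∀ n, MeasurableSet {z | p n z} := by
    intro n
    have h1 : MeasurableSet {z : ℝ × ((ℂ × ℂ) × S) | z.1 < T.tm' (n + 1) z.2.1} :=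
      measurableSet_lt measurable_fst ((measurable_tm' _).comp m21)
    have h2 : MeasurableSet {z : ℝ × ((ℂ × ℂ) × S) | ∀ m, T.tm' (m + 1) z.2.1 ≤ z.1} := by
      have : {z : ℝ × ((ℂ × ℂ) × S) | ∀ m, T.tm' (m + 1) z.2.1 ≤ z.1} =
          ⋂ m, {z : ℝ × ((ℂ × ℂ) × S) | T.tm' (m + 1) z.2.1 ≤ z.1} := by
        ext z; simp only [mem_ofPred_eq, mem_iInter]
      rw [this]
      exact MeasurableSet.iInter fun m =>
        measurableSet_le ((measurable_tm' _).comp m21) measurable_fst
    exact h1.union h2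
  have hf : ∀ n, Measurable (f n) := by
    intro n
    have h1 : Measurable (fun z : ℝ × ((ℂ × ℂ) × S) => T.hm^[n] z.2.1) :=
      (measurable_hm.iterate n).comp m21
    have h2 : Measurable (fun z : ℝ × ((ℂ × ℂ) × S) => T.tm' n z.2.1) :=
      (measurable_tm' n).comp m21
    exact ((h1.fst.add ((measurable_fst.sub h2).smul h1.snd)).prodMk h1.snd).prodMk
      ((measurable_pmm n).comp measurable_snd)
  have hex : ∀ z, ∃ n, p n z := by
    intro z
    by_cases h : ∃ m, z.1 < T.tm' (m + 1) z.2.1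
    · obtain ⟨m, hm⟩ := h
      exact ⟨m, Or.inl hm⟩
    · refine ⟨0, Or.inr ?_⟩
      intro m
      by_contra hm
      exact h ⟨m, not_le.1 hm⟩
  refine ⟨_, Measurable.find hf hp hex, ?_⟩
  intro s a t hs ht
  obtain ⟨n, h1, h2⟩ := hs.exists_Ico ht
  have hfind : Nat.find (hex (t, (s, a))) = n := by
    rw [Nat.find_eq_iff]
    constructor
    · left
      change t < T.tm' (n + 1) s
      rw [hs.tm'_eq]
      exact h2
    · intro m hm hpm
      rcases hpm with h3 | h3
      · change t < T.tm' (m + 1) s at h3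
        rw [hs.tm'_eq] at h3
        have h4 : T.tt s (m + 1) ≤ T.tt s n := hs.tt_strictMono.monotone (by omega)
        linarith only [h1, h3, h4]
      · have h4 : T.tm' (n + 1) s ≤ t := h3 n
        rw [hs.tm'_eq] at h4
        linarith only [h2, h4]
  change f (Nat.find (hex (t, (s, a)))) (t, (s, a)) = _
  rw [hfind, hs.fwT_eq a h1 h2]
  change (((T.hm^[n] s).1 + (t - T.tm' n s) • (T.hm^[n] s).2, (T.hm^[n] s).2), T.pmm G n (s, a)) = _
  rw [hs.sq_eq_iterate, hs.tm'_eq, hs.pmm_eq]

lemma measurable_flipT : Measurable (flipT : (ℂ × ℂ) × S → (ℂ × ℂ) × S) :=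
  (measurable_flip.comp measurable_fst).prodMk measurable_snd

/-- There is a measurable flow which agrees with `trajT` over a measurable conull set of good
states. -/
lemma exists_measurable_flowT (T : Triangle) (G : Gluing S) :
    ∃ (Gd : Set (ℂ × ℂ)) (Ψ : ℝ → (ℂ × ℂ) × S → (ℂ × ℂ) × S),
    MeasurableSet Gd ∧ (∀ᵐ p ∂T.mu, p ∈ Gd) ∧
    (∀ p ∈ Gd, p.1 ∈ T.table ∧ T.Good p ∧ T.Good (flip p)) ∧
    Measurable (fun w : ℝ × ((ℂ × ℂ) × S) => Ψ w.1 w.2) ∧
    (∀ p ∈ Gd, ∀ a t, Ψ t (p, a) = T.trajT G t (p, a)) := by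
  classical
  have hgood : ∀ᵐ p ∂T.mu, p.1 ∈ T.table ∧ T.Good p ∧ T.Good (flip p) := by
    rw [T.ae_mu_iff]; exact T.ae_good
  obtain ⟨Gd, hG, hGm, hGp⟩ := hgood.exists_measurable_mem
  obtain ⟨F, hF, hFe⟩ := exists_measurable_fwT T G
  refine ⟨Gd, fun t z => if z.1 ∈ Gd then (if 0 ≤ t then F (t, z) else flipT (F (-t, flipT z)))
    else z, hGm, hG, hGp, ?_, ?_⟩
  · refine Measurable.ite (hGm.preimage (measurable_fst.comp measurable_snd)) ?_ measurable_snd
    refine Measurable.ite (measurableSet_le measurable_const measurable_fst) ?_ ?_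
    · exact hF
    · exact measurable_flipT.comp (hF.comp (measurable_fst.neg.prodMk
        (measurable_flipT.comp measurable_snd)))
  · intro p hp a t
    obtain ⟨h1, h2, h3⟩ := hGp p hp
    simp only [if_pos hp, trajT]
    split_ifs with ht
    · exact hFe p a t h2 ht
    · change flipT (F (-t, (flip p, a))) = _
      rw [hFe (flip p) a (-t) h3 (by linarith only [ht])]

/-- The flow of a tiled surface: a measurable, measure preserving version; uniqueness. -/
theorem exists_good_flowT (T : Triangle) (G : Gluing S) :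
    ∃ Ψ : ℝ → (ℂ × ℂ) × S → (ℂ × ℂ) × S, PFlow (T.tiledMu S) Ψ ∧ T.IsTiledFlow G Ψ ∧
      (∀ Φ : ℝ → (ℂ × ℂ) × S → (ℂ × ℂ) × S, T.IsTiledFlow G Φ → ∀ t, Φ t =ᵐ[T.tiledMu S] Ψ t) ∧
      ∀ᵐ z ∂(T.tiledMu S), z.1.1 ∈ T.table ∧ T.Good z.1 ∧ ∀ t, Ψ t z = T.trajT G t z := by
  obtain ⟨Gd, Ψ, hGm, hG, hGp, hΨm, hΨ⟩ := exists_measurable_flowT T G
  obtain ⟨a0⟩ := ‹Nonempty S›
  have : Nonempty S := ⟨a0⟩
  have hU := isProb_unif S
  have hprob : IsProbabilityMeasure T.mu := T.isProbabilityMeasure_mu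
  have hΨtm : ∀ t, Measurable (Ψ t) := fun t =>
    hΨm.comp (measurable_const.prodMk measurable_id)
  -- the base flow
  set Φb : ℝ → ℂ × ℂ → ℂ × ℂ := fun t p => (Ψ t (p, a0)).1 with hΦb
  have hΦbt : ∀ p ∈ Gd, ∀ t, Φb t p = T.traj t p := by
    intro p hp t
    simp only [hΦb]
    rw [hΨ p hp, trajT_fst]
  have hbb : T.IsBilliardFlow Φb := by
    filter_upwards [hG] with p hp
    obtain ⟨h1, h2, h3⟩ := hGp p hp
    refine ⟨?_, ?_⟩
    · simp only [hΦb]
      rw [hΨ p hp, trajT_zero h2]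
    · have : (fun t => Φb t p) = fun t => T.traj t p := funext fun t => hΦbt p hp t
      rw [this]
      exact isTrajectory_traj h1 h2 h3
  obtain ⟨Ψ0, hΨ0, _, hu⟩ := T.exists_good_flow
  have hbm : ∀ t, Measurable (Φb t) := fun t =>
    measurable_fst.comp ((hΨtm t).comp (measurable_id.prodMk measurable_const))
  have hbmp : ∀ t, MeasurePreserving (Φb t) T.mu T.mu := fun t =>
    ⟨hbm t, by rw [Measure.map_congr (hu Φb hbb t)]; exact (hΨ0.mp t).map_eq⟩
  have hGz : ∀ᵐ z ∂(T.tiledMu S), z.1 ∈ Gd :=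
    Measure.quasiMeasurePreserving_fst.ae hG
  -- measure preservation
  have hmp : ∀ t, MeasurePreserving (Ψ t) (T.tiledMu S) (T.tiledMu S) := by
    intro t
    have h1 : MeasurePreserving (fun z : (ℂ × ℂ) × S => (Φb t z.1, (Ψ t (z.1, z.2)).2))
        (T.tiledMu S) (T.tiledMu S) := by
      refine (hbmp t).skew_product (g := fun p a => (Ψ t (p, a)).2) ?_ ?_
      · exact measurable_snd.comp (hΨtm t)
      · filter_upwards [hG] with p hp
        refine (unif_mp (S := S) ?_).map_eq
        intro a b hab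
        simp only [hΨ p hp] at hab
        exact trajT_snd_injective t p hab
    refine ⟨hΨtm t, ?_⟩
    have h2 : Ψ t =ᵐ[T.tiledMu S] fun z : (ℂ × ℂ) × S => (Φb t z.1, (Ψ t (z.1, z.2)).2) := by
      filter_upwards [hGz] with z hz
      refine Prod.ext ?_ rfl
      simp only [hΦb]
      have e1 : Ψ t z = T.trajT G t z := hΨ z.1 hz z.2 t
      rw [hΨ z.1 hz a0 t, e1, trajT_fst, trajT_fst]
    rw [Measure.map_congr h2]
    exact h1.map_eq
  have hmemT : ∀ᵐ z ∂(T.tiledMu S), z.1.1 ∈ T.table :=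
    Measure.quasiMeasurePreserving_fst.ae T.ae_mem_table
  have htab : ∀ t, ∀ᵐ z ∂(T.tiledMu S), (Ψ t z).1.1 ∈ T.table := fun t =>
    (hmp t).quasiMeasurePreserving.ae hmemT
  have htraj : ∀ z : (ℂ × ℂ) × S, z.1 ∈ Gd → T.IsTiledTrajectory G (fun t => Ψ t z) := by
    intro z hz
    obtain ⟨h1, h2, h3⟩ := hGp _ hz
    have h4 : (fun t => Ψ t z) = fun t => T.trajT G t z := funext fun t => hΨ z.1 hz z.2 t
    rw [h4]
    exact isTiledTrajectory_trajT h1 h2 h3
  have hzero : ∀ z : (ℂ × ℂ) × S, z.1 ∈ Gd → Ψ 0 z = z := by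
    intro z hz
    have e1 : Ψ 0 z = T.trajT G 0 z := hΨ z.1 hz z.2 0
    rw [e1, trajT_zero (hGp _ hz).2.1]
  refine ⟨Ψ, ⟨hΨm, hmp, ?_, ?_⟩, ?_, ?_, ?_⟩
  · intro s t
    have h1 : ∀ᵐ z ∂(T.tiledMu S), (Ψ t z).1 ∈ Gd := (hmp t).quasiMeasurePreserving.ae hGz
    have h2 : ∀ᵐ z ∂(T.tiledMu S), (Ψ s (Ψ t z)).1.1 ∈ T.table :=
      (hmp t).quasiMeasurePreserving.ae (htab s)
    filter_upwards [hGz, h1, h2] with z hz hq h3
    have h4 := (htraj z hz).shift t
    have h5 := htraj _ hq
    have h6 : (Ψ 0 (Ψ t z)).1.1 ∈ T.table := by rw [hzero _ hq]; exact (hGp _ hq).1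
    have h7 : Ψ 0 (Ψ t z) = Ψ (0 + t) z := by rw [hzero _ hq, zero_add]
    exact (IsTiledTrajectory.same h5 h4 (a := 0) h6 h7 (t := s) h3).symm
  · filter_upwards [hGz] with z hz
    exact hzero z hz
  · filter_upwards [hGz] with z hz
    exact ⟨hzero z hz, htraj z hz⟩
  · intro Φ hΦ t
    filter_upwards [hΦ, hGz, htab t] with z h1 hz h3
    have h6 : (Ψ 0 z).1.1 ∈ T.table := by rw [hzero _ hz]; exact (hGp _ hz).1
    have h7 : Ψ 0 z = Φ 0 z := by rw [hzero _ hz, h1.1]
    exact (IsTiledTrajectory.same (htraj z hz) h1.2 (a := 0) h6 h7 (t := t) h3).symm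
  · filter_upwards [hGz] with z hz
    exact ⟨(hGp _ hz).1, (hGp _ hz).2.1, fun t => hΨ z.1 hz z.2 t⟩

end Triangle
end Vale.Agent.P099
end
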