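import Vale.Agent.P099.H172.TwD
import Vale.Agent.P099.H172.TwF
attribute [-instance] ProperSMul.toContinuousSMul IsTopologicalTorsor.toContinuousSMul IdemSemiring.toCanonicallyOrderedAdd IdemSemiring.toMulLeftMono IdemSemiring.toMulRightMono AddQuantale.instAddLeftMono AddQuantale.instAddRightMono Quantale.instMulLeftMono Quantale.instMulRightMono FiniteDimensional.rclike_to_real IsScalarTower.complexToReal FiniteDimensional.complexToReal
set_option linter.all false

section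
open MeasureTheory Set Filter Topology
namespace Vale.Agent.P099

/-- an injective self map of a finite set has finite order -/
lemma exists_iterate_eq {S : Type} [Finite S] {f : S → S} (hf : Function.Injective f) :
    ∃ N : ℕ, 0 < N ∧ ∀ a, f^[N] a = a := by
  have hb : Function.Bijective f := Finite.injective_iff_bijective.1 hf
  set e : Equiv.Perm S := Equiv.ofBijective f hb with he
  refine ⟨orderOf e, orderOf_pos e, fun a => ?_⟩
  have h1 : ∀ n : ℕ, ∀ a, (e ^ n) a = f^[n] a := by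
    intro n
    induction n with
    | zero => intro a; rfl
    | succ n ih =>
      intro a
      rw [pow_succ, Equiv.Perm.mul_apply, ih, Function.iterate_succ_apply]
      rfl
  rw [← h1, pow_orderOf_eq_one]
  rfl

namespace Triangle

variable {T : Triangle} {S : Type} {G : Gluing S}
variable [Finite S] [Nonempty S] [MeasurableSpace S] [DiscreteMeasurableSpace S]

lemma isProb_tiledMu (T : Triangle) (S : Type) [Finite S] [Nonempty S] [MeasurableSpace S]
    [DiscreteMeasurableSpace S] : IsProbabilityMeasure (T.tiledMu S) := by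
  have hU := isProb_unif S
  have hprob : IsProbabilityMeasure T.mu := T.isProbabilityMeasure_mu
  unfold tiledMu
  infer_instance

/-- bounded measurable functions invariant under the product of the tiled flow with a measure
preserving flow only depend on the second coordinate -/
theorem tiled_relative (hT : T.IsIrrational) {Φ : ℝ → (ℂ × ℂ) × S → (ℂ × ℂ) × S}
    (hb : T.IsTiledFlow G Φ) {Ω : Type} [MeasurableSpace Ω] {m : Measure Ω}
    [IsProbabilityMeasure m] {Ψ : ℝ → Ω → Ω} (hΨ : PFlow m Ψ)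
    {I : ((ℂ × ℂ) × S) × Ω → ℝ} (mI : Measurable I) (bI : ∃ C, ∀ z, |I z| ≤ C)
    (hinv : ∀ t, ∀ᵐ z ∂((T.tiledMu S).prod m), I (Φ t z.1, Ψ t z.2) = I z) :
    ∃ g : Ω → ℝ, Measurable g ∧ (∃ C, ∀ q, |g q| ≤ C) ∧ (∀ s, ∀ᵐ q ∂m, g (Ψ s q) = g q) ∧
      ∀ᵐ z ∂((T.tiledMu S).prod m), I z = g z.2 := by
  have hU := isProb_unif S
  have hprob : IsProbabilityMeasure T.mu := T.isProbabilityMeasure_mu
  have hprobT : IsProbabilityMeasure (T.tiledMu S) := isProb_tiledMu T S
  set U : Measure S := ProbabilityTheory.uniformOn univ with hUdef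
  set m2 : Measure (S × Ω) := U.prod m with hm2
  -- the data on `S × Ω`
  let ς : Fin 3 → S × Ω → S × Ω := fun i w => (G.σ i w.1, w.2)
  let Ψ2 : ℝ → S × Ω → S × Ω := fun t w => (w.1, Ψ t w.2)
  have i1 : TwInv ς := ⟨fun i => (Measurable.of_discrete.comp measurable_fst).prodMk measurable_snd,
    fun i q => Prod.ext (G.invol i _) rfl⟩
  have i2 : TwMP m2 ς := ⟨fun i => (unif_mp (G.inj i)).prod (MeasurePreserving.id m)⟩
  have i3 : TwCom Ψ2 ς := ⟨fun t i q => rfl⟩
  have hΨ2 : PFlow m2 Ψ2 := by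
    refine ⟨?_, fun t => (MeasurePreserving.id U).prod (hΨ.mp t), fun s t => ?_, ?_⟩
    · exact (measurable_fst.comp measurable_snd).prodMk
        (hΨ.meas.comp (measurable_fst.prodMk (measurable_snd.comp measurable_snd)))
    · have h1 : ∀ᵐ w ∂(U.prod m), Ψ (s + t) w.2 = Ψ s (Ψ t w.2) :=
        Measure.quasiMeasurePreserving_snd.ae (hΨ.add s t)
      filter_upwards [h1] with w hw
      exact Prod.ext rfl hw
    · have h1 : ∀ᵐ w ∂(U.prod m), Ψ 0 w.2 = w.2 :=
        Measure.quasiMeasurePreserving_snd.ae hΨ.zero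
      filter_upwards [h1] with w hw
      exact Prod.ext rfl hw
  have hfin : ∀ i j : Fin 3, ∃ N : ℕ, 0 < N ∧ ∀ q, (fun q => ς i (ς j q))^[N] q = q := by
    intro i j
    obtain ⟨N, hN, h1⟩ := exists_iterate_eq ((G.inj i).comp (G.inj j))
    refine ⟨N, hN, fun q => ?_⟩
    have h2 : ∀ n : ℕ, ∀ q : S × Ω, (fun q => ς i (ς j q))^[n] q =
        ((G.σ i ∘ G.σ j)^[n] q.1, q.2) := by
      intro n
      induction n with
      | zero => intro q; rfl
      | succ n ih =>
        intro q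
        rw [Function.iterate_succ_apply, ih, Function.iterate_succ_apply]
        rfl
    rw [h2, h1]
  -- the function
  set H : ℂ → ℂ × (S × Ω) → ℝ := fun x ω => I (((x, ω.1), ω.2.1), ω.2.2) with hH0
  have hH : Bdd H := by
    refine ⟨?_, ?_⟩
    · exact mI.comp (by fun_prop)
    · obtain ⟨C, hC⟩ := bI
      exact ⟨C, fun y ω => hC _⟩
  -- transfer of almost everywhere statements
  have tr : ∀ {P : ((ℂ × ℂ) × S) × Ω → Prop}, (∀ᵐ z ∂((T.tiledMu S).prod m), P z) →
      ∀ᵐ p ∂((volume.restrict T.table).prod (nu.prod m2)),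
        P (((p.1, p.2.1), p.2.2.1), p.2.2.2) := by
    intro P hP
    have h1 := measurePreserving_prodAssoc T.mu U m
    have h2 : ∀ᵐ w ∂(T.mu.prod m2), P ((w.1, w.2.1), w.2.2) :=
      (h1.symm _).quasiMeasurePreserving.ae hP
    exact T.ae_prod_mu_iff.mp h2
  have tr' : ∀ {P : ((ℂ × ℂ) × S) × Ω → Prop},
      (∀ᵐ p ∂((volume.restrict T.table).prod (nu.prod m2)),
        P (((p.1, p.2.1), p.2.2.1), p.2.2.2)) → ∀ᵐ z ∂((T.tiledMu S).prod m), P z := by
    intro P hP
    have h1 := measurePreserving_prodAssoc T.mu U m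
    have h2 : ∀ᵐ w ∂(T.mu.prod m2), P ((w.1, w.2.1), w.2.2) := by
      rw [T.ae_prod_mu_iff]
      exact hP
    exact h1.quasiMeasurePreserving.ae h2
  obtain ⟨Ψ1, _, _, hu, hgood⟩ := exists_good_flowT T G
  have hgood' : ∀ᵐ z ∂((T.tiledMu S).prod m), z.1.1.1 ∈ T.table ∧ T.Good z.1.1 ∧
      ∀ t, Ψ1 t z.1 = T.trajT G t z.1 := Measure.quasiMeasurePreserving_fst.ae hgood
  have huz : ∀ t, ∀ᵐ z ∂((T.tiledMu S).prod m), Φ t z.1 = Ψ1 t z.1 := fun t =>
    Measure.quasiMeasurePreserving_fst.ae (hu Φ hb t)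
  have hF : T.FreeInv m2 Ψ2 H := by
    intro t ht
    have h1 : ∀ᵐ z ∂((T.tiledMu S).prod m), z.1.1.1 + t • z.1.1.2 ∈ T.table →
        I (((z.1.1.1 + t • z.1.1.2, z.1.1.2), z.1.2), Ψ t z.2) = I z := by
      filter_upwards [hgood', huz t, hinv t] with z hz hz2 hz3 hin
      rw [← hz3, hz2, hz.2.2 t, hz.2.1.trajT_free ht.le hin]
    exact tr h1
  have hB : T.BounceInvS m2 ς Ψ2 H := by
    intro t ht i
    have h1 : ∀ᵐ z ∂((T.tiledMu S).prod m), T.E i z.1.1 → T.hitT i z.1.1 < t →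
        T.R i (z.1.1.1 + t • z.1.1.2) ∈ T.table →
        I (((T.R i (z.1.1.1 + t • z.1.1.2), T.refl i z.1.1.2), G.σ i z.1.2), Ψ t z.2) = I z := by
      filter_upwards [hgood', huz t, hinv t] with z hz hz2 hz3 hE hlt hin
      rw [← hz3, hz2, hz.2.2 t, hz.2.1.trajT_bounce hE hlt hin]
    exact tr h1
  obtain ⟨f, mf, bf, if1, if2, hf⟩ := T.relativeS hΨ2 hfin hT hH hF hB
  -- independence of the copy
  obtain ⟨a0⟩ := ‹Nonempty S›
  have : Nonempty S := ⟨a0⟩
  have sl : ∀ {P : S × Ω → Prop}, MeasurableSet {w | P w} → (∀ᵐ w ∂m2, P w) →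
      ∀ᵐ q ∂m, ∀ a, P (a, q) := by
    intro P hm h
    have h1 : ∀ᵐ a ∂U, ∀ᵐ q ∂m, P (a, q) := Measure.ae_ae_of_ae_prod h
    rw [ae_all_iff]
    intro a
    exact unif_ae h1 a
  have hconst : ∀ᵐ q ∂m, ∀ a, f (a, q) = f (a0, q) := by
    have h1 : ∀ᵐ q ∂m, ∀ i, ∀ a, f (G.σ i a, q) = f (a, q) := by
      rw [ae_all_iff]
      intro i
      exact sl (P := fun w => f (G.σ i w.1, w.2) = f w)
        (measurableSet_eq_fun (mf.comp (TwInv.meas (ς := ς) i)) mf) (if2 i)
    filter_upwards [h1] with q hq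
    have h2 := G.connected {a | f (a, q) = f (a0, q)} ⟨a0, rfl⟩ (fun i s hs => by
      simp only [mem_ofPred_eq] at hs ⊢
      rw [hq i s, hs])
    intro a
    have h3 : a ∈ {a | f (a, q) = f (a0, q)} := by rw [h2]; trivial
    exact h3
  have mg : Measurable (fun q => f (a0, q)) := mf.comp (measurable_const.prodMk measurable_id)
  refine ⟨fun q => f (a0, q), mg, ?_, ?_, ?_⟩
  · obtain ⟨C, hC⟩ := bf
    exact ⟨C, fun q => hC _⟩
  · intro s
    have h1 := sl (P := fun w => f (Ψ2 s w) = f w)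
      (measurableSet_eq_fun (mf.comp (hΨ2.mp s).measurable) mf) (if1 s)
    filter_upwards [h1] with q hq
    exact hq a0
  · apply tr'
    have h1 : ∀ᵐ p ∂((volume.restrict T.table).prod (nu.prod m2)),
        ∀ a, f (a, p.2.2.2) = f (a0, p.2.2.2) := by
      have h2 : ∀ᵐ w ∂m2, ∀ a, f (a, w.2) = f (a0, w.2) :=
        Measure.quasiMeasurePreserving_snd.ae hconst
      have h3 : ∀ᵐ w ∂(nu.prod m2), ∀ a, f (a, w.2.2) = f (a0, w.2.2) :=
        Measure.quasiMeasurePreserving_snd.ae h2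
      exact Measure.quasiMeasurePreserving_snd.ae h3
    filter_upwards [hf, h1] with p h2 h3
    rw [← h3 p.2.2.1]
    exact h2

/-- Ergodicity of the flow of a tiled surface. -/
theorem tiled_ergodic (hT : T.IsIrrational) {Φ : ℝ → (ℂ × ℂ) × S → (ℂ × ℂ) × S}
    (hb : T.IsTiledFlow G Φ) : FlowErgodic (T.tiledMu S) Φ := by
  intro A hA hinv
  have hprobT : IsProbabilityMeasure (T.tiledMu S) := isProb_tiledMu T S
  have h1 : ∀ t, ∀ᵐ z ∂((T.tiledMu S).prod (Measure.dirac ())),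
      (Prod.fst ⁻¹' A).indicator (fun _ => (1 : ℝ)) ((Φ t z.1, z.2) : ((ℂ × ℂ) × S) × Unit) =
        (Prod.fst ⁻¹' A).indicator (fun _ => (1 : ℝ)) z := by
    intro t
    have h2 : ∀ᵐ z ∂((T.tiledMu S).prod (Measure.dirac ())), (Φ t z.1 ∈ A ↔ z.1 ∈ A) :=
      Measure.quasiMeasurePreserving_fst.ae (ae_iff_of_symmDiff (hinv t))
    filter_upwards [h2] with z hz
    by_cases hA' : z.1 ∈ A
    · rw [indicator_of_mem (show z ∈ Prod.fst ⁻¹' A from hA'), indicator_of_mem]
      exact hz.mpr hA'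
    · rw [indicator_of_notMem (show z ∉ Prod.fst ⁻¹' A from hA'), indicator_of_notMem]
      exact fun h => hA' (hz.mp h)
  obtain ⟨g, _, _, _, hg⟩ := tiled_relative hT hb pflow_unit
    (I := (Prod.fst ⁻¹' A).indicator (fun _ => (1 : ℝ)))
    (measurable_const.indicator (hA.preimage measurable_fst)) ⟨1, fun z => by
      by_cases hp : z ∈ Prod.fst ⁻¹' A
      · rw [indicator_of_mem hp, abs_one]
      · rw [indicator_of_notMem hp, abs_zero]; exact zero_le_one⟩ h1
  have h3 : ∀ᵐ z ∂(T.tiledMu S), A.indicator (fun _ => (1 : ℝ)) z = g () := by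
    have h4 := Measure.ae_ae_of_ae_prod hg
    filter_upwards [h4] with z hz
    rw [ae_dirac_iff] at hz
    · rw [← hz]
      rfl
    · exact MeasurableSpace.measurableSet_top
  exact zero_one_of_indicator hA h3

/-- The product of the flow of a tiled surface with an ergodic flow is ergodic. -/
theorem tiled_prod_ergodic (hT : T.IsIrrational) {Φ : ℝ → (ℂ × ℂ) × S → (ℂ × ℂ) × S}
    (hb : T.IsTiledFlow G Φ) {Ω : Type} [MeasurableSpace Ω] {m : Measure Ω}
    [IsProbabilityMeasure m] {Ψ : ℝ → Ω → Ω} (hΨ : PFlow m Ψ)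
    (he : ∀ g : Ω → ℝ, Measurable g → (∃ C, ∀ q, |g q| ≤ C) → (∀ s, ∀ᵐ q ∂m, g (Ψ s q) = g q) →
      ∃ c, ∀ᵐ q ∂m, g q = c) :
    FlowErgodic ((T.tiledMu S).prod m) (fun t z => (Φ t z.1, Ψ t z.2)) := by
  intro A hA hinv
  have hprobT : IsProbabilityMeasure (T.tiledMu S) := isProb_tiledMu T S
  obtain ⟨g, mg, bg, ig, hg⟩ := tiled_relative hT hb hΨ
    (I := A.indicator (fun _ => (1 : ℝ)))
    (measurable_const.indicator hA) ⟨1, fun z => by
      by_cases hp : z ∈ A
      · rw [indicator_of_mem hp, abs_one]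
      · rw [indicator_of_notMem hp, abs_zero]; exact zero_le_one⟩ (by
      intro t
      filter_upwards [ae_iff_of_symmDiff (hinv t)] with z hz
      have hz' : (Φ t z.1, Ψ t z.2) ∈ A ↔ z ∈ A := hz
      by_cases hA' : z ∈ A
      · rw [indicator_of_mem hA', indicator_of_mem (hz'.mpr hA')]
      · rw [indicator_of_notMem hA', indicator_of_notMem (fun h => hA' (hz'.mp h))])
  obtain ⟨c, hc⟩ := he g mg bg ig
  have h5 : ∀ᵐ z ∂((T.tiledMu S).prod m), g z.2 = c := Measure.quasiMeasurePreserving_snd.ae hc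
  have h3 : ∀ᵐ z ∂((T.tiledMu S).prod m), A.indicator (fun _ => (1 : ℝ)) z = c := by
    filter_upwards [hg, h5] with z h6 h7
    rw [h6, h7]
  exact zero_one_of_indicator hA h3

end Triangle
end Vale.Agent.P099
end
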