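import Vale.Agent.P099.H172.TwG
import Vale.Agent.P099.H819.Main
attribute [-instance] ProperSMul.toContinuousSMul IsTopologicalTorsor.toContinuousSMul IdemSemiring.toCanonicallyOrderedAdd IdemSemiring.toMulLeftMono IdemSemiring.toMulRightMono AddQuantale.instAddLeftMono AddQuantale.instAddRightMono Quantale.instMulLeftMono Quantale.instMulRightMono FiniteDimensional.rclike_to_real IsScalarTower.complexToReal FiniteDimensional.complexToReal
set_option linter.all false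

section
open MeasureTheory Set Filter Topology
namespace Vale.Agent.P099

open WM4

/-- a common order for all injective self maps of a finite set -/
lemma exists_uniform_order (S : Type) [Finite S] :
    ∃ N : ℕ, 0 < N ∧ ∀ f : S → S, Function.Injective f → ∀ a, f^[N] a = a := by
  refine ⟨Nat.card (Equiv.Perm S), Nat.card_pos, fun f hf a => ?_⟩
  have hb : Function.Bijective f := Finite.injective_iff_bijective.1 hf
  set e : Equiv.Perm S := Equiv.ofBijective f hb with he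
  have h1 : ∀ n : ℕ, ∀ a, (e ^ n) a = f^[n] a := by
    intro n
    induction n with
    | zero => intro a; rfl
    | succ n ih =>
      intro a
      rw [pow_succ, Equiv.Perm.mul_apply, ih, Function.iterate_succ_apply]
      rfl
  rw [← h1, pow_card_eq_one']
  rfl

variable {S : Type} [Finite S] [Nonempty S] [MeasurableSpace S] [DiscreteMeasurableSpace S]
variable {Ω : Type} [MeasurableSpace Ω]

/-- the uniform distribution -/
noncomputable def un (S : Type) [MeasurableSpace S] : Measure S :=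
  ProbabilityTheory.uniformOn (univ : Set S)

instance : IsProbabilityMeasure (un S) := isProb_unif S

/-- the relation `F (A u, (π a, Ψ (s u) q)) = F (u, (a, q))` -/
def RelS (m : Measure Ω) (Ψ : ℝ → Ω → Ω) (F : ℂ × (S × Ω) → ℝ) (A : ℂ → ℂ) (π : S → S)
    (s : ℂ → ℝ) : Prop :=
  ∀ᵐ ω ∂(nu.prod ((un S).prod m)), F (A ω.1, (π ω.2.1, Ψ (s ω.1) ω.2.2)) = F ω

/-- the flow on `S × Ω` -/
def fl2 (S : Type) (Ψ : ℝ → Ω → Ω) (t : ℝ) (w : S × Ω) : S × Ω := (w.1, Ψ t w.2)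

lemma pflow_fl2 {m : Measure Ω} [IsProbabilityMeasure m] {Ψ : ℝ → Ω → Ω} (hΨ : PFlow m Ψ) :
    PFlow ((un S).prod m) (fl2 S Ψ) := by
  refine ⟨?_, fun t => (MeasurePreserving.id (un S)).prod (hΨ.mp t), fun s t => ?_, ?_⟩
  · exact (measurable_fst.comp measurable_snd).prodMk
      (hΨ.meas.comp (measurable_fst.prodMk (measurable_snd.comp measurable_snd)))
  · have h1 : ∀ᵐ w ∂((un S).prod m), Ψ (s + t) w.2 = Ψ s (Ψ t w.2) :=
      Measure.quasiMeasurePreserving_snd.ae (hΨ.add s t)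
    filter_upwards [h1] with w hw
    exact Prod.ext rfl hw
  · have h1 : ∀ᵐ w ∂((un S).prod m), Ψ 0 w.2 = w.2 :=
      Measure.quasiMeasurePreserving_snd.ae hΨ.zero
    filter_upwards [h1] with w hw
    exact Prod.ext rfl hw

lemma mp_J {m : Measure Ω} [IsProbabilityMeasure m] {Ψ : ℝ → Ω → Ω} (hΨ : PFlow m Ψ)
    {A : ℂ → ℂ} (hA : MeasurePreserving A nu nu) {π : S → S} (hπ : Function.Injective π)
    {s : ℂ → ℝ} (hs : Measurable s) :
    MeasurePreserving (fun ω : ℂ × (S × Ω) => (A ω.1, (π ω.2.1, Ψ (s ω.1) ω.2.2)))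
      (nu.prod ((un S).prod m)) (nu.prod ((un S).prod m)) := by
  have h1 := mp_shear (pflow_fl2 (S := S) hΨ) hA hs
  have h2 : MeasurePreserving (fun ω : ℂ × (S × Ω) => (ω.1, (π ω.2.1, ω.2.2)))
      (nu.prod ((un S).prod m)) (nu.prod ((un S).prod m)) :=
    (MeasurePreserving.id nu).prod ((unif_mp hπ).prod (MeasurePreserving.id m))
  exact h2.comp h1

lemma RelS.comp {m : Measure Ω} [IsProbabilityMeasure m] {Ψ : ℝ → Ω → Ω} (hΨ : PFlow m Ψ)
    {F : ℂ × (S × Ω) → ℝ} (hF : Measurable F) {A B : ℂ → ℂ} (hA : MeasurePreserving A nu nu)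
    (hB : Measurable B) {π ρ : S → S} (hπ : Function.Injective π)
    {s t : ℂ → ℝ} (hs : Measurable s) (ht : Measurable t)
    (h1 : RelS m Ψ F A π s) (h2 : RelS m Ψ F B ρ t) :
    RelS m Ψ F (fun u => B (A u)) (fun a => ρ (π a)) (fun u => t (A u) + s u) := by
  have h3 := (mp_J (S := S) hΨ hA hπ hs).quasiMeasurePreserving.ae h2
  have hρ : Measurable (fun w : S × Ω => (ρ (π w.1), w.2)) :=
    ((Measurable.of_discrete (f := fun c : S => ρ (π c))).comp measurable_fst).prodMk measurable_snd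
  have h4 := ae_add_shift (pflow_fl2 (S := S) hΨ)
    (F := fun ω : ℂ × (S × Ω) => F (ω.1, (ρ (π ω.2.1), ω.2.2)))
    (hF.comp (measurable_fst.prodMk (hρ.comp measurable_snd)))
    (A := fun u => B (A u)) (hB.comp hA.measurable)
    (s := fun u => t (A u)) (ht.comp hA.measurable) hs
  have h1' : ∀ᵐ ω ∂(nu.prod ((un S).prod m)), F (A ω.1, (π ω.2.1, Ψ (s ω.1) ω.2.2)) = F ω := h1
  filter_upwards [h1', h3, h4] with ω g1 g2 g3
  have g3' : F (B (A ω.1), (ρ (π ω.2.1), Ψ (t (A ω.1) + s ω.1) ω.2.2)) =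
      F (B (A ω.1), (ρ (π ω.2.1), Ψ (t (A ω.1)) (Ψ (s ω.1) ω.2.2))) := g3
  rw [g3']
  exact g2.trans g1

lemma RelS.congr {m : Measure Ω} {Ψ : ℝ → Ω → Ω} {F : ℂ × (S × Ω) → ℝ} {A B : ℂ → ℂ}
    {π ρ : S → S} {s t : ℂ → ℝ} (h1 : RelS m Ψ F A π s)
    (hAB : ∀ u, A u = B u) (hπ : ∀ a, π a = ρ a) (hst : ∀ u, s u = t u) : RelS m Ψ F B ρ t := by
  have : A = B := funext hAB
  subst this
  have : π = ρ := funext hπ
  subst this
  have : s = t := funext hst
  subst this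
  exact h1

lemma RelS.iter {m : Measure Ω} [IsProbabilityMeasure m] {Ψ : ℝ → Ω → Ω} (hΨ : PFlow m Ψ)
    {F : ℂ × (S × Ω) → ℝ} (hF : Measurable F) {π : S → S} (hπ : Function.Injective π)
    {s : ℂ → ℝ} (hs : Measurable s) (h : RelS m Ψ F (fun u => u) π s) (n : ℕ) :
    RelS m Ψ F (fun u => u) (π^[n]) (fun u => (n : ℝ) * s u) := by
  induction n with
  | zero =>
    have hz : ∀ᵐ ω ∂(nu.prod ((un S).prod m)), Ψ 0 ω.2.2 = ω.2.2 :=
      Measure.quasiMeasurePreserving_snd.ae (Measure.quasiMeasurePreserving_snd.ae hΨ.zero)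
    show ∀ᵐ ω ∂(nu.prod ((un S).prod m)), F (ω.1, ((π^[0]) ω.2.1, Ψ (((0:ℕ) : ℝ) * s ω.1) ω.2.2)) = F ω
    filter_upwards [hz] with ω hω
    rw [Nat.cast_zero, zero_mul, hω]
    rfl
  | succ n ih =>
    have h1 := RelS.comp hΨ hF (MeasurePreserving.id nu) measurable_id hπ hs
      (measurable_const.mul hs) h ih
    refine h1.congr (fun u => rfl) (fun a => ?_) (fun u => ?_)
    · rw [Function.iterate_succ_apply]
    · show (n : ℝ) * s u + s u = ((n + 1 : ℕ) : ℝ) * s u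
      push_cast; ring

namespace Triangle

variable (T : Triangle) (G : Gluing S)

/-- The straightened invariant function is invariant under all times. -/
theorem all_times_of_relS {m : Measure Ω} [IsProbabilityMeasure m] {Ψ : ℝ → Ω → Ω}
    (hΨ : PFlow m Ψ) {F : ℂ × (S × Ω) → ℝ} (hFm : Measurable F) {C : ℝ} (hC : ∀ ω, |F ω| ≤ C)
    {k : Fin 3} (hk1 : T.rot k ≠ 1) (hk2 : T.rot k ≠ -1)
    (hR : ∀ i, RelS m Ψ F (T.refl i) (G.σ i) (fun u => dt (T.R i (T.P k) - T.P k) u)) :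
    ∀ᵐ u ∂nu, ∀ s : ℝ, ∀ᵐ w ∂((un S).prod m), F (u, (w.1, Ψ s w.2)) = F (u, w) := by
  set v : ℂ := T.R k (T.P k) - T.P k with hv
  have hv0 : v ≠ 0 := T.R_P_ne k
  set a : ℂ := T.rot k with ha
  set b : ℂ := T.rot (k + 2) with hb
  have hna : ‖a‖ = 1 := T.norm_rot k
  have hnb : ‖b‖ = 1 := T.norm_rot (k + 2)
  have ha0 : a ≠ 0 := by intro h; rw [h, norm_zero] at hna; exact zero_ne_one hna
  have hb0 : b ≠ 0 := by intro h; rw [h, norm_zero] at hnb; exact zero_ne_one hnb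
  have hnai : ‖a⁻¹‖ = 1 := by rw [norm_inv, hna, inv_one]
  have hnbi : ‖b⁻¹‖ = 1 := by rw [norm_inv, hnb, inv_one]
  have hf1 : ∀ i : Fin 3, i + 1 ≠ i := by decide
  have hf2 : ∀ i : Fin 3, i + 2 ≠ i := by decide
  have e1 : ∀ i : Fin 3, i + 2 + 2 = i + 1 := by decide
  have e2 : ∀ i : Fin 3, i + 2 + 1 = i := by decide
  have mdt : ∀ w : ℂ, Measurable fun u : ℂ => dt w u := fun w =>
    measurable_dt.comp (measurable_const.prodMk measurable_id)
  have m0 : Measurable fun _ : ℂ => (0:ℝ) := measurable_const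
  have mre : ∀ i, Measurable (T.refl i) := fun i => (T.continuous_refl i).measurable
  have mpr := T.measurePreserving_refl
  have gi := G.inj
  have r1 : RelS m Ψ F (T.refl (k + 1)) (G.σ (k + 1)) (fun _ => 0) :=
    (hR (k + 1)).congr (fun _ => rfl) (fun _ => rfl) (fun u => by
      rw [T.R_P_other (k + 1) k (hf1 k), sub_self]; simp [dt])
  have r2 : RelS m Ψ F (T.refl (k + 2)) (G.σ (k + 2)) (fun _ => 0) :=
    (hR (k + 2)).congr (fun _ => rfl) (fun _ => rfl) (fun u => by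
      rw [T.R_P_other (k + 2) k (hf2 k), sub_self]; simp [dt])
  have r3 : RelS m Ψ F (T.refl k) (G.σ k) (fun u => dt v u) := hR k
  -- the permutations
  let pα : S → S := fun c => G.σ (k + 2) (G.σ (k + 1) c)
  let pα' : S → S := fun c => G.σ (k + 1) (G.σ (k + 2) c)
  let pβ : S → S := fun c => G.σ (k + 1) (G.σ k c)
  let pβ' : S → S := fun c => G.σ k (G.σ (k + 1) c)
  have iα : Function.Injective pα := (gi (k + 2)).comp (gi (k + 1))
  have iα' : Function.Injective pα' := (gi (k + 1)).comp (gi (k + 2))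
  have iβ : Function.Injective pβ := (gi (k + 1)).comp (gi k)
  have iβ' : Function.Injective pβ' := (gi k).comp (gi (k + 1))
  -- the four rotations
  have hα : RelS m Ψ F (fun u => a * u) pα (fun _ => 0) :=
    (r1.comp hΨ hFm (mpr (k + 1)) (mre (k + 2)) (gi _) m0 m0 r2).congr
      (fun u => T.refl_refl_eq_rot k u) (fun _ => rfl) (fun u => by simp)
  have hα' : RelS m Ψ F (fun u => a⁻¹ * u) pα' (fun _ => 0) :=
    (r2.comp hΨ hFm (mpr (k + 2)) (mre (k + 1)) (gi _) m0 m0 r1).congr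
      (fun u => T.refl_refl_eq_rot_inv k u) (fun _ => rfl) (fun u => by simp)
  have hβ : RelS m Ψ F (fun u => b * u) pβ (fun u => dt v u) := by
    refine (r3.comp hΨ hFm (mpr k) (mre (k + 1)) (gi _) (mdt v) m0 r1).congr (fun u => ?_)
      (fun _ => rfl) (fun u => by simp)
    have := T.refl_refl_eq_rot (k + 2) u
    rw [e1, e2] at this
    exact this
  have hβ' : RelS m Ψ F (fun u => b⁻¹ * u) pβ' (fun u => - dt (b * v) u) := by
    have h4 : ∀ u, T.refl k (T.refl (k + 1) u) = b⁻¹ * u := by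
      intro u
      have := T.refl_refl_eq_rot_inv (k + 2) u
      rw [e1, e2] at this
      exact this
    refine (r1.comp hΨ hFm (mpr (k + 1)) (mre k) (gi _) m0 (mdt v) r3).congr h4 (fun _ => rfl)
      (fun u => ?_)
    have h5 : dt v (T.refl k (T.refl (k + 1) u)) = - dt v (T.refl (k + 1) u) :=
      T.shift_refl k (T.P k) _
    rw [h4, dt_mul_unit hnbi, inv_inv] at h5
    linarith
  -- the commutator
  set τ : ℂ := b * (a * v) - b * v with hτ
  have hτ0 : τ ≠ 0 := by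
    have : τ = b * v * (a - 1) := by rw [hτ]; ring
    rw [this]
    exact mul_ne_zero (mul_ne_zero hb0 hv0) (sub_ne_zero.2 hk1)
  have mpm : ∀ {c : ℂ}, ‖c‖ = 1 → MeasurePreserving (fun u => c * u) nu nu := fun hc =>
    measurePreserving_mul hc
  have mm : ∀ c : ℂ, Measurable (fun u : ℂ => c * u) := fun c => measurable_const_mul c
  have g1 := hβ'.comp hΨ hFm (mpm hnbi) (mm a⁻¹) iβ' ((mdt _).neg) m0 hα'
  have g2 := g1.comp hΨ hFm ((mpm hnai).comp (mpm hnbi)) (mm b) (iα'.comp iβ')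
    (m0.add ((mdt _).neg)) (mdt v) hβ
  have g3 := g2.comp hΨ hFm ((mpm hnb).comp ((mpm hnai).comp (mpm hnbi))) (mm a)
    (iβ.comp (iα'.comp iβ'))
    (((mdt v).comp ((mm a⁻¹).comp (mm b⁻¹))).add (m0.add ((mdt _).neg))) m0 hα
  let pγ : S → S := fun c => pα (pβ (pα' (pβ' c)))
  have iγ : Function.Injective pγ := iα.comp (iβ.comp (iα'.comp iβ'))
  have hγ : RelS m Ψ F (fun u => u) pγ (fun u => dt τ u) := by
    refine g3.congr (fun u => ?_) (fun _ => rfl) (fun u => ?_)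
    · show a * (b * (a⁻¹ * (b⁻¹ * u))) = u
      field_simp
    · show 0 + (dt v (a⁻¹ * (b⁻¹ * u)) + (0 + -dt (b * v) u)) = dt τ u
      rw [dt_mul_unit hnai, dt_mul_unit hnbi, inv_inv, inv_inv, hτ, dt_sub_left]
      ring
  -- its conjugate
  have g4 := hα.comp hΨ hFm (mpm hna) measurable_id iα m0 (mdt τ) hγ
  have g5 := g4.comp hΨ hFm (mpm hna) (mm a⁻¹) (iγ.comp iα) (((mdt τ).comp (mm a)).add m0) m0 hα'
  let pδ : S → S := fun c => pα' (pγ (pα c))
  have iδ : Function.Injective pδ := iα'.comp (iγ.comp iα)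
  have hδ : RelS m Ψ F (fun u => u) pδ (fun u => dt (a⁻¹ * τ) u) := by
    refine g5.congr (fun u => ?_) (fun _ => rfl) (fun u => ?_)
    · show a⁻¹ * (a * u) = u
      field_simp
    · show 0 + (dt τ (a * u) + 0) = dt (a⁻¹ * τ) u
      rw [dt_mul_unit hna]
      ring
  obtain ⟨N, hN, hord⟩ := exists_uniform_order S
  have hγN := hγ.iter hΨ hFm iγ (mdt τ) N
  have hδN := hδ.iter hΨ hFm iδ (mdt (a⁻¹ * τ)) N
  have k1 : ∀ᵐ u ∂nu, ∀ᵐ w ∂((un S).prod m), F (u, (w.1, Ψ ((N:ℝ) * dt τ u) w.2)) = F (u, w) := by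
    have h1 : ∀ᵐ ω ∂(nu.prod ((un S).prod m)),
      F (ω.1, ((pγ^[N]) ω.2.1, Ψ ((N:ℝ) * dt τ ω.1) ω.2.2)) = F ω := hγN
    have h2 : ∀ᵐ ω ∂(nu.prod ((un S).prod m)),
      F (ω.1, (ω.2.1, Ψ ((N:ℝ) * dt τ ω.1) ω.2.2)) = F ω := by
      filter_upwards [h1] with ω hω
      rw [hord _ iγ] at hω
      exact hω
    exact Measure.ae_ae_of_ae_prod h2
  have k2 : ∀ᵐ u ∂nu, ∀ᵐ w ∂((un S).prod m),
      F (u, (w.1, Ψ ((N:ℝ) * dt (a⁻¹ * τ) u) w.2)) = F (u, w) := by
    have h1 : ∀ᵐ ω ∂(nu.prod ((un S).prod m)),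
      F (ω.1, ((pδ^[N]) ω.2.1, Ψ ((N:ℝ) * dt (a⁻¹ * τ) ω.1) ω.2.2)) = F ω := hδN
    have h2 : ∀ᵐ ω ∂(nu.prod ((un S).prod m)),
      F (ω.1, (ω.2.1, Ψ ((N:ℝ) * dt (a⁻¹ * τ) ω.1) ω.2.2)) = F ω := by
      filter_upwards [h1] with ω hω
      rw [hord _ iδ] at hω
      exact hω
    exact Measure.ae_ae_of_ae_prod h2
  filter_upwards [k1, k2, ae_irrational_ratio hτ0 hna hk1 hk2] with u h1 h2 h3
  intro s
  have h3' : Irrational (((N:ℝ) * dt τ u) / ((N:ℝ) * dt (a⁻¹ * τ) u)) := by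
    rw [mul_div_mul_left _ _ (by exact_mod_cast hN.ne')]
    exact h3
  exact (pflow_fl2 (S := S) hΨ).all_times (f := fun w => F (u, w))
    (hFm.comp (measurable_const.prodMk measurable_id))
    (C := C) (fun w => hC _) h1 h2 h3' s

end Triangle
end Vale.Agent.P099
end
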