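import Vale.Agent.P099.H172.TwH
attribute [-instance] ProperSMul.toContinuousSMul IsTopologicalTorsor.toContinuousSMul IdemSemiring.toCanonicallyOrderedAdd IdemSemiring.toMulLeftMono IdemSemiring.toMulRightMono AddQuantale.instAddLeftMono AddQuantale.instAddRightMono Quantale.instMulLeftMono Quantale.instMulRightMono FiniteDimensional.rclike_to_real IsScalarTower.complexToReal FiniteDimensional.complexToReal
set_option linter.all false

section
open MeasureTheory Set Filter Topology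
namespace Vale.Agent.P099

open WM4

variable {S : Type} [Finite S] [Nonempty S] [MeasurableSpace S] [DiscreteMeasurableSpace S]
variable {Ω : Type} [MeasurableSpace Ω]

/-- the gluing maps on `S × Ω` -/
def sg {S : Type} (G : Gluing S) (i : Fin 3) (w : S × Ω) : S × Ω := (G.σ i w.1, w.2)

instance (G : Gluing S) : TwInv (sg (Ω := Ω) G) :=
  ⟨fun i => ((Measurable.of_discrete (f := G.σ i)).comp measurable_fst).prodMk measurable_snd,
    fun i q => Prod.ext (G.invol i _) rfl⟩

instance (G : Gluing S) (m : Measure Ω) [IsProbabilityMeasure m] :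
    TwMP ((un S).prod m) (sg (Ω := Ω) G) :=
  ⟨fun i => (unif_mp (G.inj i)).prod (MeasurePreserving.id m)⟩

instance (G : Gluing S) (Ψ : ℝ → Ω → Ω) : TwCom (fl2 S Ψ) (sg (Ω := Ω) G) := ⟨fun t i q => rfl⟩

namespace Triangle

variable (T : Triangle) (G : Gluing S)

/-- For EVERY triangle: the bounded invariant functions of the product of the flow of a tiled
surface with any measure preserving flow are functions of the direction, of the copy and of the
second factor, invariant under the reflections with the gluing maps and under the second flow. -/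
theorem relative_allT {m : Measure Ω} [IsProbabilityMeasure m] {Ψ : ℝ → Ω → Ω} (hΨ : PFlow m Ψ)
    {H : ℂ → ℂ × (S × Ω) → ℝ} (hH : Bdd H) (hF : T.FreeInv ((un S).prod m) (fl2 S Ψ) H)
    (hB : T.BounceInvS ((un S).prod m) (sg G) (fl2 S Ψ) H) :
    ∃ F : ℂ × (S × Ω) → ℝ, Measurable F ∧ (∃ C, ∀ ω, |F ω| ≤ C) ∧
      (∀ i, ∀ᵐ ω ∂(nu.prod ((un S).prod m)), F (T.refl i ω.1, (G.σ i ω.2.1, ω.2.2)) = F ω) ∧
      (∀ s : ℝ, ∀ᵐ ω ∂(nu.prod ((un S).prod m)), F (ω.1, (ω.2.1, Ψ s ω.2.2)) = F ω) ∧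
      ∀ᵐ p ∂((volume.restrict T.table).prod (nu.prod ((un S).prod m))), H p.1 p.2 = F p.2 := by
  obtain ⟨k, hk1, hk2⟩ := T.exists_rot_ne_neg_one
  have hΨ2 := pflow_fl2 (S := S) hΨ
  obtain ⟨F, hFm, ⟨C, hC⟩, hFH⟩ := T.exists_F hΨ2 hH hF
    (fun φ h1 h2 h3 => T.weakYS hΨ2 hH hF hB φ h1 h2 h3) (T.P k)
  have mdt : ∀ w : ℂ, Measurable fun u : ℂ => dt w u := fun w =>
    measurable_dt.comp (measurable_const.prodMk measurable_id)
  have hR : ∀ i, RelS m Ψ F (T.refl i) (G.σ i) (fun u => dt (T.R i (T.P k) - T.P k) u) := fun i =>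
    T.F_reflS hΨ2 hH hB (T.P k) hFm hFH i
  have hall := T.all_times_of_relS G hΨ hFm hC hk1 hk2 hR
  have hinv : ∀ s : ℝ, ∀ᵐ ω ∂(nu.prod ((un S).prod m)), F (ω.1, (ω.2.1, Ψ s ω.2.2)) = F ω := by
    intro s
    have hm1 : Measurable fun ω : ℂ × (S × Ω) => F (ω.1, fl2 S Ψ s ω.2) :=
      hFm.comp (measurable_fst.prodMk (hΨ2.meas.comp (measurable_const.prodMk measurable_snd)))
    refine (Measure.ae_prod_mem_iff_ae_ae_mem (measurableSet_eq_fun hm1 hFm)).2 ?_
    filter_upwards [hall] with u hu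
    exact hu s
  refine ⟨F, hFm, ⟨C, hC⟩, fun i => ?_, hinv, ?_⟩
  · -- reflections
    have h1 : ∀ᵐ u ∂nu, ∀ s : ℝ, ∀ᵐ w ∂((un S).prod m),
        F (T.refl i u, fl2 S Ψ s w) = F (T.refl i u, w) :=
      (T.measurePreserving_refl i).quasiMeasurePreserving.ae hall
    have hsg : MeasurePreserving (sg (Ω := Ω) G i) ((un S).prod m) ((un S).prod m) :=
      TwMP.mp (ς := sg (Ω := Ω) G) i
    have h2 : ∀ᵐ ω ∂(nu.prod ((un S).prod m)),
        F (T.refl i ω.1, fl2 S Ψ (dt (T.R i (T.P k) - T.P k) ω.1) (sg G i ω.2)) =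
        F (T.refl i ω.1, sg G i ω.2) := by
      have hmr : Measurable fun ω : ℂ × (S × Ω) => T.refl i ω.1 :=
        (T.continuous_refl i).measurable.comp measurable_fst
      have hm1 : Measurable fun ω : ℂ × (S × Ω) =>
          F (T.refl i ω.1, fl2 S Ψ (dt (T.R i (T.P k) - T.P k) ω.1) (sg G i ω.2)) :=
        hFm.comp (hmr.prodMk (hΨ2.meas.comp (((mdt _).comp measurable_fst).prodMk
          (hsg.measurable.comp measurable_snd))))
      have hm2 : Measurable fun ω : ℂ × (S × Ω) => F (T.refl i ω.1, sg G i ω.2) :=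
        hFm.comp (hmr.prodMk (hsg.measurable.comp measurable_snd))
      refine (Measure.ae_prod_mem_iff_ae_ae_mem (measurableSet_eq_fun hm1 hm2)).2 ?_
      filter_upwards [h1] with u hu
      exact hsg.quasiMeasurePreserving.ae (hu _)
    have h3 : ∀ᵐ ω ∂(nu.prod ((un S).prod m)),
        F (T.refl i ω.1, fl2 S Ψ (dt (T.R i (T.P k) - T.P k) ω.1) (sg G i ω.2)) = F ω :=
      hR i
    filter_upwards [h2, h3] with ω g1 g2
    show F (T.refl i ω.1, sg G i ω.2) = F ω
    rw [← g1, g2]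
  · -- straightening back
    have hSh : MeasurePreserving (fun p : ℂ × (ℂ × (S × Ω)) =>
        (p.1, (p.2.1, fl2 S Ψ (-dt (p.1 - T.P k) p.2.1) p.2.2)))
        ((volume.restrict T.table).prod (nu.prod ((un S).prod m)))
        ((volume.restrict T.table).prod (nu.prod ((un S).prod m))) := by
      refine MeasurePreserving.skew_product
        (g := fun x (ω : ℂ × (S × Ω)) => (ω.1, fl2 S Ψ (-dt (x - T.P k) ω.1) ω.2))
        (MeasurePreserving.id _) ?_ ?_
      · have h1 : Measurable fun p : ℂ × (ℂ × (S × Ω)) => dt (p.1 - T.P k) p.2.1 :=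
          measurable_dt.comp ((measurable_fst.sub_const _).prodMk
            (measurable_fst.comp measurable_snd))
        exact (measurable_fst.comp measurable_snd).prodMk
          (hΨ2.meas.comp (h1.neg.prodMk (measurable_snd.comp measurable_snd)))
      · exact ae_of_all _ fun x =>
          (mp_shear hΨ2 (MeasurePreserving.id nu) (mdt (x - T.P k)).neg).map_eq
    have h1 := hSh.quasiMeasurePreserving.ae hFH
    have hmd : Measurable fun p : ℂ × (ℂ × (S × Ω)) => dt (p.1 - T.P k) p.2.1 :=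
      measurable_dt.comp ((measurable_fst.sub_const _).prodMk (measurable_fst.comp measurable_snd))
    have hmP : Measurable fun p : ℂ × (ℂ × (S × Ω)) =>
        fl2 S Ψ (-dt (p.1 - T.P k) p.2.1) p.2.2 :=
      hΨ2.meas.comp (hmd.neg.prodMk (measurable_snd.comp measurable_snd))
    have h2 : ∀ᵐ p ∂((volume.restrict T.table).prod (nu.prod ((un S).prod m))),
        H p.1 (p.2.1, fl2 S Ψ (dt (p.1 - T.P k) p.2.1) (fl2 S Ψ (-dt (p.1 - T.P k) p.2.1) p.2.2)) =
          H p.1 p.2 := by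
      have hm1 : Measurable fun p : ℂ × (ℂ × (S × Ω)) =>
          H p.1 (p.2.1, fl2 S Ψ (dt (p.1 - T.P k) p.2.1)
            (fl2 S Ψ (-dt (p.1 - T.P k) p.2.1) p.2.2)) :=
        hH.1.comp (measurable_fst.prodMk ((measurable_fst.comp measurable_snd).prodMk
          (hΨ2.meas.comp (hmd.prodMk hmP))))
      have hms := measurableSet_eq_fun hm1 hH.1
      refine (Measure.ae_prod_mem_iff_ae_ae_mem hms).2 (ae_of_all _ fun x => ?_)
      refine (Measure.ae_prod_mem_iff_ae_ae_mem (measurable_prodMk_left hms)).2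
        (ae_of_all _ fun u => ?_)
      filter_upwards [hΨ2.add (dt (x - T.P k) u) (-dt (x - T.P k) u), hΨ2.zero] with q h3 h4
      show H x (u, fl2 S Ψ (dt (x - T.P k) u) (fl2 S Ψ (-dt (x - T.P k) u) q)) = H x (u, q)
      rw [← h3, add_neg_cancel, h4]
    have h3 : ∀ᵐ p ∂((volume.restrict T.table).prod (nu.prod ((un S).prod m))),
        F (p.2.1, fl2 S Ψ (-dt (p.1 - T.P k) p.2.1) p.2.2) = F p.2 := by
      have hms := measurableSet_eq_fun (hFm.comp ((measurable_fst.comp
        (measurable_snd (α := ℂ) (β := ℂ × (S × Ω)))).prodMk hmP))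
        (hFm.comp (measurable_snd (α := ℂ) (β := ℂ × (S × Ω))))
      refine (Measure.ae_prod_mem_iff_ae_ae_mem hms).2 (ae_of_all _ fun x => ?_)
      refine (Measure.ae_prod_mem_iff_ae_ae_mem (measurable_prodMk_left hms)).2 ?_
      filter_upwards [hall] with u hu
      exact hu (-dt (x - T.P k) u)
    filter_upwards [h1, h2, h3] with p g1 g2 g3
    rw [← g2, g1, g3]

/-! ### words -/

variable {T G}

/-- the copy after a word of reflections -/
def GS {S : Type} (G : Gluing S) : List (Fin 3) → S → S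
  | [], a => a
  | i :: w, a => GS G w (G.σ i a)

omit [Finite S] [Nonempty S] [MeasurableSpace S] [DiscreteMeasurableSpace S] in
lemma GS_append (w : List (Fin 3)) (i : Fin 3) (a : S) :
    GS G (w ++ [i]) a = G.σ i (GS G w a) := by
  induction w generalizing a with
  | nil => rfl
  | cons j w ih => exact ih _

omit [Finite S] [Nonempty S] [MeasurableSpace S] [DiscreteMeasurableSpace S] in
lemma exists_wordS (s : ℂ × ℂ) (a : S) (n : ℕ) : ∃ w, (T.sq s n).2 = T.GU w s.2 ∧
    T.pm G s n a = GS G w a := by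
  induction n with
  | zero => exact ⟨[], rfl, rfl⟩
  | succ n ih =>
    obtain ⟨w, h1, h2⟩ := ih
    refine ⟨w ++ [T.ex (T.sq s n)], ?_, ?_⟩
    · rw [sq_succ_snd, GU_append, h1]
    · rw [GS_append, ← h2]; rfl

omit [Finite S] [Nonempty S] [MeasurableSpace S] [DiscreteMeasurableSpace S] in
lemma exists_word_trajT (z : (ℂ × ℂ) × S) (t : ℝ) :
    ∃ w, (T.trajT G t z).1.2 = T.GU w z.1.2 ∧ (T.trajT G t z).2 = GS G w z.2 := by
  rcases le_or_gt 0 t with ht | ht
  · obtain ⟨w, h1, h2⟩ := exists_wordS (T := T) (G := G) z.1 z.2 (T.idx z.1 t)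
    refine ⟨w, ?_, ?_⟩
    · rw [trajT, if_pos ht]; exact h1
    · rw [trajT, if_pos ht]; exact h2
  · obtain ⟨w, h1, h2⟩ := exists_wordS (T := T) (G := G) (flip z.1) z.2 (T.idx (flip z.1) (-t))
    refine ⟨w, ?_, ?_⟩
    · rw [trajT, if_neg (not_le.2 ht)]
      show -(T.sq (flip z.1) (T.idx (flip z.1) (-t))).2 = _
      rw [h1]
      show -(T.GU w (-z.1.2)) = _
      rw [GU_neg, neg_neg]
    · rw [trajT, if_neg (not_le.2 ht)]; exact h2

/-- invariance under words -/
lemma word_invS {m : Measure Ω} [IsProbabilityMeasure m] {F : ℂ × (S × Ω) → ℝ}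
    (hF : ∀ i, ∀ᵐ ω ∂(nu.prod ((un S).prod m)), F (T.refl i ω.1, (G.σ i ω.2.1, ω.2.2)) = F ω)
    (w : List (Fin 3)) :
    ∀ᵐ ω ∂(nu.prod ((un S).prod m)), F (T.GU w ω.1, (GS G w ω.2.1, ω.2.2)) = F ω := by
  induction w with
  | nil => exact ae_of_all _ fun ω => rfl
  | cons i w ih =>
    have h1 : MeasurePreserving (fun ω : ℂ × (S × Ω) => (T.refl i ω.1, (G.σ i ω.2.1, ω.2.2)))
        (nu.prod ((un S).prod m)) (nu.prod ((un S).prod m)) :=
      (T.measurePreserving_refl i).prod ((unif_mp (G.inj i)).prod (MeasurePreserving.id m))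
    have h2 := h1.quasiMeasurePreserving.ae ih
    filter_upwards [h2, hF i] with ω g1 g2
    show F (T.GU w (T.refl i ω.1), (GS G w (G.σ i ω.2.1), ω.2.2)) = F ω
    exact g1.trans g2

end Triangle
end Vale.Agent.P099
end
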