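import Vale.Agent.P099.H172.TwI
attribute [-instance] ProperSMul.toContinuousSMul IsTopologicalTorsor.toContinuousSMul IdemSemiring.toCanonicallyOrderedAdd IdemSemiring.toMulLeftMono IdemSemiring.toMulRightMono AddQuantale.instAddLeftMono AddQuantale.instAddRightMono Quantale.instMulLeftMono Quantale.instMulRightMono FiniteDimensional.rclike_to_real IsScalarTower.complexToReal FiniteDimensional.complexToReal
set_option linter.all false

section
open MeasureTheory Set Filter Topology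
namespace Vale.Agent.P099

open WM4

variable {S : Type} [Finite S] [Nonempty S] [MeasurableSpace S] [DiscreteMeasurableSpace S]
variable {Ω : Type} [MeasurableSpace Ω]

instance (T : Triangle) : IsProbabilityMeasure (T.tiledMu S) := Triangle.isProb_tiledMu T S

namespace Triangle

variable (T : Triangle) {G : Gluing S}

/-- transfer of almost everywhere statements -/
lemma ae_tiled_iff {m : Measure Ω} [IsProbabilityMeasure m] {P : ((ℂ × ℂ) × S) × Ω → Prop} :
    (∀ᵐ z ∂((T.tiledMu S).prod m), P z) ↔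
      ∀ᵐ p ∂((volume.restrict T.table).prod (nu.prod ((un S).prod m))),
        P (((p.1, p.2.1), p.2.2.1), p.2.2.2) := by
  have h1 := measurePreserving_prodAssoc T.mu (un S) m
  constructor
  · intro hP
    have h2 : ∀ᵐ w ∂(T.mu.prod ((un S).prod m)), P ((w.1, w.2.1), w.2.2) :=
      (h1.symm _).quasiMeasurePreserving.ae hP
    exact T.ae_prod_mu_iff.mp h2
  · intro hP
    have h2 : ∀ᵐ w ∂(T.mu.prod ((un S).prod m)), P ((w.1, w.2.1), w.2.2) := by
      rw [T.ae_prod_mu_iff]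
      exact hP
    exact h1.quasiMeasurePreserving.ae h2

omit [Finite S] [Nonempty S] [DiscreteMeasurableSpace S] in
lemma ae_dir_iff [Finite S] [Nonempty S] [DiscreteMeasurableSpace S] {m : Measure Ω}
    [IsProbabilityMeasure m] {P : (ℂ × S) × Ω → Prop} :
    (∀ᵐ z ∂((nu.prod (un S)).prod m), P z) ↔
      ∀ᵐ p ∂(nu.prod ((un S).prod m)), P ((p.1, p.2.1), p.2.2) := by
  have h1 := measurePreserving_prodAssoc nu (un S) m
  exact ⟨fun h => (h1.symm _).quasiMeasurePreserving.ae h,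
    fun h => h1.quasiMeasurePreserving.ae h⟩

/-- the direction and the copy are uniformly distributed -/
lemma mp_dirT (m : Measure Ω) [IsProbabilityMeasure m] :
    MeasurePreserving (fun z : ((ℂ × ℂ) × S) × Ω => ((z.1.1.2, z.1.2), z.2))
      ((T.tiledMu S).prod m) ((nu.prod (un S)).prod m) := by
  have hp : IsProbabilityMeasure (ProbabilityTheory.cond (volume : Measure ℂ) T.table) :=
    ProbabilityTheory.cond_isProbabilityMeasure_of_finite T.volume_table_pos.ne'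
      T.volume_table_lt_top.ne
  have h1 : MeasurePreserving (fun p : ℂ × ℂ => p.2) T.mu nu := by
    rw [mu]
    exact measurePreserving_snd
  have h2 : MeasurePreserving (fun z : (ℂ × ℂ) × S => (z.1.2, z.2)) (T.tiledMu S)
      (nu.prod (un S)) := h1.prod (MeasurePreserving.id (un S))
  exact h2.prod (MeasurePreserving.id m)

/-- bounded invariant functions -/
theorem invariant_bddT {m : Measure Ω} [IsProbabilityMeasure m] {Ψ : ℝ → Ω → Ω} (hΨ : PFlow m Ψ)
    {Φ : ℝ → (ℂ × ℂ) × S → (ℂ × ℂ) × S} (hb : T.IsTiledFlow G Φ)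
    {f : ((ℂ × ℂ) × S) × Ω → ℝ} (hf : Measurable f) {C : ℝ} (hC : ∀ z, |f z| ≤ C)
    (hinv : ∀ t, ∀ᵐ z ∂((T.tiledMu S).prod m), f (Φ t z.1, Ψ t z.2) = f z) :
    ∃ g : (ℂ × S) × Ω → ℝ, Measurable g ∧
      (∀ i, ∀ᵐ w ∂((nu.prod (un S)).prod m), g ((T.refl i w.1.1, G.σ i w.1.2), w.2) = g w) ∧
      (∀ s : ℝ, ∀ᵐ w ∂((nu.prod (un S)).prod m), g (w.1, Ψ s w.2) = g w) ∧
      ∀ᵐ z ∂((T.tiledMu S).prod m), f z = g ((z.1.1.2, z.1.2), z.2) := by
  set H : ℂ → ℂ × (S × Ω) → ℝ := fun x ω => f (((x, ω.1), ω.2.1), ω.2.2) with hH0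
  have hH : Bdd H := ⟨hf.comp (by fun_prop), C, fun y ω => hC _⟩
  obtain ⟨Ψ1, _, _, hu, hgood⟩ := exists_good_flowT T G
  have hgood' : ∀ᵐ z ∂((T.tiledMu S).prod m), z.1.1.1 ∈ T.table ∧ T.Good z.1.1 ∧
      ∀ t, Ψ1 t z.1 = T.trajT G t z.1 := Measure.quasiMeasurePreserving_fst.ae hgood
  have huz : ∀ t, ∀ᵐ z ∂((T.tiledMu S).prod m), Φ t z.1 = Ψ1 t z.1 := fun t =>
    Measure.quasiMeasurePreserving_fst.ae (hu Φ hb t)
  have hF : T.FreeInv ((un S).prod m) (fl2 S Ψ) H := by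
    intro t ht
    have h1 : ∀ᵐ z ∂((T.tiledMu S).prod m), z.1.1.1 + t • z.1.1.2 ∈ T.table →
        f (((z.1.1.1 + t • z.1.1.2, z.1.1.2), z.1.2), Ψ t z.2) = f z := by
      filter_upwards [hgood', huz t, hinv t] with z hz hz2 hz3 hin
      rw [← hz3, hz2, hz.2.2 t, hz.2.1.trajT_free ht.le hin]
    exact T.ae_tiled_iff.mp h1
  have hB : T.BounceInvS ((un S).prod m) (sg G) (fl2 S Ψ) H := by
    intro t ht i
    have h1 : ∀ᵐ z ∂((T.tiledMu S).prod m), T.E i z.1.1 → T.hitT i z.1.1 < t →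
        T.R i (z.1.1.1 + t • z.1.1.2) ∈ T.table →
        f (((T.R i (z.1.1.1 + t • z.1.1.2), T.refl i z.1.1.2), G.σ i z.1.2), Ψ t z.2) = f z := by
      filter_upwards [hgood', huz t, hinv t] with z hz hz2 hz3 hE hlt hin
      rw [← hz3, hz2, hz.2.2 t, hz.2.1.trajT_bounce hE hlt hin]
    exact T.ae_tiled_iff.mp h1
  obtain ⟨g, mg, -, rg, ig, hg⟩ := T.relative_allT G hΨ hH hF hB
  refine ⟨fun w => g (w.1.1, (w.1.2, w.2)), mg.comp (by fun_prop), fun i => ?_, fun s => ?_, ?_⟩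
  · exact ae_dir_iff.2 (rg i)
  · exact ae_dir_iff.2 (ig s)
  · exact T.ae_tiled_iff.2 hg

/-- invariant functions -/
theorem invariant_ofT {m : Measure Ω} [IsProbabilityMeasure m] {Ψ : ℝ → Ω → Ω} (hΨ : PFlow m Ψ)
    {Φ : ℝ → (ℂ × ℂ) × S → (ℂ × ℂ) × S} (hb : T.IsTiledFlow G Φ)
    {f : ((ℂ × ℂ) × S) × Ω → ℝ} (hf : Measurable f)
    (hinv : ∀ t, ∀ᵐ z ∂((T.tiledMu S).prod m), f (Φ t z.1, Ψ t z.2) = f z) :
    ∃ g : (ℂ × S) × Ω → ℝ, Measurable g ∧
      (∀ i, ∀ᵐ w ∂((nu.prod (un S)).prod m), g ((T.refl i w.1.1, G.σ i w.1.2), w.2) = g w) ∧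
      (∀ s : ℝ, ∀ᵐ w ∂((nu.prod (un S)).prod m), g (w.1, Ψ s w.2) = g w) ∧
      ∀ᵐ z ∂((T.tiledMu S).prod m), f z = g ((z.1.1.2, z.1.2), z.2) := by
  obtain ⟨g, mg, rg, ig, hg⟩ := T.invariant_bddT hΨ hb (f := fun z => Real.arctan (f z))
    (Real.continuous_arctan.measurable.comp hf) (C := Real.pi / 2) (fun z => by
      rw [abs_le]
      exact ⟨(Real.neg_pi_div_two_lt_arctan _).le, (Real.arctan_lt_pi_div_two _).le⟩)
    (fun t => by
      filter_upwards [hinv t] with z hz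
      rw [hz])
  have mtan : Measurable Real.tan := by
    have : Real.tan = fun x => Real.sin x / Real.cos x := funext Real.tan_eq_sin_div_cos
    rw [this]
    exact Real.measurable_sin.div Real.measurable_cos
  refine ⟨fun ω => Real.tan (g ω), mtan.comp mg, fun i => ?_, fun s => ?_, ?_⟩
  · filter_upwards [rg i] with ω hω
    rw [hω]
  · filter_upwards [ig s] with ω hω
    rw [hω]
  · filter_upwards [hg] with z hz
    rw [← hz, Real.tan_arctan]

/-- the converse -/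
theorem invariant_convT {m : Measure Ω} [IsProbabilityMeasure m] {Ψ : ℝ → Ω → Ω} (hΨ : PFlow m Ψ)
    {Φ : ℝ → (ℂ × ℂ) × S → (ℂ × ℂ) × S} (hb : T.IsTiledFlow G Φ)
    {f : ((ℂ × ℂ) × S) × Ω → ℝ} {g : (ℂ × S) × Ω → ℝ}
    (hr : ∀ i, ∀ᵐ w ∂((nu.prod (un S)).prod m), g ((T.refl i w.1.1, G.σ i w.1.2), w.2) = g w)
    (hi : ∀ s : ℝ, ∀ᵐ w ∂((nu.prod (un S)).prod m), g (w.1, Ψ s w.2) = g w)
    (hfg : ∀ᵐ z ∂((T.tiledMu S).prod m), f z = g ((z.1.1.2, z.1.2), z.2)) (t : ℝ) :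
    ∀ᵐ z ∂((T.tiledMu S).prod m), f (Φ t z.1, Ψ t z.2) = f z := by
  obtain ⟨Θ, hΘ, hΘb, hu, hgood⟩ := exists_good_flowT T G
  have h1 : MeasurePreserving (fun z : ((ℂ × ℂ) × S) × Ω => (Θ t z.1, Ψ t z.2))
      ((T.tiledMu S).prod m) ((T.tiledMu S).prod m) := (hΘ.mp t).prod (hΨ.mp t)
  have h2 := h1.quasiMeasurePreserving.ae hfg
  have h3 : ∀ᵐ z ∂((T.tiledMu S).prod m), Φ t z.1 = Θ t z.1 :=
    Measure.quasiMeasurePreserving_fst.ae (hu Φ hb t)
  have h4' : ∀ᵐ z ∂(T.tiledMu S), ∃ w, (Θ t z).1.2 = T.GU w z.1.2 ∧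
      (Θ t z).2 = GS G w z.2 := by
    filter_upwards [hgood] with z hz
    rw [hz.2.2 t]
    exact exists_word_trajT z t
  have h4 : ∀ᵐ z ∂((T.tiledMu S).prod m), ∃ w, (Θ t z.1).1.2 = T.GU w z.1.1.2 ∧
      (Θ t z.1).2 = GS G w z.1.2 := Measure.quasiMeasurePreserving_fst.ae h4'
  have h5' : ∀ w, ∀ᵐ p ∂(nu.prod ((un S).prod m)),
      g ((T.GU w p.1, GS G w p.2.1), p.2.2) = g ((p.1, p.2.1), p.2.2) := fun w =>
    word_invS (T := T) (G := G) (F := fun ω => g ((ω.1, ω.2.1), ω.2.2))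
      (fun i => ae_dir_iff.1 (hr i)) w
  have h5 : ∀ᵐ w ∂((nu.prod (un S)).prod m), ∀ l, g ((T.GU l w.1.1, GS G l w.1.2), w.2) = g w := by
    rw [ae_all_iff]
    intro l
    exact ae_dir_iff.2 (h5' l)
  have h6 : MeasurePreserving (fun w : (ℂ × S) × Ω => (w.1, Ψ t w.2)) ((nu.prod (un S)).prod m)
      ((nu.prod (un S)).prod m) :=
    (MeasurePreserving.id (nu.prod (un S))).prod (hΨ.mp t)
  have h7 := (T.mp_dirT (S := S) m).quasiMeasurePreserving.ae (h6.quasiMeasurePreserving.ae h5)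
  have h8 := (T.mp_dirT (S := S) m).quasiMeasurePreserving.ae (hi t)
  filter_upwards [hfg, h2, h3, h4, h7, h8] with z g1 g2 g3 g4 g5 g6
  obtain ⟨w, hw, hw'⟩ := g4
  rw [g3, g2, hw, hw', g1]
  exact (g5 w).trans g6

/-- the product of the flow of a surface tiled by an irrational triangle with an ergodic flow is
ergodic -/
theorem prod_ergodicT (hT : T.IsIrrational) {m : Measure Ω} [IsProbabilityMeasure m]
    {Ψ : ℝ → Ω → Ω} (hΨ : PFlow m Ψ) (hE : FlowErgodic m Ψ)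
    {Φ : ℝ → (ℂ × ℂ) × S → (ℂ × ℂ) × S} (hb : T.IsTiledFlow G Φ) :
    FlowErgodic ((T.tiledMu S).prod m) (fun t z => (Φ t z.1, Ψ t z.2)) := by
  intro A hA hinv
  set f : ((ℂ × ℂ) × S) × Ω → ℝ := A.indicator (fun _ => (1:ℝ)) with hf
  have mf : Measurable f := measurable_const.indicator hA
  have hfinv : ∀ t, ∀ᵐ z ∂((T.tiledMu S).prod m), f (Φ t z.1, Ψ t z.2) = f z := by
    intro t
    filter_upwards [ae_iff_of_symmDiff (hinv t)] with z hz
    have hz' : (Φ t z.1, Ψ t z.2) ∈ A ↔ z ∈ A := hz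
    simp only [hf]
    by_cases hA' : z ∈ A
    · rw [indicator_of_mem hA', indicator_of_mem (hz'.mpr hA')]
    · rw [indicator_of_notMem hA', indicator_of_notMem (fun h => hA' (hz'.mp h))]
  have hC : ∃ C, ∀ z, |f z| ≤ C := ⟨1, fun z => by
    by_cases hz : z ∈ A
    · simp [hf, hz]
    · simp [hf, hz]⟩
  obtain ⟨h, mh, -, hhinv, hAh⟩ := tiled_relative hT hb hΨ mf hC hfinv
  set B : Set Ω := {q | h q = 1} with hB
  have hBm : MeasurableSet B := measurableSet_eq_fun mh measurable_const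
  have hBinv : ∀ t, m (symmDiff (Ψ t ⁻¹' B) B) = 0 := by
    intro t
    rw [measure_symmDiff_eq_zero_iff]
    filter_upwards [hhinv t] with q hq
    apply propext
    show h (Ψ t q) = 1 ↔ h q = 1
    rw [hq]
  rcases hE B hBm hBinv with h0 | h1
  · left
    rw [measure_eq_zero_iff_ae_notMem]
    have h2 : ∀ᵐ q ∂m, q ∉ B := measure_eq_zero_iff_ae_notMem.1 h0
    have h3 : ∀ᵐ z ∂((T.tiledMu S).prod m), z.2 ∉ B := Measure.quasiMeasurePreserving_snd.ae h2
    filter_upwards [hAh, h3] with z a1 a2 hz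
    apply a2
    show h z.2 = 1
    rw [← a1]
    simp [hf, hz]
  · right
    have h2 : ∀ᵐ q ∂m, q ∈ B := by
      have := (prob_compl_eq_zero_iff hBm).2 h1
      exact mem_ae_iff.2 this
    have h3 : ∀ᵐ z ∂((T.tiledMu S).prod m), z.2 ∈ B := Measure.quasiMeasurePreserving_snd.ae h2
    rw [← prob_compl_eq_zero_iff hA]
    rw [measure_eq_zero_iff_ae_notMem]
    filter_upwards [hAh, h3] with z a1 a2 hz
    have a3 : h z.2 = 1 := a2
    rw [← a1] at a3
    simp [hf] at a3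
    exact hz a3

/-- the flow of a tiled surface is ergodic if and only if the triangle is irrational -/
theorem ergodic_iffT {Φ : ℝ → (ℂ × ℂ) × S → (ℂ × ℂ) × S} (hb : T.IsTiledFlow G Φ) :
    FlowErgodic (T.tiledMu S) Φ ↔ T.IsIrrational := by
  refine ⟨fun h => ?_, fun hT => tiled_ergodic hT hb⟩
  by_contra hT
  obtain ⟨A, hA, h0, h1, hinv⟩ := T.exists_inv_set hT
  have hg : ∀ᵐ p ∂T.mu, p.1 ∈ T.table ∧ T.Good p ∧ T.Good (flip p) := by
    rw [T.ae_mu_iff]; exact T.ae_good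
  have htr : T.IsBilliardFlow T.traj := by
    filter_upwards [hg] with p hp
    refine ⟨?_, isTrajectory_traj hp.1 hp.2.1 hp.2.2⟩
    rw [traj, if_pos le_rfl, hp.2.1.fw_small le_rfl (hp.2.1.tau_pos 0)]; simp
  obtain ⟨Ψ1, _, _, hu, hgood⟩ := exists_good_flowT T G
  have h2 : (T.tiledMu S) (Prod.fst ⁻¹' A) = T.mu A := by
    have hU := isProb_unif S
    exact (measurePreserving_fst (μ := T.mu) (ν := un S)).measure_preimage hA.nullMeasurableSet
  have h5 : ∀ t, (T.tiledMu S) (symmDiff (Φ t ⁻¹' (Prod.fst ⁻¹' A)) (Prod.fst ⁻¹' A)) = 0 := by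
    intro t
    have h3 := hinv _ htr t
    rw [measure_symmDiff_eq_zero_iff] at h3 ⊢
    have h4 : ∀ᵐ z ∂(T.tiledMu S), (T.traj t ⁻¹' A) z.1 = A z.1 :=
      Measure.quasiMeasurePreserving_fst.ae h3
    filter_upwards [h4, hu Φ hb t, hgood] with z hz hz2 hz3
    apply propext
    have e1 : (Φ t z).1 = T.traj t z.1 := by rw [hz2, hz3.2.2 t, trajT_fst]
    show (Φ t z).1 ∈ A ↔ z.1 ∈ A
    rw [e1]
    exact Iff.of_eq hz
  rcases h (Prod.fst ⁻¹' A) (measurable_fst hA) h5 with h3 | h3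
  · rw [h2] at h3; exact h0 h3
  · rw [h2] at h3; exact h1 h3

/-- the flow of a tiled surface is weakly mixing if and only if the triangle is irrational -/
theorem weakMixing_iffT {Φ : ℝ → (ℂ × ℂ) × S → (ℂ × ℂ) × S} (hb : T.IsTiledFlow G Φ) :
    FlowWeakMixing (T.tiledMu S) Φ ↔ T.IsIrrational := by
  refine ⟨fun h => (T.ergodic_iffT hb).1 (FlowErgodic.fst h), fun hT => ?_⟩
  obtain ⟨Ψ1, hΨ1, hb1, hu, _⟩ := exists_good_flowT T G
  have h1 := T.prod_ergodicT hT hΨ1 (tiled_ergodic hT hb1) hb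
  refine FlowErgodic.congr h1 fun t => ?_
  have h2 : ∀ᵐ z ∂((T.tiledMu S).prod (T.tiledMu S)), Φ t z.2 = Ψ1 t z.2 :=
    Measure.quasiMeasurePreserving_snd.ae (hu Φ hb t)
  filter_upwards [h2] with z hz
  show (Φ t z.1, Ψ1 t z.2) = (Φ t z.1, Φ t z.2)
  rw [hz]

/-- The flow of a tiled surface, for a rational or an irrational triangle, has no eigenvalue except
zero. -/
theorem no_eigenvalueT {Φ : ℝ → (ℂ × ℂ) × S → (ℂ × ℂ) × S} (hb : T.IsTiledFlow G Φ) {lam : ℝ}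
    (hlam : lam ≠ 0) {f : (ℂ × ℂ) × S → ℂ} (hf : Measurable f)
    (hinv : ∀ t : ℝ, ∀ᵐ p ∂(T.tiledMu S),
      f (Φ t p) = Complex.exp ((lam * t : ℝ) * Complex.I) * f p) :
    ∀ᵐ p ∂(T.tiledMu S), f p = 0 := by
  set h : ((ℂ × ℂ) × S) × ℂ → ℝ := fun z => (f z.1 * z.2).re with hh
  have mh : Measurable h :=
    Complex.measurable_re.comp ((hf.comp measurable_fst).mul measurable_snd)
  obtain ⟨g, mg, -, ig, hg⟩ := T.invariant_ofT (pflow_rot lam) hb mh (fun t => by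
    have h1 : ∀ᵐ z ∂((T.tiledMu S).prod nu),
        f (Φ t z.1) = Complex.exp ((lam * t : ℝ) * Complex.I) * f z.1 :=
      Measure.quasiMeasurePreserving_fst.ae (hinv t)
    filter_upwards [h1] with z hz
    simp only [hh]
    rw [hz]
    congr 1
    have h2 : Complex.exp ((lam * t : ℝ) * Complex.I) * Complex.exp (-(lam * t : ℝ) * Complex.I) = 1 := by
      rw [← Complex.exp_add, ← Complex.exp_zero]
      congr 1; ring
    linear_combination (f z.1 * z.2) * h2)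
  -- compare the values at `q` and at a rotated `q`
  have key : ∀ s : ℝ, ∀ᵐ z ∂((T.tiledMu S).prod nu),
      (f z.1 * (Complex.exp (-(lam * s : ℝ) * Complex.I) * z.2)).re = (f z.1 * z.2).re := by
    intro s
    have h1 : MeasurePreserving
        (fun z : ((ℂ × ℂ) × S) × ℂ => (z.1, Complex.exp (-(lam * s : ℝ) * Complex.I) * z.2))
        ((T.tiledMu S).prod nu) ((T.tiledMu S).prod nu) :=
      (MeasurePreserving.id _).prod ((pflow_rot lam).mp s)
    have h2 := h1.quasiMeasurePreserving.ae hg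
    have h3 := (T.mp_dirT (S := S) nu).quasiMeasurePreserving.ae (ig s)
    filter_upwards [hg, h2, h3] with z a1 a2 a3
    have a2' : (f z.1 * (Complex.exp (-(lam * s : ℝ) * Complex.I) * z.2)).re =
      g ((z.1.1.2, z.1.2), Complex.exp (-(lam * s : ℝ) * Complex.I) * z.2) := a2
    have a3' : g ((z.1.1.2, z.1.2), Complex.exp (-(lam * s : ℝ) * Complex.I) * z.2) =
      g ((z.1.1.2, z.1.2), z.2) := a3
    rw [a2', a3', ← a1]
  have k1 := key (Real.pi / lam)
  have k2 := key (Real.pi / 2 / lam)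
  have e1 : Complex.exp (-(lam * (Real.pi / lam) : ℝ) * Complex.I) = -1 := by
    rw [mul_div_cancel₀ _ hlam]
    rw [show (-(Real.pi : ℂ) * Complex.I) = -(Real.pi * Complex.I) by ring, Complex.exp_neg,
      Complex.exp_pi_mul_I]
    norm_num
  have e2 : Complex.exp (-(lam * (Real.pi / 2 / lam) : ℝ) * Complex.I) = -Complex.I := by
    rw [mul_div_cancel₀ _ hlam]
    rw [show (-((Real.pi / 2 : ℝ) : ℂ) * Complex.I) = -(((Real.pi / 2 : ℝ) : ℂ) * Complex.I) by ring,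
      Complex.exp_neg, Complex.exp_mul_I, ← Complex.ofReal_cos, ← Complex.ofReal_sin]
    simp
  rw [e1] at k1
  rw [e2] at k2
  have hn : ∀ᵐ z ∂((T.tiledMu S).prod nu), ‖z.2‖ = 1 :=
    Measure.quasiMeasurePreserving_snd.ae ae_norm
  have h5 : ∀ᵐ z ∂((T.tiledMu S).prod nu), f z.1 = 0 := by
    filter_upwards [k1, k2, hn] with z a1 a2 a3
    have b1 : f z.1 * (-1 * z.2) = -(f z.1 * z.2) := by ring
    have b2 : f z.1 * (-Complex.I * z.2) = -(Complex.I * (f z.1 * z.2)) := by ring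
    rw [b1, Complex.neg_re] at a1
    rw [b2, Complex.neg_re, Complex.I_mul_re] at a2
    have c1 : f z.1 * z.2 = 0 := by
      apply Complex.ext
      · rw [Complex.zero_re]; linarith
      · rw [Complex.zero_im]; linarith
    rcases mul_eq_zero.1 c1 with c2 | c2
    · exact c2
    · rw [c2, norm_zero] at a3
      exact absurd a3 zero_ne_one
  have h6 := Measure.ae_ae_of_ae_prod h5
  filter_upwards [h6] with p hp
  exact hp.exists.choose_spec

end Triangle
end Vale.Agent.P099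
end
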